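import Vale.Agent.P032.R2.H805.S2m.W2.P0
import Vale.Agent.P032.R2.H805.Cov

/-!
# P032: root S2m, start word 2: start, step, end
-/

set_option autoImplicit false
set_option maxRecDepth 100000

namespace Vale.Agent.P032.R2.H805.S2m.W2

open Vale.Agent.P032.R2.H741.Tp
open Vale.Agent.P032.R2.H805.Step
open Vale.Agent.P032.R2.H805.Rup

section

variable {S : Sem}

theorem stepB (A : Ax G S) (H : Hds (val S) BX) : Hns (val S) B :=
  hns_cons (Blk0.blk A H) (
  hns_cons (Blk1.blk A H) (
  hns_cons (Blk2.blk A H) (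
  hns_cons (Blk3.blk A H) (
  hns_cons (Blk4.blk A H) (
  hns_cons (Blk5.blk A H) (hns_nil))))))

theorem f1 (A : Ax G S) : Hd (val S) (List.map nxl [1105]) := A.l .first rfl

theorem hx (h : Hd (val S) [1105]) (H : Hds (val S) B) : Hds (val S) BX := by
  intro b hb
  rcases List.mem_append.1 hb with h1 | h1
  · exact H b h1
  · rw [List.mem_singleton.1 h1]
    have h2 : ∀ c ∈ exF, (1105 : ℕ) ∈ c := by decide
    intro c hc
    obtain ⟨j, hj, hl⟩ := h
    rw [List.mem_singleton] at hj
    exact ⟨1105, h2 c hc, hj ▸ hl⟩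

theorem hx2 (h : ∀ c ∈ ex, Hd (val S) c) (H : Hds (val S) B) : Hds (val S) BX := by
  intro b hb
  rcases List.mem_append.1 hb with h1 | h1
  · exact H b h1
  · rw [List.mem_singleton.1 h1]
    have h2 : ∀ c ∈ exF, ∃ e ∈ ex, ∀ j ∈ e, j ∈ c := by decide
    intro c hc
    obtain ⟨e, he, h3⟩ := h2 c hc
    obtain ⟨j, hj, hl⟩ := h e he
    exact ⟨j, h3 j hj, hl⟩

/-- **step** -/
theorem step (A : Ax G S) (H : ∀ c ∈ inv, Hd (val S) c) : ∀ c ∈ inv, Hd (val S) (c.map nxl) := by
  have h1 := List.forall_mem_cons.1 H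
  exact List.forall_mem_cons.2 ⟨f1 A, hns_flat.1 (stepB A (hx h1.1 (hds_flat.2 h1.2)))⟩

theorem e0 : fns G B [.legal 0 5 0]
    [.closeX 0 1 2 1, .closeX 0 3 0 1, .closeX 0 5 0 1, .closeX 1 3 0 1, .doneend 0 2, .first]
    [0, 10, 16, 87, 238, 240, 330, 332, 333] 0x13b0cf1390c622821a44c2cc17c18c00c186006014000
    [[1,3], [4,7], [8,11], [2,13], [14,17], [18], [21], [12], [6], [10], [0,5,9,15,19], [20,23,24], [20,27,28], [22,26], [25,16], [29,16]]
    15 5 39 1
    (.leaf 0x1000000100000002000000200000000200000004000000002000000000100000001000000028000040080001000000a00100044001000500014a0001000000800000008000001002000000000008000800080008000080100010001000100018000)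
    [0x1dac8187c01a7b81f6042c02d40b9c8d4006201a80248088] 16 26 = true := by
  decide +kernel

/-- **end** -/
theorem fin (A : ∀ f : CS, f.ok G = true → Hd (val S) (f.cl G))
    (A2 : ∀ f : CB, f.ok G = true → Hd (val S) (f.cl G)) : ¬ ∀ c ∈ inv, Hd (val S) c :=
  fun H => fns_sound A A2 e0 (hds_flat.2 (List.forall_mem_cons.1 H).2)

theorem i0 : stu G units [.uniq 0 0 0 1]
    [.initX 0 0 0 1, .initX 0 0 1 1]
    [763] 0x19118c18918618117d17c001000
    [[1,3], [0,5], [2,7], [4], [8], [10], [12], [14], [16], [6]]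
    9 4 10 1
    (.leaf 0x10000001000200100002000040000800010000101002020040600)
    [0x3ac01b024] 10 12 = true := by
  decide +kernel

theorem j0 (A : ∀ f : CS, f.ok G = true → Hd (val S) (f.cl G))
    (A2 : ∀ f : CI, f.ok G = true → Hd (val S) (f.cl G)) (hU : ∀ c ∈ units, Hd (val S) c) :
    Hd (val S) [763] :=
  stu_sound A A2 hU i0

theorem i1 : stu G units [.uniq 0 0 0 2]
    [.initX 0 0 0 1, .initX 0 0 2 1]
    [765] 0x19118c18918618117e17c002000
    [[1,3], [0,5], [2,7], [4], [8], [10], [12], [14], [16], [6]]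
    9 4 10 1
    (.leaf 0x10000001000200100002000040000800010000101002020040600)
    [0x3ac01b024] 10 12 = true := by
  decide +kernel

theorem j1 (A : ∀ f : CS, f.ok G = true → Hd (val S) (f.cl G))
    (A2 : ∀ f : CI, f.ok G = true → Hd (val S) (f.cl G)) (hU : ∀ c ∈ units, Hd (val S) c) :
    Hd (val S) [765] :=
  stu_sound A A2 hU i1

theorem i2 : stu G units [.uniq 0 0 0 3]
    [.initX 0 0 0 1, .initX 0 0 3 1]
    [767] 0x19118c18918618117f17c003000
    [[1,3], [0,5], [2,7], [4], [8], [10], [12], [14], [16], [6]]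
    9 4 10 1
    (.leaf 0x10000001000200100002000040000800010000101002020040600)
    [0x3ac01b024] 10 12 = true := by
  decide +kernel

theorem j2 (A : ∀ f : CS, f.ok G = true → Hd (val S) (f.cl G))
    (A2 : ∀ f : CI, f.ok G = true → Hd (val S) (f.cl G)) (hU : ∀ c ∈ units, Hd (val S) c) :
    Hd (val S) [767] :=
  stu_sound A A2 hU i2

theorem i3 : stu G units [.legal 0 0 0]
    [.initX 0 0 0 1, .initX 0 1 0 1]
    [769] 0x19118c18918618118017c004000
    [[1,3], [0,5], [2,7], [4], [8], [10], [12], [14], [16], [6]]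
    9 4 10 1
    (.leaf 0x10000001000200100002000040000800010000101002020040600)
    [0x3ac01b024] 10 12 = true := by
  decide +kernel

theorem j3 (A : ∀ f : CS, f.ok G = true → Hd (val S) (f.cl G))
    (A2 : ∀ f : CI, f.ok G = true → Hd (val S) (f.cl G)) (hU : ∀ c ∈ units, Hd (val S) c) :
    Hd (val S) [769] :=
  stu_sound A A2 hU i3

theorem i4 : stu G units [.uniq 0 1 1 2]
    [.initX 0 1 1 1, .initX 0 1 2 1]
    [773] 0x19118c18918617c182181006005
    [[1,3], [0,5], [2,7], [8], [4], [10], [12], [14], [16], [6]]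
    9 4 10 1
    (.leaf 0x10000001000200100002000040000800004000401002020040600)
    [0x3ac01b025] 10 12 = true := by
  decide +kernel

theorem j4 (A : ∀ f : CS, f.ok G = true → Hd (val S) (f.cl G))
    (A2 : ∀ f : CI, f.ok G = true → Hd (val S) (f.cl G)) (hU : ∀ c ∈ units, Hd (val S) c) :
    Hd (val S) [773] :=
  stu_sound A A2 hU i4

theorem i5 : stu G units [.uniq 0 1 1 3]
    [.initX 0 1 1 1, .initX 0 1 3 1]
    [775] 0x19118c18918617c183181007005
    [[1,3], [0,5], [2,7], [8], [4], [10], [12], [14], [16], [6]]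
    9 4 10 1
    (.leaf 0x10000001000200100002000040000800004000401002020040600)
    [0x3ac01b025] 10 12 = true := by
  decide +kernel

theorem j5 (A : ∀ f : CS, f.ok G = true → Hd (val S) (f.cl G))
    (A2 : ∀ f : CI, f.ok G = true → Hd (val S) (f.cl G)) (hU : ∀ c ∈ units, Hd (val S) c) :
    Hd (val S) [775] :=
  stu_sound A A2 hU i5

theorem i6 : stu G units [.uniq 0 2 0 2]
    [.initX 0 2 0 1, .initX 0 2 2 1]
    [777] 0x19118c18918117c18618400a008
    [[1,3], [0,5], [2,7], [8], [10], [6], [12], [14], [16], [4]]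
    9 4 10 1
    (.leaf 0x10000001000100100002000040000200020000401002020040600)
    [0x36c01b02a] 10 12 = true := by
  decide +kernel

theorem j6 (A : ∀ f : CS, f.ok G = true → Hd (val S) (f.cl G))
    (A2 : ∀ f : CI, f.ok G = true → Hd (val S) (f.cl G)) (hU : ∀ c ∈ units, Hd (val S) c) :
    Hd (val S) [777] :=
  stu_sound A A2 hU i6

theorem i7 : stu G units [.legal 0 1 1]
    [.initX 0 1 1 1, .initX 0 2 1 1]
    [779] 0x19118c18918617c185181009005
    [[1,3], [0,5], [2,7], [8], [4], [10], [12], [14], [16], [6]]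
    9 4 10 1
    (.leaf 0x10000001000200100002000040000800004000401002020040600)
    [0x3ac01b025] 10 12 = true := by
  decide +kernel

theorem j7 (A : ∀ f : CS, f.ok G = true → Hd (val S) (f.cl G))
    (A2 : ∀ f : CI, f.ok G = true → Hd (val S) (f.cl G)) (hU : ∀ c ∈ units, Hd (val S) c) :
    Hd (val S) [779] :=
  stu_sound A A2 hU i7

theorem i8 : stu G units [.uniq 0 2 2 3]
    [.initX 0 2 2 1, .initX 0 2 3 1]
    [783] 0x19118c18918117c18718600b00a
    [[1,3], [0,5], [2,7], [8], [10], [4], [12], [14], [16], [6]]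
    9 4 10 1
    (.leaf 0x10000001000200100002000040000100020000401002020040600)
    [0x3ac01b026] 10 12 = true := by
  decide +kernel

theorem j8 (A : ∀ f : CS, f.ok G = true → Hd (val S) (f.cl G))
    (A2 : ∀ f : CI, f.ok G = true → Hd (val S) (f.cl G)) (hU : ∀ c ∈ units, Hd (val S) c) :
    Hd (val S) [783] :=
  stu_sound A A2 hU i8

theorem i9 : stu G units [.uniq 0 3 0 1]
    [.initX 0 3 0 1, .initX 0 3 1 1]
    [785] 0x19118c18618117c18918800d00c
    [[1,3], [0,5], [2,7], [8], [10], [12], [6], [14], [16], [4]]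
    9 4 10 1
    (.leaf 0x10000001000100100002000008001000020000401002020040600)
    [0x37c01b02a] 10 12 = true := by
  decide +kernel

theorem j9 (A : ∀ f : CS, f.ok G = true → Hd (val S) (f.cl G))
    (A2 : ∀ f : CI, f.ok G = true → Hd (val S) (f.cl G)) (hU : ∀ c ∈ units, Hd (val S) c) :
    Hd (val S) [785] :=
  stu_sound A A2 hU i9

theorem i10 : stu G units [.legal 0 2 2]
    [.initX 0 2 2 1, .initX 0 3 2 1]
    [789] 0x19118c18918117c18a18600e00a
    [[1,3], [0,5], [2,7], [8], [10], [4], [12], [14], [16], [6]]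
    9 4 10 1
    (.leaf 0x10000001000200100002000040000100020000401002020040600)
    [0x3ac01b026] 10 12 = true := by
  decide +kernel

theorem j10 (A : ∀ f : CS, f.ok G = true → Hd (val S) (f.cl G))
    (A2 : ∀ f : CI, f.ok G = true → Hd (val S) (f.cl G)) (hU : ∀ c ∈ units, Hd (val S) c) :
    Hd (val S) [789] :=
  stu_sound A A2 hU i10

theorem i11 : stu G units [.uniq 0 3 1 3]
    [.initX 0 3 1 1, .initX 0 3 3 1]
    [791] 0x19118c18618117c18b18900f00d
    [[1,3], [0,5], [2,7], [8], [10], [12], [4], [14], [16], [6]]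
    9 4 10 1
    (.leaf 0x10000001000200100002000004001000020000401002020040600)
    [0x3ac01b027] 10 12 = true := by
  decide +kernel

theorem j11 (A : ∀ f : CS, f.ok G = true → Hd (val S) (f.cl G))
    (A2 : ∀ f : CI, f.ok G = true → Hd (val S) (f.cl G)) (hU : ∀ c ∈ units, Hd (val S) c) :
    Hd (val S) [791] :=
  stu_sound A A2 hU i11

theorem i12 : stu G units [.legal 0 3 1]
    [.initX 0 3 1 1, .initX 0 4 1 1]
    [795] 0x19118c18618117c18d18901100d
    [[1,3], [0,5], [2,7], [8], [10], [12], [4], [14], [16], [6]]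
    9 4 10 1
    (.leaf 0x10000001000200100002000004001000020000401002020040600)
    [0x3ac01b027] 10 12 = true := by
  decide +kernel

theorem j12 (A : ∀ f : CS, f.ok G = true → Hd (val S) (f.cl G))
    (A2 : ∀ f : CI, f.ok G = true → Hd (val S) (f.cl G)) (hU : ∀ c ∈ units, Hd (val S) c) :
    Hd (val S) [795] :=
  stu_sound A A2 hU i12

theorem i13 : stu G units [.uniq 0 4 0 2]
    [.initX 0 4 0 1, .initX 0 4 2 1]
    [797] 0x19118918618117c18e18c012010
    [[1,3], [0,5], [2,7], [8], [10], [12], [14], [4], [16], [6]]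
    9 4 10 1
    (.leaf 0x10000001000200100000100080001000020000401002020040600)
    [0x3ac01b028] 10 12 = true := by
  decide +kernel

theorem j13 (A : ∀ f : CS, f.ok G = true → Hd (val S) (f.cl G))
    (A2 : ∀ f : CI, f.ok G = true → Hd (val S) (f.cl G)) (hU : ∀ c ∈ units, Hd (val S) c) :
    Hd (val S) [797] :=
  stu_sound A A2 hU i13

theorem i14 : stu G units [.uniq 0 4 0 3]
    [.initX 0 4 0 1, .initX 0 4 3 1]
    [799] 0x19118918618117c18f18c013010
    [[1,3], [0,5], [2,7], [8], [10], [12], [14], [4], [16], [6]]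
    9 4 10 1
    (.leaf 0x10000001000200100000100080001000020000401002020040600)
    [0x3ac01b028] 10 12 = true := by
  decide +kernel

theorem j14 (A : ∀ f : CS, f.ok G = true → Hd (val S) (f.cl G))
    (A2 : ∀ f : CI, f.ok G = true → Hd (val S) (f.cl G)) (hU : ∀ c ∈ units, Hd (val S) c) :
    Hd (val S) [799] :=
  stu_sound A A2 hU i14

theorem i15 : stu G units [.legal 0 5 0]
    [.initX 0 0 0 1, .initX 0 5 0 1]
    [801] 0x19118c18918618119017c014000
    [[1,3], [0,5], [2,7], [4], [8], [10], [12], [14], [16], [6]]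
    9 4 10 1
    (.leaf 0x10000001000200100002000040000800010000101002020040600)
    [0x3ac01b024] 10 12 = true := by
  decide +kernel

theorem j15 (A : ∀ f : CS, f.ok G = true → Hd (val S) (f.cl G))
    (A2 : ∀ f : CI, f.ok G = true → Hd (val S) (f.cl G)) (hU : ∀ c ∈ units, Hd (val S) c) :
    Hd (val S) [801] :=
  stu_sound A A2 hU i15

theorem i16 : stu G units [.uniq 0 5 1 2]
    [.initX 0 5 1 1, .initX 0 5 2 1]
    [805] 0x18c18918618117c192191016015
    [[1,3], [0,5], [2,7], [8], [10], [12], [14], [16], [4], [6]]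
    9 4 10 1
    (.leaf 0x10000001000200004004000080001000020000401002020040600)
    [0x3ac01b029] 10 12 = true := by
  decide +kernel

theorem j16 (A : ∀ f : CS, f.ok G = true → Hd (val S) (f.cl G))
    (A2 : ∀ f : CI, f.ok G = true → Hd (val S) (f.cl G)) (hU : ∀ c ∈ units, Hd (val S) c) :
    Hd (val S) [805] :=
  stu_sound A A2 hU i16

theorem i17 : stu G units [.uniq 0 5 1 3]
    [.initX 0 5 1 1, .initX 0 5 3 1]
    [807] 0x18c18918618117c193191017015
    [[1,3], [0,5], [2,7], [8], [10], [12], [14], [16], [4], [6]]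
    9 4 10 1
    (.leaf 0x10000001000200004004000080001000020000401002020040600)
    [0x3ac01b029] 10 12 = true := by
  decide +kernel

theorem j17 (A : ∀ f : CS, f.ok G = true → Hd (val S) (f.cl G))
    (A2 : ∀ f : CI, f.ok G = true → Hd (val S) (f.cl G)) (hU : ∀ c ∈ units, Hd (val S) c) :
    Hd (val S) [807] :=
  stu_sound A A2 hU i17

theorem i18 : stu G units [.legal2 0 1 1 1 3]
    [.initX 0 1 1 1]
    [38, 44, 396, 1408, 1410, 1423, 1424, 1428, 1436, 2296] 0x47c2ce2ca2c82c12c00c601601319118c18918617c1812c7005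
    [[1,3], [0,5], [6], [4], [8], [10], [12], [14], [17], [19], [21], [23], [25], [2], [27], [29], [31], [33]]
    17 5 7 1
    (.leaf 0x1800000001000000002000000004000000000000000820000000040000000080000000100000000200000000000020000000040000000080000000100000000100000000800020000400060000)
    [0x2e98044] 18 19 = true := by
  decide +kernel

theorem j18 (A : ∀ f : CS, f.ok G = true → Hd (val S) (f.cl G))
    (A2 : ∀ f : CI, f.ok G = true → Hd (val S) (f.cl G)) (hU : ∀ c ∈ units, Hd (val S) c) :
    Hd (val S) [38, 44, 396, 1408, 1410, 1423, 1424, 1428, 1436, 2296] :=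
  stu_sound A A2 hU i18

theorem i19 : stu G units []
    [.initX 0 0 0 1]
    [0, 38, 451, 1408, 1412, 1436, 1452, 1793, 1883, 2519, 2294] 0x47b4eb3ad3802d62ce2c22c00e101319118c18918618117c000
    [[0,3], [2], [4], [6], [8], [10], [12], [1], [15], [16], [19], [21], [23], [25], [26], [28], [30], [33]]
    17 5 4 1
    (.leaf 0x800000000000080000000100000000200008000000010000000020000000040000000000004000100000000008000000000040000000080000000100000000200000000400000000800040001)
    [0x448] 18 18 = true := by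
  decide +kernel

theorem j19 (A : ∀ f : CS, f.ok G = true → Hd (val S) (f.cl G))
    (A2 : ∀ f : CI, f.ok G = true → Hd (val S) (f.cl G)) (hU : ∀ c ∈ units, Hd (val S) c) :
    Hd (val S) [0, 38, 451, 1408, 1412, 1436, 1452, 1793, 1883, 2519, 2294] :=
  stu_sound A A2 hU i19

theorem i20 : stu G units []
    [.initX 0 2 2 1]
    [20, 38, 415, 1408, 1410, 1424, 1426, 1434] 0x2cd2c92c82c12c00cf01319118c18918117c18600a
    [[0,3], [4], [6], [2], [8], [10], [12], [1], [15], [16], [19], [21], [23], [25], [27]]
    14 5 4 1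
    (.leaf 0x800000040000002000000100000008000000000100020000000040000000040000002000000100000002000000800000040008001)
    [0x488] 15 15 = true := by
  decide +kernel

theorem j20 (A : ∀ f : CS, f.ok G = true → Hd (val S) (f.cl G))
    (A2 : ∀ f : CI, f.ok G = true → Hd (val S) (f.cl G)) (hU : ∀ c ∈ units, Hd (val S) c) :
    Hd (val S) [20, 38, 415, 1408, 1410, 1424, 1426, 1434] :=
  stu_sound A A2 hU i20

theorem i21 : stu G units []
    [.initX 0 0 0 1]
    [0, 31, 44, 451, 1408, 1410, 2296] 0x47c2c12c00e101600f19118c18918618117c000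
    [[0,3], [2], [4], [6], [8], [10], [12], [1], [14], [17], [18], [21], [23], [25]]
    13 4 4 1
    (.leaf 0x8000001000000200000000020008000000000800008000000040000008000001000000200000040000008004001)
    [0x128] 14 14 = true := by
  decide +kernel

theorem j21 (A : ∀ f : CS, f.ok G = true → Hd (val S) (f.cl G))
    (A2 : ∀ f : CI, f.ok G = true → Hd (val S) (f.cl G)) (hU : ∀ c ∈ units, Hd (val S) c) :
    Hd (val S) [0, 31, 44, 451, 1408, 1410, 2296] :=
  stu_sound A A2 hU i21

theorem i22 : stu G units []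
    [.initX 0 1 1 1]
    [8, 10, 14, 1424, 1426, 1434, 1448, 2308] 0x4822d42cd2c92c800700419118c18918617c181005
    [[0,3], [4], [2], [6], [8], [10], [12], [15], [1], [17], [19], [21], [23], [25], [27]]
    14 5 4 1
    (.leaf 0x800000040000002000000100000008000000400000000400002000000000040000002000000100000008000000200000040008001)
    [0x469] 15 15 = true := by
  decide +kernel

theorem j22 (A : ∀ f : CS, f.ok G = true → Hd (val S) (f.cl G))
    (A2 : ∀ f : CI, f.ok G = true → Hd (val S) (f.cl G)) (hU : ∀ c ∈ units, Hd (val S) c) :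
    Hd (val S) [8, 10, 14, 1424, 1426, 1434, 1448, 2308] :=
  stu_sound A A2 hU i22

theorem i23 : stu G units []
    [.initX 0 2 2 1]
    [20, 38, 1410, 1412, 1422, 1424, 1434] 0x2cd2c82c72c22c101319118c18918117c18600a
    [[0,3], [4], [6], [2], [8], [10], [12], [1], [15], [17], [19], [21], [23], [25]]
    13 4 4 1
    (.leaf 0x8000001000000200000040000008000001000000008000000040000008000001000000080000080000010004001)
    [0x148] 14 14 = true := by
  decide +kernel

theorem j23 (A : ∀ f : CS, f.ok G = true → Hd (val S) (f.cl G))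
    (A2 : ∀ f : CI, f.ok G = true → Hd (val S) (f.cl G)) (hU : ∀ c ∈ units, Hd (val S) c) :
    Hd (val S) [20, 38, 1410, 1412, 1422, 1424, 1434] :=
  stu_sound A A2 hU i23

theorem i24 : stu G units []
    [.initX 0 4 0 1]
    [32, 34, 38, 396, 1408, 1410, 1424, 1426] 0x2c92c82c12c00c601301119118918618117c18c010
    [[0,3], [4], [6], [8], [10], [2], [12], [1], [15], [17], [19], [21], [23], [25], [27]]
    14 5 4 1
    (.leaf 0x800000040000002000000100000008000000400000020000000040000000040000000200000200000010000000800000040008001)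
    [0x4c8] 15 15 = true := by
  decide +kernel

theorem j24 (A : ∀ f : CS, f.ok G = true → Hd (val S) (f.cl G))
    (A2 : ∀ f : CI, f.ok G = true → Hd (val S) (f.cl G)) (hU : ∀ c ∈ units, Hd (val S) c) :
    Hd (val S) [32, 34, 38, 396, 1408, 1410, 1424, 1426] :=
  stu_sound A A2 hU i24

theorem i25 : stu G units []
    [.initX 0 0 0 1]
    [0, 6, 8, 12, 38, 1416, 1314, 2519, 2302] 0x47f4eb2912c401300600400319118c18918618117c000
    [[0,3], [2], [4], [6], [8], [10], [12], [1], [15], [17], [19], [21], [23], [25], [26], [29]]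
    15 5 4 1
    (.leaf 0x800000000002000200000004000000080000001000000020000000400000000200000000040000000800000010000000200000004000000080010001)
    [0x502] 16 16 = true := by
  decide +kernel

theorem j25 (A : ∀ f : CS, f.ok G = true → Hd (val S) (f.cl G))
    (A2 : ∀ f : CI, f.ok G = true → Hd (val S) (f.cl G)) (hU : ∀ c ∈ units, Hd (val S) c) :
    Hd (val S) [0, 6, 8, 12, 38, 1416, 1314, 2519, 2302] :=
  stu_sound A A2 hU i25

theorem i26 : stu G units []
    [.initX 0 0 0 1]
    [0, 2, 1408, 1317, 2519] 0x4eb2922c000119118c18918618117c000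
    [[0,3], [2], [4], [6], [8], [10], [12], [1], [15], [17], [18], [20]]
    11 4 4 1
    (.leaf 0x1000002002000004000000200000040000080000100000200000400000801001)
    [0x182] 12 12 = true := by
  decide +kernel

theorem j26 (A : ∀ f : CS, f.ok G = true → Hd (val S) (f.cl G))
    (A2 : ∀ f : CI, f.ok G = true → Hd (val S) (f.cl G)) (hU : ∀ c ∈ units, Hd (val S) c) :
    Hd (val S) [0, 2, 1408, 1317, 2519] :=
  stu_sound A A2 hU i26

theorem i27 : stu G units []
    [.initX 0 0 0 1]
    [0, 30, 38, 1408, 1410, 1423, 1424, 1428, 1436, 2519, 2296] 0x47c4eb2ce2ca2c82c72c12c001300f19118c18918618117c000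
    [[0,3], [2], [4], [6], [8], [10], [12], [1], [15], [17], [19], [21], [22], [25], [27], [29], [30], [33]]
    17 5 4 1
    (.leaf 0x800000000000080002000000004000000008000000000000800020000000040000000080000000100000000008000000000040000000080000000100000000200000000400000000800040001)
    [0x448] 18 18 = true := by
  decide +kernel

theorem j27 (A : ∀ f : CS, f.ok G = true → Hd (val S) (f.cl G))
    (A2 : ∀ f : CI, f.ok G = true → Hd (val S) (f.cl G)) (hU : ∀ c ∈ units, Hd (val S) c) :
    Hd (val S) [0, 30, 38, 1408, 1410, 1423, 1424, 1428, 1436, 2519, 2296] :=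
  stu_sound A A2 hU i27

theorem i28 : stu G units []
    [.initX 0 0 0 1]
    [0, 6, 38, 390, 397, 450, 1314] 0x2910e10c60c301300319118c18918618117c000
    [[0,3], [2], [4], [6], [8], [10], [12], [1], [15], [17], [19], [20], [23], [25]]
    13 4 4 1
    (.leaf 0x8000001000000000100040000008000001000000008000000040000008000001000000200000040000008004001)
    [0x128] 14 14 = true := by
  decide +kernel

theorem j28 (A : ∀ f : CS, f.ok G = true → Hd (val S) (f.cl G))
    (A2 : ∀ f : CI, f.ok G = true → Hd (val S) (f.cl G)) (hU : ∀ c ∈ units, Hd (val S) c) :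
    Hd (val S) [0, 6, 38, 390, 397, 450, 1314] :=
  stu_sound A A2 hU i28

theorem i29 : stu G units []
    [.initX 0 0 0 1]
    [0, 10, 30, 38, 397, 450, 602] 0x12d0e10c601300f00519118c18918618117c000
    [[0,3], [2], [4], [6], [8], [10], [12], [1], [15], [17], [19], [20], [23], [25]]
    13 4 4 1
    (.leaf 0x8000001000000000100040000008000001000000008000000040000008000001000000200000040000008004001)
    [0x128] 14 14 = true := by
  decide +kernel

theorem j29 (A : ∀ f : CS, f.ok G = true → Hd (val S) (f.cl G))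
    (A2 : ∀ f : CI, f.ok G = true → Hd (val S) (f.cl G)) (hU : ∀ c ∈ units, Hd (val S) c) :
    Hd (val S) [0, 10, 30, 38, 397, 450, 602] :=
  stu_sound A A2 hU i29

theorem i30 : stu G units []
    [.initX 0 0 0 1]
    [0, 10, 30, 390, 397, 450, 1317] 0x2920e10c60c300f00519118c18918618117c000
    [[0,3], [2], [4], [6], [8], [10], [12], [1], [15], [17], [19], [20], [23], [24]]
    13 4 4 1
    (.leaf 0x4001000000000100040000008000001000000008000000040000008000001000000200000040000008004001)
    [0x128] 14 14 = true := by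
  decide +kernel

theorem j30 (A : ∀ f : CS, f.ok G = true → Hd (val S) (f.cl G))
    (A2 : ∀ f : CI, f.ok G = true → Hd (val S) (f.cl G)) (hU : ∀ c ∈ units, Hd (val S) c) :
    Hd (val S) [0, 10, 30, 390, 397, 450, 1317] :=
  stu_sound A A2 hU i30

theorem i31 : stu G units []
    [.initX 0 2 2 1]
    [20, 24, 26, 1410, 1412, 1422] 0x2c72c22c100d00c19118c18918117c18600a
    [[0,3], [4], [6], [2], [8], [10], [12], [1], [15], [17], [19], [21], [23]]
    12 4 6 1
    (.leaf 0x1800000400000200000100000080000001000000040000020000010000002000008000004002001)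
    [0x8e014] 13 14 = true := by
  decide +kernel

theorem j31 (A : ∀ f : CS, f.ok G = true → Hd (val S) (f.cl G))
    (A2 : ∀ f : CI, f.ok G = true → Hd (val S) (f.cl G)) (hU : ∀ c ∈ units, Hd (val S) c) :
    Hd (val S) [20, 24, 26, 1410, 1412, 1422] :=
  stu_sound A A2 hU i31

theorem i32 : stu G units []
    [.initX 0 2 2 1]
    [20, 1408, 1410, 1426, 1317, 2519, 2302] 0x47f4eb2922c92c12c019118c18918117c18600a
    [[0,3], [4], [6], [2], [8], [10], [12], [1], [15], [17], [19], [20], [22], [25]]
    13 4 4 1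
    (.leaf 0x8000000000800000100040000008000001000000008000000040000008000001000000080000080000010004001)
    [0x148] 14 14 = true := by
  decide +kernel

theorem j32 (A : ∀ f : CS, f.ok G = true → Hd (val S) (f.cl G))
    (A2 : ∀ f : CI, f.ok G = true → Hd (val S) (f.cl G)) (hU : ∀ c ∈ units, Hd (val S) c) :
    Hd (val S) [20, 1408, 1410, 1426, 1317, 2519, 2302] :=
  stu_sound A A2 hU i32

theorem i33 : stu G units []
    [.initX 0 0 0 1]
    [0, 6, 12, 30, 38, 1416, 2519, 2302] 0x47f4eb2c401300f00600319118c18918618117c000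
    [[0,3], [2], [4], [6], [8], [10], [12], [1], [15], [17], [19], [21], [23], [24], [27]]
    14 5 4 1
    (.leaf 0x800000000010002000000100000008000000400000020000000040000000040000002000000100000008000000400000020008001)
    [0x448] 15 15 = true := by
  decide +kernel

theorem j33 (A : ∀ f : CS, f.ok G = true → Hd (val S) (f.cl G))
    (A2 : ∀ f : CI, f.ok G = true → Hd (val S) (f.cl G)) (hU : ∀ c ∈ units, Hd (val S) c) :
    Hd (val S) [0, 6, 12, 30, 38, 1416, 2519, 2302] :=
  stu_sound A A2 hU i33

theorem i34 : stu G units []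
    [.initX 0 4 0 1]
    [32, 1436, 1452, 1317, 2519, 2302] 0x47f4eb2922d62ce19118918618117c18c010
    [[0,3], [4], [6], [8], [10], [2], [12], [1], [15], [17], [18], [20], [23]]
    12 4 6 1
    (.leaf 0x1800000000400000200100000080000001000000040000002000020000010000008000004002001)
    [0x8e016] 13 14 = true := by
  decide +kernel

theorem j34 (A : ∀ f : CS, f.ok G = true → Hd (val S) (f.cl G))
    (A2 : ∀ f : CI, f.ok G = true → Hd (val S) (f.cl G)) (hU : ∀ c ∈ units, Hd (val S) c) :
    Hd (val S) [32, 1436, 1452, 1317, 2519, 2302] :=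
  stu_sound A A2 hU i34

theorem i35 : stu G units []
    [.initX 0 1 1 1]
    [10, 12, 30, 32, 1416, 1317, 2519, 2302] 0x47f4eb2922c401000f00619118c18918617c181005
    [[0,3], [4], [2], [6], [8], [10], [12], [1], [15], [17], [19], [21], [22], [24], [27]]
    14 5 4 1
    (.leaf 0x800000000010000000800100000008000000400000020000000040000000040000002000000100000008000000200000040008001)
    [0x468] 15 15 = true := by
  decide +kernel

theorem j35 (A : ∀ f : CS, f.ok G = true → Hd (val S) (f.cl G))
    (A2 : ∀ f : CI, f.ok G = true → Hd (val S) (f.cl G)) (hU : ∀ c ∈ units, Hd (val S) c) :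
    Hd (val S) [10, 12, 30, 32, 1416, 1317, 2519, 2302] :=
  stu_sound A A2 hU i35

theorem i36 : stu G units []
    [.initX 0 4 0 1]
    [32, 34, 1423, 1424, 1436, 1317, 2288, 2519] 0x4eb4782922ce2c82c701119118918618117c18c010
    [[0,3], [4], [6], [8], [10], [2], [12], [1], [15], [16], [19], [21], [22], [25], [26]]
    14 5 4 1
    (.leaf 0x200040000000000800100000008000000000100020000000040000000040000000200000200000010000000800000040008001)
    [0x4c8] 15 15 = true := by
  decide +kernel

theorem j36 (A : ∀ f : CS, f.ok G = true → Hd (val S) (f.cl G))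
    (A2 : ∀ f : CI, f.ok G = true → Hd (val S) (f.cl G)) (hU : ∀ c ∈ units, Hd (val S) c) :
    Hd (val S) [32, 34, 1423, 1424, 1436, 1317, 2288, 2519] :=
  stu_sound A A2 hU i36

theorem i37 : stu G units []
    [.initX 0 4 0 1]
    [32, 34, 1408, 1410, 1440, 1317, 2288, 2519] 0x4eb4782922d02c12c001119118918618117c18c010
    [[0,3], [4], [6], [8], [10], [2], [12], [1], [15], [17], [19], [21], [22], [25], [26]]
    14 5 4 1
    (.leaf 0x200040000000000800100000008000000400000020000000040000000040000000200000200000010000000800000040008001)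
    [0x4c8] 15 15 = true := by
  decide +kernel

theorem j37 (A : ∀ f : CS, f.ok G = true → Hd (val S) (f.cl G))
    (A2 : ∀ f : CI, f.ok G = true → Hd (val S) (f.cl G)) (hU : ∀ c ∈ units, Hd (val S) c) :
    Hd (val S) [32, 34, 1408, 1410, 1440, 1317, 2288, 2519] :=
  stu_sound A A2 hU i37

theorem i38 : stu G units []
    [.initX 0 2 2 1]
    [16, 20, 38, 1410, 1412, 1422, 2519, 2302] 0x47f4eb2c72c22c101300819118c18918117c18600a
    [[0,3], [4], [6], [2], [8], [10], [12], [15], [1], [17], [19], [21], [23], [24], [27]]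
    14 5 4 1
    (.leaf 0x800000000010002000000100000008000000400000000400002000000000040000002000000100000002000000800000040008001)
    [0x489] 15 15 = true := by
  decide +kernel

theorem j38 (A : ∀ f : CS, f.ok G = true → Hd (val S) (f.cl G))
    (A2 : ∀ f : CI, f.ok G = true → Hd (val S) (f.cl G)) (hU : ∀ c ∈ units, Hd (val S) c) :
    Hd (val S) [16, 20, 38, 1410, 1412, 1422, 2519, 2302] :=
  stu_sound A A2 hU i38

theorem i39 : stu G units []
    [.initX 0 4 0 1]
    [14, 32, 390, 408, 1410, 1412, 1317, 2519, 2302] 0x47f4eb2922c22c10cc0c300719118918618117c18c010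
    [[0,3], [4], [6], [8], [10], [2], [12], [15], [1], [17], [19], [21], [23], [24], [26], [29]]
    15 5 4 1
    (.leaf 0x800000000002000000040004000000080000001000000020000000008000010000000000040000000080000020000000400000008000000100010001)
    [0x526] 16 16 = true := by
  decide +kernel

theorem j39 (A : ∀ f : CS, f.ok G = true → Hd (val S) (f.cl G))
    (A2 : ∀ f : CI, f.ok G = true → Hd (val S) (f.cl G)) (hU : ∀ c ∈ units, Hd (val S) c) :
    Hd (val S) [14, 32, 390, 408, 1410, 1412, 1317, 2519, 2302] :=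
  stu_sound A A2 hU i39

theorem i40 : stu G units []
    [.initX 0 4 0 1]
    [32, 34, 38, 1410, 1412, 1422, 1424] 0x2c82c72c22c101301119118918618117c18c010
    [[0,3], [4], [6], [8], [10], [2], [12], [1], [15], [17], [19], [21], [23], [25]]
    13 4 4 1
    (.leaf 0x8000001000000200000040000008000001000000008000000040000000800002000000400000080000010004001)
    [0x168] 14 14 = true := by
  decide +kernel

theorem j40 (A : ∀ f : CS, f.ok G = true → Hd (val S) (f.cl G))
    (A2 : ∀ f : CI, f.ok G = true → Hd (val S) (f.cl G)) (hU : ∀ c ∈ units, Hd (val S) c) :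
    Hd (val S) [32, 34, 38, 1410, 1412, 1422, 1424] :=
  stu_sound A A2 hU i40

theorem i41 : stu G units []
    [.initX 0 1 1 1]
    [8, 10, 14, 1418, 1428, 1450, 1793, 2308, 2296] 0x47c4823802d52ca2c500700419118c18918617c181005
    [[0,3], [4], [2], [6], [8], [10], [12], [15], [1], [17], [19], [21], [23], [24], [27], [29]]
    15 5 4 1
    (.leaf 0x800000010000000000040004000000080000001000000020000000008000010000000000040000000800000010000000200000002000000100010001)
    [0x523] 16 16 = true := by
  decide +kernel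

theorem j41 (A : ∀ f : CS, f.ok G = true → Hd (val S) (f.cl G))
    (A2 : ∀ f : CI, f.ok G = true → Hd (val S) (f.cl G)) (hU : ∀ c ∈ units, Hd (val S) c) :
    Hd (val S) [8, 10, 14, 1418, 1428, 1450, 1793, 2308, 2296] :=
  stu_sound A A2 hU i41

theorem i42 : stu G units []
    [.initX 0 1 1 1]
    [8, 10, 14, 1424, 1428, 1436, 1442, 2296] 0x47c2d12ce2ca2c800700419118c18918617c181005
    [[0,3], [4], [2], [6], [8], [10], [12], [15], [1], [17], [19], [21], [23], [25], [27]]
    14 5 4 1
    (.leaf 0x800000040000002000000100000008000000400000000400002000000000040000002000000100000008000000200000040008001)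
    [0x469] 15 15 = true := by
  decide +kernel

theorem j42 (A : ∀ f : CS, f.ok G = true → Hd (val S) (f.cl G))
    (A2 : ∀ f : CI, f.ok G = true → Hd (val S) (f.cl G)) (hU : ∀ c ∈ units, Hd (val S) c) :
    Hd (val S) [8, 10, 14, 1424, 1428, 1436, 1442, 2296] :=
  stu_sound A A2 hU i42

theorem i43 : stu G units []
    [.initX 0 0 0 1]
    [0, 20, 38, 451, 1424, 1426, 1434, 1793, 1883, 2290] 0x4793ad3802cd2c92c80e101300a19118c18918618117c000
    [[0,3], [2], [4], [6], [8], [10], [12], [1], [15], [17], [18], [21], [23], [25], [26], [28], [31]]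
    16 5 4 1
    (.leaf 0x8000000000004000000020001000000008000000040000000000020001000000008000000001000000000040000000200000001000000008000000040000000200020001)
    [0x502] 17 17 = true := by
  decide +kernel

theorem j43 (A : ∀ f : CS, f.ok G = true → Hd (val S) (f.cl G))
    (A2 : ∀ f : CI, f.ok G = true → Hd (val S) (f.cl G)) (hU : ∀ c ∈ units, Hd (val S) c) :
    Hd (val S) [0, 20, 38, 451, 1424, 1426, 1434, 1793, 1883, 2290] :=
  stu_sound A A2 hU i43

theorem i44 : stu G units []
    [.initX 0 0 0 1]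
    [0, 6, 8, 38, 44, 451, 1416, 1424, 1428, 1436, 1448, 1793, 1883, 2290] 0x4793ad3802d42ce2ca2c82c40e101601300400319118c18918618117c000
    [[0,3], [2], [4], [6], [8], [10], [12], [1], [15], [17], [19], [21], [22], [25], [27], [29], [31], [33], [34], [36], [39]]
    20 5 6 1
    (.leaf 0x1800000000000000400000000020000100000000008000000000400000000020000000001000000000000000800004000000000200000000010000000000800000000001000000000000040000000002000000000100000000008000000000400000000020000200001)
    [0x8b0022] 21 22 = true := by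
  decide +kernel

theorem j44 (A : ∀ f : CS, f.ok G = true → Hd (val S) (f.cl G))
    (A2 : ∀ f : CI, f.ok G = true → Hd (val S) (f.cl G)) (hU : ∀ c ∈ units, Hd (val S) c) :
    Hd (val S) [0, 6, 8, 38, 44, 451, 1416, 1424, 1428, 1436, 1448, 1793, 1883, 2290] :=
  stu_sound A A2 hU i44

theorem i45 : stu G units []
    [.initX 0 1 1 1]
    [8, 10, 14, 1424, 1426, 1434, 1793, 1883, 2290] 0x4793ad3802cd2c92c800700419118c18918617c181005
    [[0,3], [4], [2], [6], [8], [10], [12], [15], [1], [17], [19], [21], [23], [24], [26], [29]]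
    15 5 4 1
    (.leaf 0x800000000002000000040004000000080000001000000020000000008000010000000000040000000800000010000000200000002000000100010001)
    [0x523] 16 16 = true := by
  decide +kernel

theorem j45 (A : ∀ f : CS, f.ok G = true → Hd (val S) (f.cl G))
    (A2 : ∀ f : CI, f.ok G = true → Hd (val S) (f.cl G)) (hU : ∀ c ∈ units, Hd (val S) c) :
    Hd (val S) [8, 10, 14, 1424, 1426, 1434, 1793, 1883, 2290] :=
  stu_sound A A2 hU i45

theorem i46 : stu G units []
    [.initX 0 0 0 1]
    [0, 20, 38, 451, 1408, 1410, 1424, 1426, 1440] 0x2d02c92c82c12c00e101300a19118c18918618117c000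
    [[0,3], [2], [4], [6], [8], [10], [12], [1], [15], [17], [18], [21], [23], [25], [27], [29]]
    15 5 4 1
    (.leaf 0x800000010000000200000004000000080000000000200020000000400000000200000000040000000800000010000000200000004000000080010001)
    [0x502] 16 16 = true := by
  decide +kernel

theorem j46 (A : ∀ f : CS, f.ok G = true → Hd (val S) (f.cl G))
    (A2 : ∀ f : CI, f.ok G = true → Hd (val S) (f.cl G)) (hU : ∀ c ∈ units, Hd (val S) c) :
    Hd (val S) [0, 20, 38, 451, 1408, 1410, 1424, 1426, 1440] :=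
  stu_sound A A2 hU i46

theorem i47 : stu G units []
    [.initX 0 2 2 1]
    [14, 16, 20, 34, 38, 1412, 1416, 1426, 1436, 2308] 0x4822ce2c92c42c201301100800719118c18918117c18600a
    [[0,3], [4], [6], [2], [8], [10], [12], [15], [17], [1], [19], [21], [23], [25], [27], [29], [31]]
    16 5 4 1
    (.leaf 0x8000000040000000200000001000000008000000040000000200000000010000010000000080000000000040000000200000001000000002000000080000000400020001)
    [0x544] 17 17 = true := by
  decide +kernel

theorem j47 (A : ∀ f : CS, f.ok G = true → Hd (val S) (f.cl G))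
    (A2 : ∀ f : CI, f.ok G = true → Hd (val S) (f.cl G)) (hU : ∀ c ∈ units, Hd (val S) c) :
    Hd (val S) [14, 16, 20, 34, 38, 1412, 1416, 1426, 1436, 2308] :=
  stu_sound A A2 hU i47

theorem i48 : stu G units []
    [.initX 0 0 0 1]
    [0, 20, 38, 451, 1408, 1412, 1424, 1426, 1452, 1793, 1883, 2296] 0x47c3ad3802d62c92c82c22c00e101300a19118c18918618117c000
    [[0,3], [2], [4], [6], [8], [10], [12], [1], [15], [17], [18], [21], [23], [25], [27], [29], [30], [32], [35]]
    18 5 4 1
    (.leaf 0x800000000000010000000008000100000000080000000040000000020000000010000000000000200004000000002000000000040000000000040000000020000000010000000008000000004000000002000080001)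
    [0x502] 19 19 = true := by
  decide +kernel

theorem j48 (A : ∀ f : CS, f.ok G = true → Hd (val S) (f.cl G))
    (A2 : ∀ f : CI, f.ok G = true → Hd (val S) (f.cl G)) (hU : ∀ c ∈ units, Hd (val S) c) :
    Hd (val S) [0, 20, 38, 451, 1408, 1412, 1424, 1426, 1452, 1793, 1883, 2296] :=
  stu_sound A A2 hU i48

theorem i49 : stu G units []
    [.initX 0 0 0 1]
    [0, 12, 14, 20, 34, 397, 1408, 1416, 1317, 2290, 2519] 0x4eb4792922c42c00c601100a00700619118c18918618117c000
    [[0,3], [2], [4], [6], [8], [10], [12], [1], [15], [17], [19], [21], [22], [25], [27], [28], [31], [32]]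
    17 5 4 1
    (.leaf 0x40001000000000000100004000000008000000000000800020000000040000000080000000100000000008000000000040000000080000000100000000200000000400000000800040001)
    [0x448] 18 18 = true := by
  decide +kernel

theorem j49 (A : ∀ f : CS, f.ok G = true → Hd (val S) (f.cl G))
    (A2 : ∀ f : CI, f.ok G = true → Hd (val S) (f.cl G)) (hU : ∀ c ∈ units, Hd (val S) c) :
    Hd (val S) [0, 12, 14, 20, 34, 397, 1408, 1416, 1317, 2290, 2519] :=
  stu_sound A A2 hU i49

theorem i50 : stu G units []
    [.initX 0 1 1 1]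
    [8, 10, 14, 16, 1412, 1424, 1426, 1432, 2290, 2519] 0x4eb4792cc2c92c82c200800700419118c18918617c181005
    [[0,3], [4], [2], [6], [8], [10], [12], [15], [1], [17], [19], [21], [23], [25], [27], [29], [30]]
    16 5 4 1
    (.leaf 0x800040000000200000001000000008000000040000000200000001000000000100000080000000000040000000200000001000000008000000020000000400020001)
    [0x523] 17 17 = true := by
  decide +kernel

theorem j50 (A : ∀ f : CS, f.ok G = true → Hd (val S) (f.cl G))
    (A2 : ∀ f : CI, f.ok G = true → Hd (val S) (f.cl G)) (hU : ∀ c ∈ units, Hd (val S) c) :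
    Hd (val S) [8, 10, 14, 16, 1412, 1424, 1426, 1432, 2290, 2519] :=
  stu_sound A A2 hU i50

theorem i51 : stu G units []
    [.initX 0 1 1 1]
    [8, 10, 14, 26, 1412, 1424, 1436, 1314, 2290, 2519] 0x4eb4792912ce2c82c200d00700419118c18918617c181005
    [[0,3], [4], [2], [6], [8], [10], [12], [15], [1], [17], [19], [21], [23], [25], [27], [29], [30]]
    16 5 4 1
    (.leaf 0x800040000000200000001000000008000000040000000200000001000000000100000080000000000040000000200000001000000008000000020000000400020001)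
    [0x523] 17 17 = true := by
  decide +kernel

theorem j51 (A : ∀ f : CS, f.ok G = true → Hd (val S) (f.cl G))
    (A2 : ∀ f : CI, f.ok G = true → Hd (val S) (f.cl G)) (hU : ∀ c ∈ units, Hd (val S) c) :
    Hd (val S) [8, 10, 14, 26, 1412, 1424, 1436, 1314, 2290, 2519] :=
  stu_sound A A2 hU i51

theorem i52 : stu G units []
    [.initX 0 4 0 1]
    [32, 44, 1408, 1412, 1452, 1317, 2288, 2519] 0x4eb4782922d62c22c001619118918618117c18c010
    [[0,3], [4], [6], [8], [10], [2], [12], [1], [15], [17], [19], [21], [22], [25], [26]]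
    14 5 4 1
    (.leaf 0x200040000000000800100000008000000400000020000000040000000040000000200000200000010000000800000040008001)
    [0x4c8] 15 15 = true := by
  decide +kernel

theorem j52 (A : ∀ f : CS, f.ok G = true → Hd (val S) (f.cl G))
    (A2 : ∀ f : CI, f.ok G = true → Hd (val S) (f.cl G)) (hU : ∀ c ∈ units, Hd (val S) c) :
    Hd (val S) [32, 44, 1408, 1412, 1452, 1317, 2288, 2519] :=
  stu_sound A A2 hU i52

theorem i53 : stu G units []
    [.initX 0 2 2 1]
    [14, 16, 20, 30, 38, 1424, 1426, 1450, 2290, 2519] 0x4eb4792d52c92c801300f00800719118c18918117c18600a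
    [[0,3], [4], [6], [2], [8], [10], [12], [15], [17], [1], [19], [21], [23], [25], [27], [29], [30]]
    16 5 4 1
    (.leaf 0x800040000000200000001000000008000000040000000200000000010000010000000080000000000040000000200000001000000002000000080000000400020001)
    [0x544] 17 17 = true := by
  decide +kernel

theorem j53 (A : ∀ f : CS, f.ok G = true → Hd (val S) (f.cl G))
    (A2 : ∀ f : CI, f.ok G = true → Hd (val S) (f.cl G)) (hU : ∀ c ∈ units, Hd (val S) c) :
    Hd (val S) [14, 16, 20, 30, 38, 1424, 1426, 1450, 2290, 2519] :=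
  stu_sound A A2 hU i53

theorem i54 : stu G units []
    [.initX 0 1 1 1]
    [8, 10, 14, 32, 1424, 1426, 1450, 1793, 1883, 2290] 0x4793ad3802d52c92c801000700419118c18918617c181005
    [[0,3], [4], [2], [6], [8], [10], [12], [15], [1], [17], [19], [21], [23], [25], [26], [28], [31]]
    16 5 4 1
    (.leaf 0x8000000000004000000020001000000008000000040000000200000001000000000100000080000000000040000000200000001000000008000000020000000400020001)
    [0x523] 17 17 = true := by
  decide +kernel

theorem j54 (A : ∀ f : CS, f.ok G = true → Hd (val S) (f.cl G))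
    (A2 : ∀ f : CI, f.ok G = true → Hd (val S) (f.cl G)) (hU : ∀ c ∈ units, Hd (val S) c) :
    Hd (val S) [8, 10, 14, 32, 1424, 1426, 1450, 1793, 1883, 2290] :=
  stu_sound A A2 hU i54

theorem i55 : stu G units []
    [.initX 0 2 2 1]
    [16, 20, 38, 390, 397, 1408, 1410, 1424, 1426, 2290, 2519] 0x4eb4792c92c82c12c00c60c301300819118c18918117c18600a
    [[0,3], [4], [6], [2], [8], [10], [12], [15], [1], [17], [19], [20], [23], [25], [27], [29], [31], [32]]
    17 5 4 1
    (.leaf 0x40001000000002000000004000000008000000010000000000001000040000000080000000002000000400000000000040000000080000000100000000080000000800000001000040001)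
    [0x489] 18 18 = true := by
  decide +kernel

theorem j55 (A : ∀ f : CS, f.ok G = true → Hd (val S) (f.cl G))
    (A2 : ∀ f : CI, f.ok G = true → Hd (val S) (f.cl G)) (hU : ∀ c ∈ units, Hd (val S) c) :
    Hd (val S) [16, 20, 38, 390, 397, 1408, 1410, 1424, 1426, 2290, 2519] :=
  stu_sound A A2 hU i55

theorem i56 : stu G units []
    [.initX 0 0 0 1]
    [0, 44, 1408, 1412, 1422, 1448, 1317, 2290, 2519] 0x4eb4792922d42c72c22c001619118c18918618117c000
    [[0,3], [2], [4], [6], [8], [10], [12], [1], [15], [17], [19], [21], [23], [24], [27], [28]]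
    15 5 4 1
    (.leaf 0x100010000000000040004000000080000001000000020000000400000000200000000040000000800000010000000200000004000000080010001)
    [0x502] 16 16 = true := by
  decide +kernel

theorem j56 (A : ∀ f : CS, f.ok G = true → Hd (val S) (f.cl G))
    (A2 : ∀ f : CI, f.ok G = true → Hd (val S) (f.cl G)) (hU : ∀ c ∈ units, Hd (val S) c) :
    Hd (val S) [0, 44, 1408, 1412, 1422, 1448, 1317, 2290, 2519] :=
  stu_sound A A2 hU i56

theorem i57 : stu G units []
    [.initX 0 1 1 1]
    [10, 12, 14, 20, 38, 1410, 1412, 1424, 2290, 2519] 0x4eb4792c82c22c101300a00700619118c18918617c181005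
    [[0,3], [4], [2], [6], [8], [10], [12], [1], [15], [17], [19], [21], [23], [25], [27], [29], [30]]
    16 5 4 1
    (.leaf 0x800040000000200000001000000008000000040000000200000001000000008000000001000000000040000000200000001000000008000000020000000400020001)
    [0x503] 17 17 = true := by
  decide +kernel

theorem j57 (A : ∀ f : CS, f.ok G = true → Hd (val S) (f.cl G))
    (A2 : ∀ f : CI, f.ok G = true → Hd (val S) (f.cl G)) (hU : ∀ c ∈ units, Hd (val S) c) :
    Hd (val S) [10, 12, 14, 20, 38, 1410, 1412, 1424, 2290, 2519] :=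
  stu_sound A A2 hU i57

theorem i58 : stu G units []
    [.initX 0 2 2 1]
    [14, 16, 20, 30, 38, 1410, 1412, 1436, 1450, 2290, 2519] 0x4eb4792d52ce2c22c101300f00800719118c18918117c18600a
    [[0,3], [4], [6], [2], [8], [10], [12], [15], [17], [1], [19], [21], [23], [25], [27], [29], [31], [32]]
    17 5 4 1
    (.leaf 0x40001000000002000000004000000008000000010000000020000000040000000000800000200000000400000000000040000000080000000100000000080000000800000001000040001)
    [0x48a] 18 18 = true := by
  decide +kernel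

theorem j58 (A : ∀ f : CS, f.ok G = true → Hd (val S) (f.cl G))
    (A2 : ∀ f : CI, f.ok G = true → Hd (val S) (f.cl G)) (hU : ∀ c ∈ units, Hd (val S) c) :
    Hd (val S) [14, 16, 20, 30, 38, 1410, 1412, 1436, 1450, 2290, 2519] :=
  stu_sound A A2 hU i58

theorem i59 : stu G units []
    [.initX 0 4 0 1]
    [32, 34, 1408, 1410, 1424, 1430, 1436, 1317, 2290, 2519] 0x4eb4792922ce2cb2c82c12c001119118918618117c18c010
    [[0,3], [4], [6], [8], [10], [2], [12], [1], [15], [17], [19], [21], [23], [25], [26], [29], [30]]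
    16 5 4 1
    (.leaf 0x800040000000000020001000000008000000040000000200000001000000008000000001000000000040000000020000002000000010000000080000000400020001)
    [0x506] 17 17 = true := by
  decide +kernel

theorem j59 (A : ∀ f : CS, f.ok G = true → Hd (val S) (f.cl G))
    (A2 : ∀ f : CI, f.ok G = true → Hd (val S) (f.cl G)) (hU : ∀ c ∈ units, Hd (val S) c) :
    Hd (val S) [32, 34, 1408, 1410, 1424, 1430, 1436, 1317, 2290, 2519] :=
  stu_sound A A2 hU i59

theorem i60 : stu G units []
    [.initX 0 2 2 1]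
    [14, 16, 20, 30, 38, 1416, 1436, 2290, 2519, 2296] 0x47c4eb4792ce2c401300f00800719118c18918117c18600a
    [[0,3], [4], [6], [2], [8], [10], [12], [15], [17], [1], [19], [21], [23], [25], [27], [28], [31]]
    16 5 4 1
    (.leaf 0x8000000000004000200000001000000008000000040000000200000000010000010000000080000000000040000000200000001000000002000000080000000400020001)
    [0x544] 17 17 = true := by
  decide +kernel

theorem j60 (A : ∀ f : CS, f.ok G = true → Hd (val S) (f.cl G))
    (A2 : ∀ f : CI, f.ok G = true → Hd (val S) (f.cl G)) (hU : ∀ c ∈ units, Hd (val S) c) :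
    Hd (val S) [14, 16, 20, 30, 38, 1416, 1436, 2290, 2519, 2296] :=
  stu_sound A A2 hU i60

theorem i61 : stu G units []
    [.initX 0 0 0 1]
    [0, 6, 8, 14, 16, 30, 1436, 1450, 2290, 2519] 0x4eb4792d52ce00f00800700400319118c18918618117c000
    [[0,3], [2], [4], [6], [8], [10], [12], [1], [15], [17], [19], [21], [23], [25], [27], [29], [30]]
    16 5 4 1
    (.leaf 0x800040000000200000001000000008000000040000000200000001000000008000000001000000000040000000200000001000000008000000040000000200020001)
    [0x502] 17 17 = true := by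
  decide +kernel

theorem j61 (A : ∀ f : CS, f.ok G = true → Hd (val S) (f.cl G))
    (A2 : ∀ f : CI, f.ok G = true → Hd (val S) (f.cl G)) (hU : ∀ c ∈ units, Hd (val S) c) :
    Hd (val S) [0, 6, 8, 14, 16, 30, 1436, 1450, 2290, 2519] :=
  stu_sound A A2 hU i61

theorem i62 : stu G units []
    [.initX 0 0 0 1]
    [0, 38, 44, 1408, 1412, 1422, 2290, 2519] 0x4eb4792c72c22c001601319118c18918618117c000
    [[0,3], [2], [4], [6], [8], [10], [12], [1], [15], [17], [19], [21], [23], [25], [26]]
    14 5 4 1
    (.leaf 0x200040000002000000100000008000000400000020000000040000000040000002000000100000008000000400000020008001)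
    [0x448] 15 15 = true := by
  decide +kernel

theorem j62 (A : ∀ f : CS, f.ok G = true → Hd (val S) (f.cl G))
    (A2 : ∀ f : CI, f.ok G = true → Hd (val S) (f.cl G)) (hU : ∀ c ∈ units, Hd (val S) c) :
    Hd (val S) [0, 38, 44, 1408, 1412, 1422, 2290, 2519] :=
  stu_sound A A2 hU i62

theorem i63 : stu G units []
    [.initX 0 2 2 1]
    [16, 20, 38, 396, 408, 1408, 1410, 1424, 1426, 2290, 2519] 0x4eb4792c92c82c12c00cc0c601300819118c18918117c18600a
    [[0,3], [4], [6], [2], [8], [10], [12], [15], [1], [17], [19], [21], [23], [25], [27], [29], [31], [32]]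
    17 5 4 1
    (.leaf 0x40001000000002000000004000000008000000010000000020000000040000000080000000002000000400000000000040000000080000000100000000080000000800000001000040001)
    [0x489] 18 18 = true := by
  decide +kernel

theorem j63 (A : ∀ f : CS, f.ok G = true → Hd (val S) (f.cl G))
    (A2 : ∀ f : CI, f.ok G = true → Hd (val S) (f.cl G)) (hU : ∀ c ∈ units, Hd (val S) c) :
    Hd (val S) [16, 20, 38, 396, 408, 1408, 1410, 1424, 1426, 2290, 2519] :=
  stu_sound A A2 hU i63

theorem i64 : stu G units []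
    [.initX 0 4 0 1]
    [32, 44, 1408, 1412, 1422, 1436, 1317, 2290, 2519] 0x4eb4792922ce2c72c22c001619118918618117c18c010
    [[0,3], [4], [6], [8], [10], [2], [12], [1], [15], [17], [19], [21], [23], [24], [27], [28]]
    15 5 4 1
    (.leaf 0x100010000000000040004000000080000001000000020000000400000000200000000040000000080000020000000400000008000000100010001)
    [0x506] 16 16 = true := by
  decide +kernel

theorem j64 (A : ∀ f : CS, f.ok G = true → Hd (val S) (f.cl G))
    (A2 : ∀ f : CI, f.ok G = true → Hd (val S) (f.cl G)) (hU : ∀ c ∈ units, Hd (val S) c) :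
    Hd (val S) [32, 44, 1408, 1412, 1422, 1436, 1317, 2290, 2519] :=
  stu_sound A A2 hU i64

theorem i65 : stu G units []
    [.initX 0 1 1 1]
    [8, 10, 14, 26, 30, 1424, 1428, 1436, 2290] 0x4792ce2ca2c800f00d00700419118c18918617c181005
    [[0,3], [4], [2], [6], [8], [10], [12], [15], [1], [17], [19], [21], [23], [25], [27], [29]]
    15 5 4 1
    (.leaf 0x800000010000000200000004000000080000001000000020000000008000010000000000040000000800000010000000200000002000000100010001)
    [0x523] 16 16 = true := by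
  decide +kernel

theorem j65 (A : ∀ f : CS, f.ok G = true → Hd (val S) (f.cl G))
    (A2 : ∀ f : CI, f.ok G = true → Hd (val S) (f.cl G)) (hU : ∀ c ∈ units, Hd (val S) c) :
    Hd (val S) [8, 10, 14, 26, 30, 1424, 1428, 1436, 2290] :=
  stu_sound A A2 hU i65

theorem i66 : stu G units []
    [.initX 0 2 2 1]
    [14, 16, 20, 38, 1424, 1426, 2290, 2519, 2296] 0x47c4eb4792c92c801300800719118c18918117c18600a
    [[0,3], [4], [6], [2], [8], [10], [12], [15], [17], [1], [19], [21], [23], [25], [26], [29]]
    15 5 4 1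
    (.leaf 0x800000000002000200000004000000080000001000000000200000800000010000000000040000000800000010000000080000008000000100010001)
    [0x544] 16 16 = true := by
  decide +kernel

theorem j66 (A : ∀ f : CS, f.ok G = true → Hd (val S) (f.cl G))
    (A2 : ∀ f : CI, f.ok G = true → Hd (val S) (f.cl G)) (hU : ∀ c ∈ units, Hd (val S) c) :
    Hd (val S) [14, 16, 20, 38, 1424, 1426, 2290, 2519, 2296] :=
  stu_sound A A2 hU i66

theorem i67 : stu G units []
    [.initX 0 4 0 1]
    [12, 14, 32, 1412, 1424, 1426, 1430, 1317, 2290, 2519] 0x4eb4792922cb2c92c82c200700619118918618117c18c010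
    [[0,3], [4], [6], [8], [10], [2], [12], [15], [17], [1], [19], [21], [23], [25], [26], [29], [30]]
    16 5 4 1
    (.leaf 0x800040000000000020001000000008000000040000000200000000010000010000000080000000000040000000020000002000000010000000080000000400020001)
    [0x546] 17 17 = true := by
  decide +kernel

theorem j67 (A : ∀ f : CS, f.ok G = true → Hd (val S) (f.cl G))
    (A2 : ∀ f : CI, f.ok G = true → Hd (val S) (f.cl G)) (hU : ∀ c ∈ units, Hd (val S) c) :
    Hd (val S) [12, 14, 32, 1412, 1424, 1426, 1430, 1317, 2290, 2519] :=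
  stu_sound A A2 hU i67

theorem i68 : stu G units []
    [.initX 0 2 2 1]
    [2, 12, 14, 20, 32, 1408, 1416, 1317, 2290, 2519] 0x4eb4792922c42c001000700600119118c18918117c18600a
    [[0,3], [4], [6], [2], [8], [10], [12], [15], [17], [19], [1], [21], [23], [25], [26], [29], [30]]
    16 5 4 1
    (.leaf 0x800040000000000020001000000008000000040000000001000002000000010000000080000000000040000000200000001000000002000000080000000400020001)
    [0x564] 17 17 = true := by
  decide +kernel

theorem j68 (A : ∀ f : CS, f.ok G = true → Hd (val S) (f.cl G))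
    (A2 : ∀ f : CI, f.ok G = true → Hd (val S) (f.cl G)) (hU : ∀ c ∈ units, Hd (val S) c) :
    Hd (val S) [2, 12, 14, 20, 32, 1408, 1416, 1317, 2290, 2519] :=
  stu_sound A A2 hU i68

theorem i69 : stu G units []
    [.initX 0 4 0 1]
    [32, 34, 44, 1408, 1412, 1424, 1436, 1452, 1317, 2290, 2519] 0x4eb4792922d62ce2c82c22c001601119118918618117c18c010
    [[0,3], [4], [6], [8], [10], [2], [12], [1], [15], [17], [19], [21], [23], [25], [27], [28], [31], [32]]
    17 5 4 1
    (.leaf 0x40001000000000000100004000000008000000010000000020000000040000000080000000100000000008000000000040000000008000000200000000400000000800000001000040001)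
    [0x4c8] 18 18 = true := by
  decide +kernel

theorem j69 (A : ∀ f : CS, f.ok G = true → Hd (val S) (f.cl G))
    (A2 : ∀ f : CI, f.ok G = true → Hd (val S) (f.cl G)) (hU : ∀ c ∈ units, Hd (val S) c) :
    Hd (val S) [32, 34, 44, 1408, 1412, 1424, 1436, 1452, 1317, 2290, 2519] :=
  stu_sound A A2 hU i69

theorem i70 : stu G units []
    [.initX 0 0 0 1]
    [0, 16, 20, 30, 38, 1408, 1410, 1424, 1426, 1440] 0x2d02c92c82c12c001300f00a00819118c18918618117c000
    [[0,3], [2], [4], [6], [8], [10], [12], [1], [15], [17], [19], [21], [23], [25], [27], [29], [31]]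
    16 5 4 1
    (.leaf 0x8000000040000000200000001000000008000000040000000200000001000000008000000001000000000040000000200000001000000008000000040000000200020001)
    [0x502] 17 17 = true := by
  decide +kernel

theorem j70 (A : ∀ f : CS, f.ok G = true → Hd (val S) (f.cl G))
    (A2 : ∀ f : CI, f.ok G = true → Hd (val S) (f.cl G)) (hU : ∀ c ∈ units, Hd (val S) c) :
    Hd (val S) [0, 16, 20, 30, 38, 1408, 1410, 1424, 1426, 1440] :=
  stu_sound A A2 hU i70

theorem i71 : stu G units []
    [.initX 0 0 0 1]
    [0, 16, 20, 38, 1408, 1410, 1424, 1426, 1434, 1314] 0x2912cd2c92c82c12c001300a00819118c18918618117c000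
    [[0,3], [2], [4], [6], [8], [10], [12], [1], [15], [17], [19], [21], [23], [25], [27], [29], [31]]
    16 5 4 1
    (.leaf 0x8000000040000000200000001000000008000000040000000200000001000000008000000001000000000040000000200000001000000008000000040000000200020001)
    [0x502] 17 17 = true := by
  decide +kernel

theorem j71 (A : ∀ f : CS, f.ok G = true → Hd (val S) (f.cl G))
    (A2 : ∀ f : CI, f.ok G = true → Hd (val S) (f.cl G)) (hU : ∀ c ∈ units, Hd (val S) c) :
    Hd (val S) [0, 16, 20, 38, 1408, 1410, 1424, 1426, 1434, 1314] :=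
  stu_sound A A2 hU i71

theorem i72 : stu G units []
    [.initX 0 0 0 1]
    [0, 8, 14, 26, 38, 1408, 1410, 1424, 1426, 1434, 1314] 0x2912cd2c92c82c12c001300d00700419118c18918618117c000
    [[0,3], [2], [4], [6], [8], [10], [12], [1], [15], [17], [19], [21], [23], [25], [27], [29], [31], [33]]
    17 5 4 1
    (.leaf 0x800000001000000002000000004000000008000000010000000020000000040000000080000000100000000008000000000040000000080000000100000000200000000400000000800040001)
    [0x448] 18 18 = true := by
  decide +kernel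

theorem j72 (A : ∀ f : CS, f.ok G = true → Hd (val S) (f.cl G))
    (A2 : ∀ f : CI, f.ok G = true → Hd (val S) (f.cl G)) (hU : ∀ c ∈ units, Hd (val S) c) :
    Hd (val S) [0, 8, 14, 26, 38, 1408, 1410, 1424, 1426, 1434, 1314] :=
  stu_sound A A2 hU i72

theorem i73 : stu G units []
    [.initX 0 1 1 1]
    [10, 12, 14, 20, 34, 1410, 1412, 1428, 1317, 2519, 2296] 0x47c4eb2922ca2c22c101100a00700619118c18918617c181005
    [[0,3], [4], [2], [6], [8], [10], [12], [1], [15], [17], [19], [21], [23], [25], [27], [28], [30], [33]]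
    17 5 4 1
    (.leaf 0x800000000000080000000100004000000008000000010000000020000000040000000080000000100000000008000000000040000000080000000100000000200000000200000001000040001)
    [0x468] 18 18 = true := by
  decide +kernel

theorem j73 (A : ∀ f : CS, f.ok G = true → Hd (val S) (f.cl G))
    (A2 : ∀ f : CI, f.ok G = true → Hd (val S) (f.cl G)) (hU : ∀ c ∈ units, Hd (val S) c) :
    Hd (val S) [10, 12, 14, 20, 34, 1410, 1412, 1428, 1317, 2519, 2296] :=
  stu_sound A A2 hU i73

theorem i74 : stu G units []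
    [.initX 0 2 2 1]
    [14, 20, 1412, 1416, 1424, 1428, 2308, 2296] 0x47c4822ca2c82c42c200719118c18918117c18600a
    [[0,3], [4], [6], [2], [8], [10], [12], [15], [1], [17], [19], [21], [23], [25], [27]]
    14 5 4 1
    (.leaf 0x800000040000002000000100000008000000400000000400002000000000040000002000000100000002000000800000040008001)
    [0x489] 15 15 = true := by
  decide +kernel

theorem j74 (A : ∀ f : CS, f.ok G = true → Hd (val S) (f.cl G))
    (A2 : ∀ f : CI, f.ok G = true → Hd (val S) (f.cl G)) (hU : ∀ c ∈ units, Hd (val S) c) :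
    Hd (val S) [14, 20, 1412, 1416, 1424, 1428, 2308, 2296] :=
  stu_sound A A2 hU i74

theorem i75 : stu G units []
    [.initX 0 1 1 1]
    [10, 14, 20, 499, 1410, 1412, 1811, 1865, 1317, 2519] 0x4eb2923a43892c22c10f900a00719118c18918617c181005
    [[0,3], [4], [2], [6], [8], [10], [12], [1], [15], [17], [18], [21], [23], [24], [26], [28], [30]]
    16 5 4 1
    (.leaf 0x800000004000000020000000100008000000040000000000020001000000008000000001000000000040000000200000001000000008000000020000000400020001)
    [0x503] 17 17 = true := by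
  decide +kernel

theorem j75 (A : ∀ f : CS, f.ok G = true → Hd (val S) (f.cl G))
    (A2 : ∀ f : CI, f.ok G = true → Hd (val S) (f.cl G)) (hU : ∀ c ∈ units, Hd (val S) c) :
    Hd (val S) [10, 14, 20, 499, 1410, 1412, 1811, 1865, 1317, 2519] :=
  stu_sound A A2 hU i75

theorem i76 : stu G units []
    [.initX 0 1 1 1]
    [2, 6, 10, 14, 26, 44, 1436, 1448, 1314, 2296] 0x47c2912d42ce01600d00700300119118c18918617c181005
    [[0,3], [4], [2], [6], [8], [10], [12], [15], [17], [1], [19], [21], [23], [25], [27], [29], [31]]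
    16 5 4 1
    (.leaf 0x8000000040000000200000001000000008000000040000000200000000010000010000000080000000000040000000200000001000000008000000020000000400020001)
    [0x543] 17 17 = true := by
  decide +kernel

theorem j76 (A : ∀ f : CS, f.ok G = true → Hd (val S) (f.cl G))
    (A2 : ∀ f : CI, f.ok G = true → Hd (val S) (f.cl G)) (hU : ∀ c ∈ units, Hd (val S) c) :
    Hd (val S) [2, 6, 10, 14, 26, 44, 1436, 1448, 1314, 2296] :=
  stu_sound A A2 hU i76

theorem i77 : stu G units []
    [.initX 0 0 0 1]
    [0, 14, 20, 38, 396, 408, 1408, 1410, 1426, 2290, 2519] 0x4eb4792c92c12c00cc0c601300a00719118c18918618117c000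
    [[0,3], [2], [4], [6], [8], [10], [12], [1], [15], [17], [19], [21], [23], [25], [27], [29], [31], [32]]
    17 5 4 1
    (.leaf 0x40001000000002000000004000000008000000010000000020000000040000000080000000100000000008000000000040000000080000000100000000200000000400000000800040001)
    [0x448] 18 18 = true := by
  decide +kernel

theorem j77 (A : ∀ f : CS, f.ok G = true → Hd (val S) (f.cl G))
    (A2 : ∀ f : CI, f.ok G = true → Hd (val S) (f.cl G)) (hU : ∀ c ∈ units, Hd (val S) c) :
    Hd (val S) [0, 14, 20, 38, 396, 408, 1408, 1410, 1426, 2290, 2519] :=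
  stu_sound A A2 hU i77

theorem i78 : stu G units []
    [.initX 0 3 1 1]
    [26, 30, 34, 1422, 1430, 1436, 1317, 2290, 2519] 0x4eb4792922ce2cb2c701100f19118c18618117c18900d
    [[0,3], [4], [6], [8], [2], [10], [12], [1], [15], [17], [19], [21], [23], [24], [27], [28]]
    15 5 4 1
    (.leaf 0x100010000000000040004000000080000001000000020000000400000000200000000040000000800000002000000400000008000000100010001)
    [0x505] 16 16 = true := by
  decide +kernel

theorem j78 (A : ∀ f : CS, f.ok G = true → Hd (val S) (f.cl G))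
    (A2 : ∀ f : CI, f.ok G = true → Hd (val S) (f.cl G)) (hU : ∀ c ∈ units, Hd (val S) c) :
    Hd (val S) [26, 30, 34, 1422, 1430, 1436, 1317, 2290, 2519] :=
  stu_sound A A2 hU i78

theorem i79 : stu G units []
    [.initX 0 0 0 1]
    [0, 6, 14, 20, 396, 499, 1410, 1412, 1446, 1317, 2519] 0x4eb2922d32c22c10f90c600a00700319118c18918618117c000
    [[0,3], [2], [4], [6], [8], [10], [12], [1], [15], [17], [19], [21], [22], [25], [27], [29], [30], [32]]
    17 5 4 1
    (.leaf 0x40000000080002000000004000000008000000000000800020000000040000000080000000100000000008000000000040000000080000000100000000200000000400000000800040001)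
    [0x448] 18 18 = true := by
  decide +kernel

theorem j79 (A : ∀ f : CS, f.ok G = true → Hd (val S) (f.cl G))
    (A2 : ∀ f : CI, f.ok G = true → Hd (val S) (f.cl G)) (hU : ∀ c ∈ units, Hd (val S) c) :
    Hd (val S) [0, 6, 14, 20, 396, 499, 1410, 1412, 1446, 1317, 2519] :=
  stu_sound A A2 hU i79

theorem i80 : stu G units [.uniq 0 0 0 3]
    [.initX 0 0 0 1]
    [7, 16, 20, 396, 499, 1446, 1317, 2519] 0x4eb2922d30f90c600a00819118c18918618117c003000
    [[1,3], [0,5], [4], [6], [8], [10], [12], [14], [2], [17], [19], [21], [22], [25], [26], [28]]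
    15 5 7 1
    (.leaf 0x1000100000002000200000000000800080000001000000020000000000002000002000000040000000800000010000000200000004000800040018000)
    [0x3148043] 16 17 = true := by
  decide +kernel

theorem j80 (A : ∀ f : CS, f.ok G = true → Hd (val S) (f.cl G))
    (A2 : ∀ f : CI, f.ok G = true → Hd (val S) (f.cl G)) (hU : ∀ c ∈ units, Hd (val S) c) :
    Hd (val S) [7, 16, 20, 396, 499, 1446, 1317, 2519] :=
  stu_sound A A2 hU i80

theorem i81 : stu G units []
    [.initX 0 0 0 1]
    [0, 6, 14, 20, 396, 499, 1416, 1317, 2290, 2519] 0x4eb4792922c40f90c600a00700319118c18918618117c000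
    [[0,3], [2], [4], [6], [8], [10], [12], [1], [15], [17], [19], [21], [22], [25], [26], [29], [30]]
    16 5 4 1
    (.leaf 0x800040000000000020001000000000000800040000000200000001000000008000000001000000000040000000200000001000000008000000040000000200020001)
    [0x502] 17 17 = true := by
  decide +kernel

theorem j81 (A : ∀ f : CS, f.ok G = true → Hd (val S) (f.cl G))
    (A2 : ∀ f : CI, f.ok G = true → Hd (val S) (f.cl G)) (hU : ∀ c ∈ units, Hd (val S) c) :
    Hd (val S) [0, 6, 14, 20, 396, 499, 1416, 1317, 2290, 2519] :=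
  stu_sound A A2 hU i81

theorem i82 : stu G units []
    [.initX 0 1 1 1]
    [10, 14, 20, 390, 1410, 1412, 1428, 1434, 1793, 1317] 0x2923802cd2ca2c22c10c300a00719118c18918617c181005
    [[0,3], [4], [2], [6], [8], [10], [12], [1], [15], [17], [19], [21], [23], [25], [27], [28], [30]]
    16 5 4 1
    (.leaf 0x800000004000200000001000000008000000040000000200000001000000008000000001000000000040000000200000001000000008000000020000000400020001)
    [0x503] 17 17 = true := by
  decide +kernel

theorem j82 (A : ∀ f : CS, f.ok G = true → Hd (val S) (f.cl G))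
    (A2 : ∀ f : CI, f.ok G = true → Hd (val S) (f.cl G)) (hU : ∀ c ∈ units, Hd (val S) c) :
    Hd (val S) [10, 14, 20, 390, 1410, 1412, 1428, 1434, 1793, 1317] :=
  stu_sound A A2 hU i82

theorem i83 : stu G units []
    [.initX 0 0 0 1]
    [0, 6, 8, 14, 26, 30, 1436, 1448, 1450, 2519, 2296] 0x47c4eb2d52d42ce00f00d00700400319118c18918618117c000
    [[0,3], [2], [4], [6], [8], [10], [12], [1], [15], [17], [19], [21], [23], [25], [27], [29], [30], [33]]
    17 5 4 1
    (.leaf 0x800000000000080002000000004000000008000000010000000020000000040000000080000000100000000008000000000040000000080000000100000000200000000400000000800040001)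
    [0x448] 18 18 = true := by
  decide +kernel

theorem j83 (A : ∀ f : CS, f.ok G = true → Hd (val S) (f.cl G))
    (A2 : ∀ f : CI, f.ok G = true → Hd (val S) (f.cl G)) (hU : ∀ c ∈ units, Hd (val S) c) :
    Hd (val S) [0, 6, 8, 14, 26, 30, 1436, 1448, 1450, 2519, 2296] :=
  stu_sound A A2 hU i83

theorem i84 : stu G units []
    [.initX 0 0 0 1]
    [0, 6, 8, 14, 24, 26, 1448, 1314, 2296] 0x47c2912d400d00c00700400319118c18918618117c000
    [[0,3], [2], [4], [6], [8], [10], [12], [1], [15], [17], [19], [21], [23], [25], [27], [29]]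
    15 5 4 1
    (.leaf 0x800000010000000200000004000000080000001000000020000000400000000200000000040000000800000010000000200000004000000080010001)
    [0x502] 16 16 = true := by
  decide +kernel

theorem j84 (A : ∀ f : CS, f.ok G = true → Hd (val S) (f.cl G))
    (A2 : ∀ f : CI, f.ok G = true → Hd (val S) (f.cl G)) (hU : ∀ c ∈ units, Hd (val S) c) :
    Hd (val S) [0, 6, 8, 14, 24, 26, 1448, 1314, 2296] :=
  stu_sound A A2 hU i84

theorem i85 : stu G units []
    [.initX 0 1 1 1]
    [10, 14, 20, 390, 397, 1410, 1412, 1446, 1317, 2519] 0x4eb2922d32c22c10c60c300a00719118c18918617c181005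
    [[0,3], [4], [2], [6], [8], [10], [12], [1], [15], [17], [19], [20], [23], [25], [27], [28], [30]]
    16 5 4 1
    (.leaf 0x800000004000200000001000000008000000000004000200000001000000008000000001000000000040000000200000001000000008000000020000000400020001)
    [0x503] 17 17 = true := by
  decide +kernel

theorem j85 (A : ∀ f : CS, f.ok G = true → Hd (val S) (f.cl G))
    (A2 : ∀ f : CI, f.ok G = true → Hd (val S) (f.cl G)) (hU : ∀ c ∈ units, Hd (val S) c) :
    Hd (val S) [10, 14, 20, 390, 397, 1410, 1412, 1446, 1317, 2519] :=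
  stu_sound A A2 hU i85

theorem i86 : stu G units []
    [.initX 0 1 1 1]
    [8, 10, 14, 26, 30, 34, 1436, 1448, 2296] 0x47c2d42ce01100f00d00700419118c18918617c181005
    [[0,3], [4], [2], [6], [8], [10], [12], [15], [1], [17], [19], [21], [23], [25], [27], [29]]
    15 5 4 1
    (.leaf 0x800000010000000200000004000000080000001000000020000000008000010000000000040000000800000010000000200000002000000100010001)
    [0x523] 16 16 = true := by
  decide +kernel

theorem j86 (A : ∀ f : CS, f.ok G = true → Hd (val S) (f.cl G))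
    (A2 : ∀ f : CI, f.ok G = true → Hd (val S) (f.cl G)) (hU : ∀ c ∈ units, Hd (val S) c) :
    Hd (val S) [8, 10, 14, 26, 30, 34, 1436, 1448, 2296] :=
  stu_sound A A2 hU i86

theorem i87 : stu G units []
    [.initX 0 1 1 1]
    [10, 14, 20, 38, 390, 608, 1410, 1412, 2519] 0x4eb2c22c11300c301300a00719118c18918617c181005
    [[0,3], [4], [2], [6], [8], [10], [12], [1], [15], [17], [19], [21], [23], [25], [27], [28]]
    15 5 4 1
    (.leaf 0x100010000000200000004000000080000001000000020000000400000000200000000040000000800000010000000200000002000000100010001)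
    [0x503] 16 16 = true := by
  decide +kernel

theorem j87 (A : ∀ f : CS, f.ok G = true → Hd (val S) (f.cl G))
    (A2 : ∀ f : CI, f.ok G = true → Hd (val S) (f.cl G)) (hU : ∀ c ∈ units, Hd (val S) c) :
    Hd (val S) [10, 14, 20, 38, 390, 608, 1410, 1412, 2519] :=
  stu_sound A A2 hU i87

theorem i88 : stu G units []
    [.initX 0 2 2 1]
    [14, 20, 26, 30, 38, 1410, 1412, 1436, 2519, 2296] 0x47c4eb2ce2c22c101300f00d00719118c18918117c18600a
    [[0,3], [4], [6], [2], [8], [10], [12], [15], [1], [17], [19], [21], [23], [25], [27], [28], [31]]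
    16 5 4 1
    (.leaf 0x8000000000004000200000001000000008000000040000000200000001000000000100000080000000000040000000200000001000000002000000080000000400020001)
    [0x524] 17 17 = true := by
  decide +kernel

theorem j88 (A : ∀ f : CS, f.ok G = true → Hd (val S) (f.cl G))
    (A2 : ∀ f : CI, f.ok G = true → Hd (val S) (f.cl G)) (hU : ∀ c ∈ units, Hd (val S) c) :
    Hd (val S) [14, 20, 26, 30, 38, 1410, 1412, 1436, 2519, 2296] :=
  stu_sound A A2 hU i88

theorem i89 : stu G units [.uniq 0 0 0 3]
    [.initX 0 0 0 1]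
    [7, 8, 10, 26, 30, 1436, 2519, 2296] 0x47c4eb2ce00f00d00500419118c18918618117c003000
    [[1,3], [0,5], [4], [6], [8], [10], [12], [14], [2], [17], [19], [21], [23], [25], [26], [29]]
    15 5 7 1
    (.leaf 0x1800000000002000200000004000000080000001000000020000000000002000002000000040000000800000010000000200000004000800040018000)
    [0x3148043] 16 17 = true := by
  decide +kernel

theorem j89 (A : ∀ f : CS, f.ok G = true → Hd (val S) (f.cl G))
    (A2 : ∀ f : CI, f.ok G = true → Hd (val S) (f.cl G)) (hU : ∀ c ∈ units, Hd (val S) c) :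
    Hd (val S) [7, 8, 10, 26, 30, 1436, 2519, 2296] :=
  stu_sound A A2 hU i89

theorem i90 : stu G units []
    [.initX 0 1 1 1]
    [8, 10, 14, 26, 1410, 1412, 1436, 1314, 2519, 2296] 0x47c4eb2912ce2c22c100d00700419118c18918617c181005
    [[0,3], [4], [2], [6], [8], [10], [12], [15], [1], [17], [19], [21], [23], [25], [27], [28], [31]]
    16 5 4 1
    (.leaf 0x8000000000004000200000001000000008000000040000000200000001000000000100000080000000000040000000200000001000000008000000020000000400020001)
    [0x523] 17 17 = true := by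
  decide +kernel

theorem j90 (A : ∀ f : CS, f.ok G = true → Hd (val S) (f.cl G))
    (A2 : ∀ f : CI, f.ok G = true → Hd (val S) (f.cl G)) (hU : ∀ c ∈ units, Hd (val S) c) :
    Hd (val S) [8, 10, 14, 26, 1410, 1412, 1436, 1314, 2519, 2296] :=
  stu_sound A A2 hU i90

theorem i91 : stu G units []
    [.initX 0 0 0 1]
    [0, 6, 14, 20, 38, 390, 397, 1416, 2290, 2519] 0x4eb4792c40c60c301300a00700319118c18918618117c000
    [[0,3], [2], [4], [6], [8], [10], [12], [1], [15], [17], [19], [21], [23], [24], [27], [29], [30]]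
    16 5 4 1
    (.leaf 0x800040000000200000000000100008000000040000000200000001000000008000000001000000000040000000200000001000000008000000040000000200020001)
    [0x502] 17 17 = true := by
  decide +kernel

theorem j91 (A : ∀ f : CS, f.ok G = true → Hd (val S) (f.cl G))
    (A2 : ∀ f : CI, f.ok G = true → Hd (val S) (f.cl G)) (hU : ∀ c ∈ units, Hd (val S) c) :
    Hd (val S) [0, 6, 14, 20, 38, 390, 397, 1416, 2290, 2519] :=
  stu_sound A A2 hU i91

theorem i92 : stu G units []
    [.initX 0 4 0 1]
    [1105, 32] 0x22819118918618117c18c010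
    [[0,3], [4], [6], [8], [10], [2], [12], [14], [1]]
    8 4 4 1
    (.leaf 0x10000800040000200200010000800040201)
    [0x196] 9 9 = true := by
  decide +kernel

theorem j92 (A : ∀ f : CS, f.ok G = true → Hd (val S) (f.cl G))
    (A2 : ∀ f : CI, f.ok G = true → Hd (val S) (f.cl G)) (hU : ∀ c ∈ units, Hd (val S) c) :
    Hd (val S) [1105, 32] :=
  stu_sound A A2 hU i92

theorem i93 : stu G units []
    [.initX 0 0 0 1]
    [0, 2, 38, 1408, 1434] 0x2cd2c001300119118c18918618117c000
    [[0,3], [2], [4], [6], [8], [10], [12], [1], [15], [17], [19], [21]]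
    11 4 4 1
    (.leaf 0x800001000002000004000000200000040000080000100000200000400000801001)
    [0x182] 12 12 = true := by
  decide +kernel

theorem j93 (A : ∀ f : CS, f.ok G = true → Hd (val S) (f.cl G))
    (A2 : ∀ f : CI, f.ok G = true → Hd (val S) (f.cl G)) (hU : ∀ c ∈ units, Hd (val S) c) :
    Hd (val S) [0, 2, 38, 1408, 1434] :=
  stu_sound A A2 hU i93

theorem i94 : stu G units []
    [.initX 0 0 0 1]
    [0, 2, 1408, 2519, 2302] 0x47f4eb2c000119118c18918618117c000
    [[0,3], [2], [4], [6], [8], [10], [12], [1], [15], [17], [18], [21]]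
    11 4 4 1
    (.leaf 0x800000002002000004000000200000040000080000100000200000400000801001)
    [0x182] 12 12 = true := by
  decide +kernel

theorem j94 (A : ∀ f : CS, f.ok G = true → Hd (val S) (f.cl G))
    (A2 : ∀ f : CI, f.ok G = true → Hd (val S) (f.cl G)) (hU : ∀ c ∈ units, Hd (val S) c) :
    Hd (val S) [0, 2, 1408, 2519, 2302] :=
  stu_sound A A2 hU i94

theorem i95 : stu G units []
    [.initX 0 0 0 1]
    [0, 6, 40, 1408, 1412, 2519, 2294] 0x47b4eb2c22c001400319118c18918618117c000
    [[0,3], [2], [4], [6], [8], [10], [12], [1], [15], [17], [19], [21], [22], [25]]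
    13 4 4 1
    (.leaf 0x8000000000800200000040000008000001000000008000000040000008000001000000200000040000008004001)
    [0x128] 14 14 = true := by
  decide +kernel

theorem j95 (A : ∀ f : CS, f.ok G = true → Hd (val S) (f.cl G))
    (A2 : ∀ f : CI, f.ok G = true → Hd (val S) (f.cl G)) (hU : ∀ c ∈ units, Hd (val S) c) :
    Hd (val S) [0, 6, 40, 1408, 1412, 2519, 2294] :=
  stu_sound A A2 hU i95

theorem i96 : stu G units []
    [.initX 0 0 0 1]
    [0, 32, 38, 396, 492] 0xf60c601301019118c18918618117c000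
    [[0,3], [2], [4], [6], [8], [10], [12], [1], [15], [17], [19], [21]]
    11 4 4 1
    (.leaf 0x800001000002000004000000200000040000080000100000200000400000801001)
    [0x182] 12 12 = true := by
  decide +kernel

theorem j96 (A : ∀ f : CS, f.ok G = true → Hd (val S) (f.cl G))
    (A2 : ∀ f : CI, f.ok G = true → Hd (val S) (f.cl G)) (hU : ∀ c ∈ units, Hd (val S) c) :
    Hd (val S) [0, 32, 38, 396, 492] :=
  stu_sound A A2 hU i96

theorem i97 : stu G units []
    [.initX 0 1 1 1]
    [2, 6, 10, 397, 1416, 1822, 2519, 2302] 0x47f4eb38f2c40c600300119118c18918617c181005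
    [[0,3], [4], [2], [6], [8], [10], [12], [15], [17], [1], [18], [21], [23], [24], [27]]
    14 5 4 1
    (.leaf 0x800000000010002000000100000000002000004000040000002000000000040000002000000100000008000000200000040008001)
    [0x46a] 15 15 = true := by
  decide +kernel

theorem j97 (A : ∀ f : CS, f.ok G = true → Hd (val S) (f.cl G))
    (A2 : ∀ f : CI, f.ok G = true → Hd (val S) (f.cl G)) (hU : ∀ c ∈ units, Hd (val S) c) :
    Hd (val S) [2, 6, 10, 397, 1416, 1822, 2519, 2302] :=
  stu_sound A A2 hU i97

theorem i98 : stu G units []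
    [.initX 0 1 1 1]
    [6, 8, 10, 14, 1408, 1412, 1436, 1452, 2290] 0x4792d62ce2c22c000700400319118c18918617c181005
    [[0,3], [4], [2], [6], [8], [10], [12], [15], [17], [1], [19], [21], [23], [25], [27], [29]]
    15 5 4 1
    (.leaf 0x800000010000000200000004000000080000001000000000200000800000010000000000040000000800000010000000200000002000000100010001)
    [0x543] 16 16 = true := by
  decide +kernel

theorem j98 (A : ∀ f : CS, f.ok G = true → Hd (val S) (f.cl G))
    (A2 : ∀ f : CI, f.ok G = true → Hd (val S) (f.cl G)) (hU : ∀ c ∈ units, Hd (val S) c) :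
    Hd (val S) [6, 8, 10, 14, 1408, 1412, 1436, 1452, 2290] :=
  stu_sound A A2 hU i98

theorem i99 : stu G units []
    [.initX 0 1 1 1]
    [8, 10, 12, 397, 1416, 1446, 1822, 2519] 0x4eb38f2d32c40c600600419118c18918617c181005
    [[0,3], [4], [2], [6], [8], [10], [12], [15], [1], [17], [18], [21], [23], [25], [26]]
    14 5 4 1
    (.leaf 0x200040000002000000100000000002000400000000400002000000000040000002000000100000008000000200000040008001)
    [0x469] 15 15 = true := by
  decide +kernel

theorem j99 (A : ∀ f : CS, f.ok G = true → Hd (val S) (f.cl G))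
    (A2 : ∀ f : CI, f.ok G = true → Hd (val S) (f.cl G)) (hU : ∀ c ∈ units, Hd (val S) c) :
    Hd (val S) [8, 10, 12, 397, 1416, 1446, 1822, 2519] :=
  stu_sound A A2 hU i99

theorem i100 : stu G units []
    [.initX 0 1 1 1]
    [8, 10, 12, 397, 1416, 1446, 1876, 2519] 0x4eb3aa2d32c40c600600419118c18918617c181005
    [[0,3], [4], [2], [6], [8], [10], [12], [15], [1], [17], [18], [21], [23], [25], [26]]
    14 5 4 1
    (.leaf 0x200040000002000000100000000002000400000000400002000000000040000002000000100000008000000200000040008001)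
    [0x469] 15 15 = true := by
  decide +kernel

theorem j100 (A : ∀ f : CS, f.ok G = true → Hd (val S) (f.cl G))
    (A2 : ∀ f : CI, f.ok G = true → Hd (val S) (f.cl G)) (hU : ∀ c ∈ units, Hd (val S) c) :
    Hd (val S) [8, 10, 12, 397, 1416, 1446, 1876, 2519] :=
  stu_sound A A2 hU i100

theorem i101 : stu G units []
    [.initX 0 1 1 1]
    [8, 10, 12, 1416, 1446, 2288, 2519, 2294] 0x47b4eb4782d32c400600419118c18918617c181005
    [[0,3], [4], [2], [6], [8], [10], [12], [15], [1], [17], [19], [21], [23], [24], [27]]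
    14 5 4 1
    (.leaf 0x800000000010002000000100000008000000400000000400002000000000040000002000000100000008000000200000040008001)
    [0x469] 15 15 = true := by
  decide +kernel

theorem j101 (A : ∀ f : CS, f.ok G = true → Hd (val S) (f.cl G))
    (A2 : ∀ f : CI, f.ok G = true → Hd (val S) (f.cl G)) (hU : ∀ c ∈ units, Hd (val S) c) :
    Hd (val S) [8, 10, 12, 1416, 1446, 2288, 2519, 2294] :=
  stu_sound A A2 hU i101

theorem i102 : stu G units []
    [.initX 0 1 1 1]
    [8, 10, 14, 18, 32, 1426, 1436, 2296] 0x47c2ce2c901000900700419118c18918617c181005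
    [[0,3], [4], [2], [6], [8], [10], [12], [15], [1], [17], [19], [21], [23], [25], [27]]
    14 5 4 1
    (.leaf 0x800000040000002000000100000008000000400000000400002000000000040000002000000100000008000000200000040008001)
    [0x469] 15 15 = true := by
  decide +kernel

theorem j102 (A : ∀ f : CS, f.ok G = true → Hd (val S) (f.cl G))
    (A2 : ∀ f : CI, f.ok G = true → Hd (val S) (f.cl G)) (hU : ∀ c ∈ units, Hd (val S) c) :
    Hd (val S) [8, 10, 14, 18, 32, 1426, 1436, 2296] :=
  stu_sound A A2 hU i102

theorem i103 : stu G units []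
    [.initX 0 1 1 1]
    [8, 10, 14, 24, 32, 1424, 1426, 1442, 2308] 0x4822d12c92c801000c00700419118c18918617c181005
    [[0,3], [4], [2], [6], [8], [10], [12], [15], [1], [17], [19], [21], [23], [25], [27], [29]]
    15 5 4 1
    (.leaf 0x800000010000000200000004000000080000001000000020000000008000010000000000040000000800000010000000200000002000000100010001)
    [0x523] 16 16 = true := by
  decide +kernel

theorem j103 (A : ∀ f : CS, f.ok G = true → Hd (val S) (f.cl G))
    (A2 : ∀ f : CI, f.ok G = true → Hd (val S) (f.cl G)) (hU : ∀ c ∈ units, Hd (val S) c) :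
    Hd (val S) [8, 10, 14, 24, 32, 1424, 1426, 1442, 2308] :=
  stu_sound A A2 hU i103

theorem i104 : stu G units []
    [.initX 0 1 1 1]
    [8, 10, 14, 396, 1418, 1428, 1450, 2517, 2308, 2296] 0x47c4824ea2d52ca2c50c600700419118c18918617c181005
    [[0,3], [4], [2], [6], [8], [10], [12], [15], [1], [17], [19], [21], [23], [25], [26], [29], [31]]
    16 5 4 1
    (.leaf 0x8000000040000000000020001000000008000000040000000200000001000000000100000080000000000040000000200000001000000008000000020000000400020001)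
    [0x523] 17 17 = true := by
  decide +kernel

theorem j104 (A : ∀ f : CS, f.ok G = true → Hd (val S) (f.cl G))
    (A2 : ∀ f : CI, f.ok G = true → Hd (val S) (f.cl G)) (hU : ∀ c ∈ units, Hd (val S) c) :
    Hd (val S) [8, 10, 14, 396, 1418, 1428, 1450, 2517, 2308, 2296] :=
  stu_sound A A2 hU i104

theorem i105 : stu G units []
    [.initX 0 1 1 1]
    [8, 10, 14, 396, 1418, 1804, 2517, 2308] 0x4824ea3862c50c600700419118c18918617c181005
    [[0,3], [4], [2], [6], [8], [10], [12], [15], [1], [17], [19], [21], [23], [24], [27]]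
    14 5 4 1
    (.leaf 0x800000000010002000000100000008000000400000000400002000000000040000002000000100000008000000200000040008001)
    [0x469] 15 15 = true := by
  decide +kernel

theorem j105 (A : ∀ f : CS, f.ok G = true → Hd (val S) (f.cl G))
    (A2 : ∀ f : CI, f.ok G = true → Hd (val S) (f.cl G)) (hU : ∀ c ∈ units, Hd (val S) c) :
    Hd (val S) [8, 10, 14, 396, 1418, 1804, 2517, 2308] :=
  stu_sound A A2 hU i105

theorem i106 : stu G units []
    [.initX 0 1 1 1]
    [8, 10, 14, 396, 1418, 1894, 2517, 2308] 0x4824ea3b32c50c600700419118c18918617c181005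
    [[0,3], [4], [2], [6], [8], [10], [12], [15], [1], [17], [19], [21], [23], [24], [27]]
    14 5 4 1
    (.leaf 0x800000000010002000000100000008000000400000000400002000000000040000002000000100000008000000200000040008001)
    [0x469] 15 15 = true := by
  decide +kernel

theorem j106 (A : ∀ f : CS, f.ok G = true → Hd (val S) (f.cl G))
    (A2 : ∀ f : CI, f.ok G = true → Hd (val S) (f.cl G)) (hU : ∀ c ∈ units, Hd (val S) c) :
    Hd (val S) [8, 10, 14, 396, 1418, 1894, 2517, 2308] :=
  stu_sound A A2 hU i106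

theorem i107 : stu G units []
    [.initX 0 1 1 1]
    [8, 10, 14, 1408, 1410, 1418, 1434, 2517, 2290, 2308, 2296] 0x47c4824794ea2cd2c52c12c000700419118c18918617c181005
    [[0,3], [4], [2], [6], [8], [10], [12], [15], [1], [17], [19], [21], [23], [25], [26], [29], [31], [33]]
    17 5 4 1
    (.leaf 0x800000001000000002000000000000200008000000010000000020000000040000000080000000002000000400000000000040000000080000000100000000200000000200000001000040001)
    [0x469] 18 18 = true := by
  decide +kernel

theorem j107 (A : ∀ f : CS, f.ok G = true → Hd (val S) (f.cl G))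
    (A2 : ∀ f : CI, f.ok G = true → Hd (val S) (f.cl G)) (hU : ∀ c ∈ units, Hd (val S) c) :
    Hd (val S) [8, 10, 14, 1408, 1410, 1418, 1434, 2517, 2290, 2308, 2296] :=
  stu_sound A A2 hU i107

theorem i108 : stu G units []
    [.initX 0 1 1 1]
    [8, 10, 14, 1412, 1418, 1428, 2308, 2519, 2294] 0x47b4eb4822ca2c52c200700419118c18918617c181005
    [[0,3], [4], [2], [6], [8], [10], [12], [15], [1], [17], [19], [21], [23], [25], [26], [29]]
    15 5 4 1
    (.leaf 0x800000000002000200000004000000080000001000000020000000008000010000000000040000000800000010000000200000002000000100010001)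
    [0x523] 16 16 = true := by
  decide +kernel

theorem j108 (A : ∀ f : CS, f.ok G = true → Hd (val S) (f.cl G))
    (A2 : ∀ f : CI, f.ok G = true → Hd (val S) (f.cl G)) (hU : ∀ c ∈ units, Hd (val S) c) :
    Hd (val S) [8, 10, 14, 1412, 1418, 1428, 2308, 2519, 2294] :=
  stu_sound A A2 hU i108

theorem i109 : stu G units []
    [.initX 0 1 1 1]
    [8, 10, 14, 1412, 1418, 1434, 1793, 2308, 2296] 0x47c4823802cd2c52c200700419118c18918617c181005
    [[0,3], [4], [2], [6], [8], [10], [12], [15], [1], [17], [19], [21], [23], [24], [27], [29]]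
    15 5 4 1
    (.leaf 0x800000010000000000040004000000080000001000000020000000008000010000000000040000000800000010000000200000002000000100010001)
    [0x523] 16 16 = true := by
  decide +kernel

theorem j109 (A : ∀ f : CS, f.ok G = true → Hd (val S) (f.cl G))
    (A2 : ∀ f : CI, f.ok G = true → Hd (val S) (f.cl G)) (hU : ∀ c ∈ units, Hd (val S) c) :
    Hd (val S) [8, 10, 14, 1412, 1418, 1434, 1793, 2308, 2296] :=
  stu_sound A A2 hU i109

theorem i110 : stu G units []
    [.initX 0 1 1 1]
    [8, 10, 14, 1418, 1428, 1450, 1883, 1943, 2308, 2296] 0x47c4823cb3ad2d52ca2c500700419118c18918617c181005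
    [[0,3], [4], [2], [6], [8], [10], [12], [15], [1], [17], [19], [21], [23], [24], [26], [29], [31]]
    16 5 4 1
    (.leaf 0x8000000040000000000020000000100008000000040000000200000001000000000100000080000000000040000000200000001000000008000000020000000400020001)
    [0x523] 17 17 = true := by
  decide +kernel

theorem j110 (A : ∀ f : CS, f.ok G = true → Hd (val S) (f.cl G))
    (A2 : ∀ f : CI, f.ok G = true → Hd (val S) (f.cl G)) (hU : ∀ c ∈ units, Hd (val S) c) :
    Hd (val S) [8, 10, 14, 1418, 1428, 1450, 1883, 1943, 2308, 2296] :=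
  stu_sound A A2 hU i110

theorem i111 : stu G units []
    [.initX 0 1 1 1]
    [8, 10, 14, 1418, 1428, 2517, 2290, 2308, 2294] 0x47b4824794ea2ca2c500700419118c18918617c181005
    [[0,3], [4], [2], [6], [8], [10], [12], [15], [1], [17], [19], [21], [22], [25], [27], [29]]
    15 5 4 1
    (.leaf 0x800000010000000200000000000800080000001000000020000000008000010000000000040000000800000010000000200000002000000100010001)
    [0x523] 16 16 = true := by
  decide +kernel

theorem j111 (A : ∀ f : CS, f.ok G = true → Hd (val S) (f.cl G))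
    (A2 : ∀ f : CI, f.ok G = true → Hd (val S) (f.cl G)) (hU : ∀ c ∈ units, Hd (val S) c) :
    Hd (val S) [8, 10, 14, 1418, 1428, 2517, 2290, 2308, 2294] :=
  stu_sound A A2 hU i111

theorem i112 : stu G units []
    [.initX 0 1 1 1]
    [8, 10, 14, 1432, 1434, 1448, 1450, 2290, 2296] 0x47c4792d52d42cd2cc00700419118c18918617c181005
    [[0,3], [4], [2], [6], [8], [10], [12], [15], [1], [17], [19], [21], [23], [25], [27], [29]]
    15 5 4 1
    (.leaf 0x800000010000000200000004000000080000001000000020000000008000010000000000040000000800000010000000200000002000000100010001)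
    [0x523] 16 16 = true := by
  decide +kernel

theorem j112 (A : ∀ f : CS, f.ok G = true → Hd (val S) (f.cl G))
    (A2 : ∀ f : CI, f.ok G = true → Hd (val S) (f.cl G)) (hU : ∀ c ∈ units, Hd (val S) c) :
    Hd (val S) [8, 10, 14, 1432, 1434, 1448, 1450, 2290, 2296] :=
  stu_sound A A2 hU i112

theorem i113 : stu G units []
    [.initX 0 1 1 1]
    [8, 10, 391, 1418, 1876, 2517, 2308] 0x4824ea3aa2c50c300419118c18918617c181005
    [[0,3], [4], [2], [6], [8], [10], [12], [15], [1], [16], [19], [21], [22], [25]]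
    13 4 4 1
    (.leaf 0x8000000000800200000040000000004000020000400000000040000008000001000000200000020000010004001)
    [0x139] 14 14 = true := by
  decide +kernel

theorem j113 (A : ∀ f : CS, f.ok G = true → Hd (val S) (f.cl G))
    (A2 : ∀ f : CI, f.ok G = true → Hd (val S) (f.cl G)) (hU : ∀ c ∈ units, Hd (val S) c) :
    Hd (val S) [8, 10, 391, 1418, 1876, 2517, 2308] :=
  stu_sound A A2 hU i113

theorem i114 : stu G units []
    [.initX 0 1 1 1]
    [10, 38, 44, 1408, 1410, 1440, 2290, 2296] 0x47c4792d02c12c001601319118c18918617c181005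
    [[0,3], [4], [2], [6], [8], [10], [12], [1], [15], [17], [19], [21], [23], [25], [27]]
    14 5 4 1
    (.leaf 0x800000040000002000000100000008000000400000020000000040000000040000002000000100000008000000200000040008001)
    [0x468] 15 15 = true := by
  decide +kernel

theorem j114 (A : ∀ f : CS, f.ok G = true → Hd (val S) (f.cl G))
    (A2 : ∀ f : CI, f.ok G = true → Hd (val S) (f.cl G)) (hU : ∀ c ∈ units, Hd (val S) c) :
    Hd (val S) [10, 38, 44, 1408, 1410, 1440, 2290, 2296] :=
  stu_sound A A2 hU i114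

theorem i115 : stu G units []
    [.initX 0 1 1 1]
    [10, 38, 396, 1408, 1412, 1452, 2290, 2519, 2294] 0x47b4eb4792d62c22c00c601319118c18918617c181005
    [[0,3], [4], [2], [6], [8], [10], [12], [1], [15], [17], [19], [21], [23], [25], [26], [29]]
    15 5 4 1
    (.leaf 0x800000000002000200000004000000080000001000000020000000400000000200000000040000000800000010000000200000002000000100010001)
    [0x503] 16 16 = true := by
  decide +kernel

theorem j115 (A : ∀ f : CS, f.ok G = true → Hd (val S) (f.cl G))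
    (A2 : ∀ f : CI, f.ok G = true → Hd (val S) (f.cl G)) (hU : ∀ c ∈ units, Hd (val S) c) :
    Hd (val S) [10, 38, 396, 1408, 1412, 1452, 2290, 2519, 2294] :=
  stu_sound A A2 hU i115

theorem i116 : stu G units []
    [.initX 0 1 1 1]
    [10, 38, 1416, 2519, 2296, 2302] 0x47f47c4eb2c401319118c18918617c181005
    [[0,3], [4], [2], [6], [8], [10], [12], [1], [15], [17], [18], [21], [23]]
    12 4 6 1
    (.leaf 0x1800000400000000200100000080000001000000040000020000010000008000002000004002001)
    [0x8e013] 13 14 = true := by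
  decide +kernel

theorem j116 (A : ∀ f : CS, f.ok G = true → Hd (val S) (f.cl G))
    (A2 : ∀ f : CI, f.ok G = true → Hd (val S) (f.cl G)) (hU : ∀ c ∈ units, Hd (val S) c) :
    Hd (val S) [10, 38, 1416, 2519, 2296, 2302] :=
  stu_sound A A2 hU i116

theorem i117 : stu G units []
    [.initX 0 1 1 1]
    [10, 44, 1416, 1428, 1436, 1446, 1450, 1811, 2290, 2519, 2294] 0x47b4eb4793892d52d32ce2ca2c401619118c18918617c181005
    [[0,3], [4], [2], [6], [8], [10], [12], [1], [15], [17], [19], [21], [23], [25], [26], [29], [30], [33]]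
    17 5 4 1
    (.leaf 0x800000000000080002000000000000200008000000010000000020000000040000000080000000100000000008000000000040000000080000000100000000200000000200000001000040001)
    [0x468] 18 18 = true := by
  decide +kernel

theorem j117 (A : ∀ f : CS, f.ok G = true → Hd (val S) (f.cl G))
    (A2 : ∀ f : CI, f.ok G = true → Hd (val S) (f.cl G)) (hU : ∀ c ∈ units, Hd (val S) c) :
    Hd (val S) [10, 44, 1416, 1428, 1436, 1446, 1450, 1811, 2290, 2519, 2294] :=
  stu_sound A A2 hU i117

theorem i118 : stu G units []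
    [.initX 0 1 1 1]
    [10, 1408, 1412, 1416, 1432, 1434, 2519, 2296, 2302] 0x47f47c4eb2cd2cc2c42c22c019118c18918617c181005
    [[0,3], [4], [2], [6], [8], [10], [12], [1], [15], [17], [19], [21], [23], [24], [27], [29]]
    15 5 4 1
    (.leaf 0x800000010000000000040004000000080000001000000020000000400000000200000000040000000800000010000000200000002000000100010001)
    [0x503] 16 16 = true := by
  decide +kernel

theorem j118 (A : ∀ f : CS, f.ok G = true → Hd (val S) (f.cl G))
    (A2 : ∀ f : CI, f.ok G = true → Hd (val S) (f.cl G)) (hU : ∀ c ∈ units, Hd (val S) c) :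
    Hd (val S) [10, 1408, 1412, 1416, 1432, 1434, 2519, 2296, 2302] :=
  stu_sound A A2 hU i118

theorem i119 : stu G units []
    [.initX 0 1 1 1]
    [10, 1416, 1448, 1450, 2519, 2294, 2302] 0x47f47b4eb2d52d42c419118c18918617c181005
    [[0,3], [4], [2], [6], [8], [10], [12], [1], [15], [17], [19], [20], [23], [25]]
    13 4 4 1
    (.leaf 0x8000001000000000100040000008000001000000008000000040000008000001000000200000020000010004001)
    [0x138] 14 14 = true := by
  decide +kernel

theorem j119 (A : ∀ f : CS, f.ok G = true → Hd (val S) (f.cl G))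
    (A2 : ∀ f : CI, f.ok G = true → Hd (val S) (f.cl G)) (hU : ∀ c ∈ units, Hd (val S) c) :
    Hd (val S) [10, 1416, 1448, 1450, 2519, 2294, 2302] :=
  stu_sound A A2 hU i119

theorem i120 : stu G units []
    [.initX 0 2 2 1]
    [14, 20, 38, 1416, 1440, 2288] 0x4782d02c401300719118c18918117c18600a
    [[0,3], [4], [6], [2], [8], [10], [12], [15], [1], [17], [19], [21], [23]]
    12 4 6 1
    (.leaf 0x1800000400000200000100000001000080000000040000020000010000002000008000004002001)
    [0x9e014] 13 14 = true := by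
  decide +kernel

theorem j120 (A : ∀ f : CS, f.ok G = true → Hd (val S) (f.cl G))
    (A2 : ∀ f : CI, f.ok G = true → Hd (val S) (f.cl G)) (hU : ∀ c ∈ units, Hd (val S) c) :
    Hd (val S) [14, 20, 38, 1416, 1440, 2288] :=
  stu_sound A A2 hU i120

theorem i121 : stu G units []
    [.initX 0 2 2 1]
    [14, 20, 38, 1426, 1440, 2288] 0x4782d02c901300719118c18918117c18600a
    [[0,3], [4], [6], [2], [8], [10], [12], [15], [1], [17], [19], [21], [23]]
    12 4 6 1
    (.leaf 0x1800000400000200000100000001000080000000040000020000010000002000008000004002001)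
    [0x9e014] 13 14 = true := by
  decide +kernel

theorem j121 (A : ∀ f : CS, f.ok G = true → Hd (val S) (f.cl G))
    (A2 : ∀ f : CI, f.ok G = true → Hd (val S) (f.cl G)) (hU : ∀ c ∈ units, Hd (val S) c) :
    Hd (val S) [14, 20, 38, 1426, 1440, 2288] :=
  stu_sound A A2 hU i121

theorem i122 : stu G units []
    [.initX 0 2 2 1]
    [14, 20, 390, 608, 1412, 1414, 1416, 1428, 2516, 2519] 0x4eb4ea2ca2c42c32c21300c300719118c18918117c18600a
    [[0,3], [4], [6], [2], [8], [10], [12], [15], [1], [17], [19], [21], [23], [25], [27], [29], [30]]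
    16 5 4 1
    (.leaf 0x800040000000200000001000000008000000040000000200000001000000000100000080000000000040000000200000001000000002000000080000000400020001)
    [0x524] 17 17 = true := by
  decide +kernel

theorem j122 (A : ∀ f : CS, f.ok G = true → Hd (val S) (f.cl G))
    (A2 : ∀ f : CI, f.ok G = true → Hd (val S) (f.cl G)) (hU : ∀ c ∈ units, Hd (val S) c) :
    Hd (val S) [14, 20, 390, 608, 1412, 1414, 1416, 1428, 2516, 2519] :=
  stu_sound A A2 hU i122

theorem i123 : stu G units []
    [.initX 0 2 2 1]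
    [14, 20, 396, 1416, 1804, 1894] 0x3b33862c40c600719118c18918117c18600a
    [[0,3], [4], [6], [2], [8], [10], [12], [15], [1], [17], [19], [21], [23]]
    12 4 6 1
    (.leaf 0x1800000400000200000100000001000080000000040000020000010000002000008000004002001)
    [0x9e014] 13 14 = true := by
  decide +kernel

theorem j123 (A : ∀ f : CS, f.ok G = true → Hd (val S) (f.cl G))
    (A2 : ∀ f : CI, f.ok G = true → Hd (val S) (f.cl G)) (hU : ∀ c ∈ units, Hd (val S) c) :
    Hd (val S) [14, 20, 396, 1416, 1804, 1894] :=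
  stu_sound A A2 hU i123

theorem i124 : stu G units []
    [.initX 0 2 2 1]
    [14, 20, 397, 510, 1410, 1412, 1428, 2516] 0x4ea2ca2c22c10ff0c600719118c18918117c18600a
    [[0,3], [4], [6], [2], [8], [10], [12], [15], [1], [16], [19], [21], [23], [25], [27]]
    14 5 4 1
    (.leaf 0x800000040000002000000100000008000000000100000400002000000000040000002000000100000002000000800000040008001)
    [0x489] 15 15 = true := by
  decide +kernel

theorem j124 (A : ∀ f : CS, f.ok G = true → Hd (val S) (f.cl G))
    (A2 : ∀ f : CI, f.ok G = true → Hd (val S) (f.cl G)) (hU : ∀ c ∈ units, Hd (val S) c) :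
    Hd (val S) [14, 20, 397, 510, 1410, 1412, 1428, 2516] :=
  stu_sound A A2 hU i124

theorem i125 : stu G units []
    [.initX 0 2 2 1]
    [14, 20, 397, 1416, 1822, 1876] 0x3aa38f2c40c600719118c18918117c18600a
    [[0,3], [4], [6], [2], [8], [10], [12], [15], [1], [16], [19], [21], [23]]
    12 4 6 1
    (.leaf 0x1800000400000200000000100001000080000000040000020000010000002000008000004002001)
    [0x9e014] 13 14 = true := by
  decide +kernel

theorem j125 (A : ∀ f : CS, f.ok G = true → Hd (val S) (f.cl G))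
    (A2 : ∀ f : CI, f.ok G = true → Hd (val S) (f.cl G)) (hU : ∀ c ∈ units, Hd (val S) c) :
    Hd (val S) [14, 20, 397, 1416, 1822, 1876] :=
  stu_sound A A2 hU i125

theorem i126 : stu G units []
    [.initX 0 2 2 1]
    [14, 20, 439, 499, 1412, 1416, 1428, 2288] 0x4782ca2c42c20f90db00719118c18918117c18600a
    [[0,3], [4], [6], [2], [8], [10], [12], [15], [1], [16], [18], [21], [23], [25], [27]]
    14 5 4 1
    (.leaf 0x800000040000002000000100000000002000000100000400002000000000040000002000000100000002000000800000040008001)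
    [0x489] 15 15 = true := by
  decide +kernel

theorem j126 (A : ∀ f : CS, f.ok G = true → Hd (val S) (f.cl G))
    (A2 : ∀ f : CI, f.ok G = true → Hd (val S) (f.cl G)) (hU : ∀ c ∈ units, Hd (val S) c) :
    Hd (val S) [14, 20, 439, 499, 1412, 1416, 1428, 2288] :=
  stu_sound A A2 hU i126

theorem i127 : stu G units []
    [.initX 0 2 2 1]
    [14, 20, 499, 1410, 1436, 1446, 2519, 2302] 0x47f4eb2d32ce2c10f900719118c18918117c18600a
    [[0,3], [4], [6], [2], [8], [10], [12], [15], [1], [16], [19], [21], [23], [24], [27]]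
    14 5 4 1
    (.leaf 0x800000000010002000000100000008000000000100000400002000000000040000002000000100000002000000800000040008001)
    [0x489] 15 15 = true := by
  decide +kernel

theorem j127 (A : ∀ f : CS, f.ok G = true → Hd (val S) (f.cl G))
    (A2 : ∀ f : CI, f.ok G = true → Hd (val S) (f.cl G)) (hU : ∀ c ∈ units, Hd (val S) c) :
    Hd (val S) [14, 20, 499, 1410, 1436, 1446, 2519, 2302] :=
  stu_sound A A2 hU i127

theorem i128 : stu G units []
    [.initX 0 2 2 1]
    [14, 20, 1410, 1412, 1428, 1942, 2062, 2288] 0x4784073cb2ca2c22c100719118c18918117c18600a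
    [[0,3], [4], [6], [2], [8], [10], [12], [15], [1], [17], [19], [21], [23], [25], [27]]
    14 5 4 1
    (.leaf 0x800000040000002000000100000008000000400000000400002000000000040000002000000100000002000000800000040008001)
    [0x489] 15 15 = true := by
  decide +kernel

theorem j128 (A : ∀ f : CS, f.ok G = true → Hd (val S) (f.cl G))
    (A2 : ∀ f : CI, f.ok G = true → Hd (val S) (f.cl G)) (hU : ∀ c ∈ units, Hd (val S) c) :
    Hd (val S) [14, 20, 1410, 1412, 1428, 1942, 2062, 2288] :=
  stu_sound A A2 hU i128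

theorem i129 : stu G units []
    [.initX 0 2 2 1]
    [14, 20, 1412, 1416, 1428, 1865, 2288] 0x4783a42ca2c42c200719118c18918117c18600a
    [[0,3], [4], [6], [2], [8], [10], [12], [15], [1], [17], [19], [21], [22], [25]]
    13 4 4 1
    (.leaf 0x8000000000800200000040000008000000020000400000000040000008000001000000080000080000010004001)
    [0x149] 14 14 = true := by
  decide +kernel

theorem j129 (A : ∀ f : CS, f.ok G = true → Hd (val S) (f.cl G))
    (A2 : ∀ f : CI, f.ok G = true → Hd (val S) (f.cl G)) (hU : ∀ c ∈ units, Hd (val S) c) :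
    Hd (val S) [14, 20, 1412, 1416, 1428, 1865, 2288] :=
  stu_sound A A2 hU i129

theorem i130 : stu G units []
    [.initX 0 2 2 1]
    [14, 20, 1412, 1416, 1428, 1942, 1954, 2516] 0x4ea3d13cb2ca2c42c200719118c18918117c18600a
    [[0,3], [4], [6], [2], [8], [10], [12], [15], [1], [17], [19], [21], [23], [25], [27]]
    14 5 4 1
    (.leaf 0x800000040000002000000100000008000000400000000400002000000000040000002000000100000002000000800000040008001)
    [0x489] 15 15 = true := by
  decide +kernel

theorem j130 (A : ∀ f : CS, f.ok G = true → Hd (val S) (f.cl G))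
    (A2 : ∀ f : CI, f.ok G = true → Hd (val S) (f.cl G)) (hU : ∀ c ∈ units, Hd (val S) c) :
    Hd (val S) [14, 20, 1412, 1416, 1428, 1942, 1954, 2516] :=
  stu_sound A A2 hU i130

theorem i131 : stu G units []
    [.initX 0 2 2 1]
    [14, 20, 1412, 1416, 1450, 1793, 2288] 0x4783802d52c42c200719118c18918117c18600a
    [[0,3], [4], [6], [2], [8], [10], [12], [15], [1], [17], [19], [21], [22], [25]]
    13 4 4 1
    (.leaf 0x8000000000800200000040000008000000020000400000000040000008000001000000080000080000010004001)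
    [0x149] 14 14 = true := by
  decide +kernel

theorem j131 (A : ∀ f : CS, f.ok G = true → Hd (val S) (f.cl G))
    (A2 : ∀ f : CI, f.ok G = true → Hd (val S) (f.cl G)) (hU : ∀ c ∈ units, Hd (val S) c) :
    Hd (val S) [14, 20, 1412, 1416, 1450, 1793, 2288] :=
  stu_sound A A2 hU i131

theorem i132 : stu G units []
    [.initX 0 2 2 1]
    [14, 20, 1412, 1416, 1450, 1865, 2294] 0x47b3a42d52c42c200719118c18918117c18600a
    [[0,3], [4], [6], [2], [8], [10], [12], [15], [1], [17], [19], [21], [22], [25]]
    13 4 4 1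
    (.leaf 0x8000000000800200000040000008000000020000400000000040000008000001000000080000080000010004001)
    [0x149] 14 14 = true := by
  decide +kernel

theorem j132 (A : ∀ f : CS, f.ok G = true → Hd (val S) (f.cl G))
    (A2 : ∀ f : CI, f.ok G = true → Hd (val S) (f.cl G)) (hU : ∀ c ∈ units, Hd (val S) c) :
    Hd (val S) [14, 20, 1412, 1416, 1450, 1865, 2294] :=
  stu_sound A A2 hU i132

theorem i133 : stu G units []
    [.initX 0 2 2 1]
    [14, 20, 1412, 1416, 1450, 1883, 2518] 0x4eb3ad2d52c42c200719118c18918117c18600a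
    [[0,3], [4], [6], [2], [8], [10], [12], [15], [1], [17], [19], [21], [22], [25]]
    13 4 4 1
    (.leaf 0x8000000000800200000040000008000000020000400000000040000008000001000000080000080000010004001)
    [0x149] 14 14 = true := by
  decide +kernel

theorem j133 (A : ∀ f : CS, f.ok G = true → Hd (val S) (f.cl G))
    (A2 : ∀ f : CI, f.ok G = true → Hd (val S) (f.cl G)) (hU : ∀ c ∈ units, Hd (val S) c) :
    Hd (val S) [14, 20, 1412, 1416, 1450, 1883, 2518] :=
  stu_sound A A2 hU i133

theorem i134 : stu G units []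
    [.initX 0 2 2 1]
    [14, 20, 1412, 1416, 1450, 1942, 2062, 2518] 0x4eb4073cb2d52c42c200719118c18918117c18600a
    [[0,3], [4], [6], [2], [8], [10], [12], [15], [1], [17], [19], [21], [23], [25], [27]]
    14 5 4 1
    (.leaf 0x800000040000002000000100000008000000400000000400002000000000040000002000000100000002000000800000040008001)
    [0x489] 15 15 = true := by
  decide +kernel

theorem j134 (A : ∀ f : CS, f.ok G = true → Hd (val S) (f.cl G))
    (A2 : ∀ f : CI, f.ok G = true → Hd (val S) (f.cl G)) (hU : ∀ c ∈ units, Hd (val S) c) :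
    Hd (val S) [14, 20, 1412, 1416, 1450, 1942, 2062, 2518] :=
  stu_sound A A2 hU i134

theorem i135 : stu G units []
    [.initX 0 2 2 1]
    [14, 20, 1416, 1428, 1434, 2294] 0x47b2cd2ca2c400719118c18918117c18600a
    [[0,3], [4], [6], [2], [8], [10], [12], [15], [1], [17], [19], [21], [23]]
    12 4 6 1
    (.leaf 0x1800000400000200000100000001000080000000040000020000010000002000008000004002001)
    [0x9e014] 13 14 = true := by
  decide +kernel

theorem j135 (A : ∀ f : CS, f.ok G = true → Hd (val S) (f.cl G))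
    (A2 : ∀ f : CI, f.ok G = true → Hd (val S) (f.cl G)) (hU : ∀ c ∈ units, Hd (val S) c) :
    Hd (val S) [14, 20, 1416, 1428, 1434, 2294] :=
  stu_sound A A2 hU i135

theorem i136 : stu G units []
    [.initX 0 2 2 1]
    [14, 20, 1416, 1428, 1937, 1990, 2288] 0x4783e33c82ca2c400719118c18918117c18600a
    [[0,3], [4], [6], [2], [8], [10], [12], [15], [1], [17], [19], [20], [23], [25]]
    13 4 4 1
    (.leaf 0x8000001000000000100040000008000000020000400000000040000008000001000000080000080000010004001)
    [0x149] 14 14 = true := by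
  decide +kernel

theorem j136 (A : ∀ f : CS, f.ok G = true → Hd (val S) (f.cl G))
    (A2 : ∀ f : CI, f.ok G = true → Hd (val S) (f.cl G)) (hU : ∀ c ∈ units, Hd (val S) c) :
    Hd (val S) [14, 20, 1416, 1428, 1937, 1990, 2288] :=
  stu_sound A A2 hU i136

theorem i137 : stu G units [.legal2 0 1 1 1 3]
    [.initX 0 1 1 1]
    [14, 1408, 1410, 1423, 1428, 2517, 2288, 2308] 0x4824784ea2ca2c12c000719118c18918617c1812c7005
    [[1,3], [0,5], [6], [4], [8], [10], [12], [14], [17], [19], [21], [2], [23], [24], [27], [29]]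
    15 5 7 1
    (.leaf 0x1800000010000000000040004000000000000082000000040000000800000000002000000040000000800000010000000100000008000800040018000)
    [0x3160044] 16 17 = true := by
  decide +kernel

theorem j137 (A : ∀ f : CS, f.ok G = true → Hd (val S) (f.cl G))
    (A2 : ∀ f : CI, f.ok G = true → Hd (val S) (f.cl G)) (hU : ∀ c ∈ units, Hd (val S) c) :
    Hd (val S) [14, 1408, 1410, 1423, 1428, 2517, 2288, 2308] :=
  stu_sound A A2 hU i137

theorem i138 : stu G units []
    [.initX 0 2 2 1]
    [16, 20, 34, 38, 1408, 1410, 1426, 1442, 2308] 0x4822d12c92c12c001301100819118c18918117c18600a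
    [[0,3], [4], [6], [2], [8], [10], [12], [15], [1], [17], [19], [21], [23], [25], [27], [29]]
    15 5 4 1
    (.leaf 0x800000010000000200000004000000080000001000000020000000008000010000000000040000000800000010000000080000008000000100010001)
    [0x524] 16 16 = true := by
  decide +kernel

theorem j138 (A : ∀ f : CS, f.ok G = true → Hd (val S) (f.cl G))
    (A2 : ∀ f : CI, f.ok G = true → Hd (val S) (f.cl G)) (hU : ∀ c ∈ units, Hd (val S) c) :
    Hd (val S) [16, 20, 34, 38, 1408, 1410, 1426, 1442, 2308] :=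
  stu_sound A A2 hU i138

theorem i139 : stu G units []
    [.initX 0 2 2 1]
    [20, 38, 397, 1408, 1410, 1424, 1426, 1440, 2296] 0x47c2d02c92c82c12c00c601319118c18918117c18600a
    [[0,3], [4], [6], [2], [8], [10], [12], [1], [15], [16], [19], [21], [23], [25], [27], [29]]
    15 5 4 1
    (.leaf 0x800000010000000200000004000000080000001000000000004000400000000200000000040000000800000010000000080000008000000100010001)
    [0x504] 16 16 = true := by
  decide +kernel

theorem j139 (A : ∀ f : CS, f.ok G = true → Hd (val S) (f.cl G))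
    (A2 : ∀ f : CI, f.ok G = true → Hd (val S) (f.cl G)) (hU : ∀ c ∈ units, Hd (val S) c) :
    Hd (val S) [20, 38, 397, 1408, 1410, 1424, 1426, 1440, 2296] :=
  stu_sound A A2 hU i139

theorem i140 : stu G units []
    [.initX 0 2 2 1]
    [20, 38, 397, 1424, 1426, 1434, 2288] 0x4782cd2c92c80c601319118c18918117c18600a
    [[0,3], [4], [6], [2], [8], [10], [12], [1], [15], [16], [19], [21], [23], [25]]
    13 4 4 1
    (.leaf 0x8000001000000200000040000000004001000000008000000040000008000001000000080000080000010004001)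
    [0x148] 14 14 = true := by
  decide +kernel

theorem j140 (A : ∀ f : CS, f.ok G = true → Hd (val S) (f.cl G))
    (A2 : ∀ f : CI, f.ok G = true → Hd (val S) (f.cl G)) (hU : ∀ c ∈ units, Hd (val S) c) :
    Hd (val S) [20, 38, 397, 1424, 1426, 1434, 2288] :=
  stu_sound A A2 hU i140

theorem i141 : stu G units []
    [.initX 0 2 2 1]
    [20, 38, 1408, 1410, 1424, 1426, 1434, 2296] 0x47c2cd2c92c82c12c001319118c18918117c18600a
    [[0,3], [4], [6], [2], [8], [10], [12], [1], [15], [17], [19], [21], [23], [25], [27]]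
    14 5 4 1
    (.leaf 0x800000040000002000000100000008000000400000020000000040000000040000002000000100000002000000800000040008001)
    [0x488] 15 15 = true := by
  decide +kernel

theorem j141 (A : ∀ f : CS, f.ok G = true → Hd (val S) (f.cl G))
    (A2 : ∀ f : CI, f.ok G = true → Hd (val S) (f.cl G)) (hU : ∀ c ∈ units, Hd (val S) c) :
    Hd (val S) [20, 38, 1408, 1410, 1424, 1426, 1434, 2296] :=
  stu_sound A A2 hU i141

theorem i142 : stu G units []
    [.initX 0 2 2 1]
    [20, 38, 1408, 1412, 1422, 1426, 1440, 2290, 2519] 0x4eb4792d02c92c72c22c001319118c18918117c18600a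
    [[0,3], [4], [6], [2], [8], [10], [12], [1], [15], [17], [19], [21], [23], [25], [27], [28]]
    15 5 4 1
    (.leaf 0x100010000000200000004000000080000001000000020000000400000000200000000040000000800000010000000080000008000000100010001)
    [0x504] 16 16 = true := by
  decide +kernel

theorem j142 (A : ∀ f : CS, f.ok G = true → Hd (val S) (f.cl G))
    (A2 : ∀ f : CI, f.ok G = true → Hd (val S) (f.cl G)) (hU : ∀ c ∈ units, Hd (val S) c) :
    Hd (val S) [20, 38, 1408, 1412, 1422, 1426, 1440, 2290, 2519] :=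
  stu_sound A A2 hU i142

theorem i143 : stu G units []
    [.initX 0 2 2 1]
    [20, 38, 1408, 1412, 1422, 1426, 1452, 1811] 0x3892d62c92c72c22c001319118c18918117c18600a
    [[0,3], [4], [6], [2], [8], [10], [12], [1], [15], [17], [19], [21], [23], [25], [26]]
    14 5 4 1
    (.leaf 0x200040000002000000100000008000000400000020000000040000000040000002000000100000002000000800000040008001)
    [0x488] 15 15 = true := by
  decide +kernel

theorem j143 (A : ∀ f : CS, f.ok G = true → Hd (val S) (f.cl G))
    (A2 : ∀ f : CI, f.ok G = true → Hd (val S) (f.cl G)) (hU : ∀ c ∈ units, Hd (val S) c) :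
    Hd (val S) [20, 38, 1408, 1412, 1422, 1426, 1452, 1811] :=
  stu_sound A A2 hU i143

theorem i144 : stu G units []
    [.initX 0 2 2 1]
    [20, 38, 1408, 1412, 1424, 1426, 1452, 1811, 1865, 2296] 0x47c3a43892d62c92c82c22c001319118c18918117c18600a
    [[0,3], [4], [6], [2], [8], [10], [12], [1], [15], [17], [19], [21], [23], [25], [26], [28], [31]]
    16 5 4 1
    (.leaf 0x8000000000004000000020001000000008000000040000000200000001000000008000000001000000000040000000200000001000000002000000080000000400020001)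
    [0x504] 17 17 = true := by
  decide +kernel

theorem j144 (A : ∀ f : CS, f.ok G = true → Hd (val S) (f.cl G))
    (A2 : ∀ f : CI, f.ok G = true → Hd (val S) (f.cl G)) (hU : ∀ c ∈ units, Hd (val S) c) :
    Hd (val S) [20, 38, 1408, 1412, 1424, 1426, 1452, 1811, 1865, 2296] :=
  stu_sound A A2 hU i144

theorem i145 : stu G units []
    [.initX 0 2 2 1]
    [20, 38, 1410, 1412, 1422, 1440, 2296] 0x47c2d02c72c22c101319118c18918117c18600a
    [[0,3], [4], [6], [2], [8], [10], [12], [1], [15], [17], [19], [21], [23], [25]]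
    13 4 4 1
    (.leaf 0x8000001000000200000040000008000001000000008000000040000008000001000000080000080000010004001)
    [0x148] 14 14 = true := by
  decide +kernel

theorem j145 (A : ∀ f : CS, f.ok G = true → Hd (val S) (f.cl G))
    (A2 : ∀ f : CI, f.ok G = true → Hd (val S) (f.cl G)) (hU : ∀ c ∈ units, Hd (val S) c) :
    Hd (val S) [20, 38, 1410, 1412, 1422, 1440, 2296] :=
  stu_sound A A2 hU i145

theorem i146 : stu G units []
    [.initX 0 2 2 1]
    [20, 38, 1410, 1422, 1436, 2519, 2302] 0x47f4eb2ce2c72c101319118c18918117c18600a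
    [[0,3], [4], [6], [2], [8], [10], [12], [1], [15], [17], [19], [21], [22], [25]]
    13 4 4 1
    (.leaf 0x8000000000800200000040000008000001000000008000000040000008000001000000080000080000010004001)
    [0x148] 14 14 = true := by
  decide +kernel

theorem j146 (A : ∀ f : CS, f.ok G = true → Hd (val S) (f.cl G))
    (A2 : ∀ f : CI, f.ok G = true → Hd (val S) (f.cl G)) (hU : ∀ c ∈ units, Hd (val S) c) :
    Hd (val S) [20, 38, 1410, 1422, 1436, 2519, 2302] :=
  stu_sound A A2 hU i146

theorem i147 : stu G units []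
    [.initX 0 2 2 1]
    [20, 38, 1416, 2519, 2296, 2302] 0x47f47c4eb2c401319118c18918117c18600a
    [[0,3], [4], [6], [2], [8], [10], [12], [1], [15], [17], [18], [21], [23]]
    12 4 6 1
    (.leaf 0x1800000400000000200100000080000001000000040000020000010000002000008000004002001)
    [0x8e014] 13 14 = true := by
  decide +kernel

theorem j147 (A : ∀ f : CS, f.ok G = true → Hd (val S) (f.cl G))
    (A2 : ∀ f : CI, f.ok G = true → Hd (val S) (f.cl G)) (hU : ∀ c ∈ units, Hd (val S) c) :
    Hd (val S) [20, 38, 1416, 2519, 2296, 2302] :=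
  stu_sound A A2 hU i147

theorem i148 : stu G units []
    [.initX 0 2 2 1]
    [20, 38, 1424, 1426, 1440, 1793, 2518] 0x4eb3802d02c92c801319118c18918117c18600a
    [[0,3], [4], [6], [2], [8], [10], [12], [1], [15], [17], [19], [21], [22], [25]]
    13 4 4 1
    (.leaf 0x8000000000800200000040000008000001000000008000000040000008000001000000080000080000010004001)
    [0x148] 14 14 = true := by
  decide +kernel

theorem j148 (A : ∀ f : CS, f.ok G = true → Hd (val S) (f.cl G))
    (A2 : ∀ f : CI, f.ok G = true → Hd (val S) (f.cl G)) (hU : ∀ c ∈ units, Hd (val S) c) :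
    Hd (val S) [20, 38, 1424, 1426, 1440, 1793, 2518] :=
  stu_sound A A2 hU i148

theorem i149 : stu G units []
    [.initX 0 2 2 1]
    [20, 38, 1424, 1426, 1440, 1883, 2518] 0x4eb3ad2d02c92c801319118c18918117c18600a
    [[0,3], [4], [6], [2], [8], [10], [12], [1], [15], [17], [19], [21], [22], [25]]
    13 4 4 1
    (.leaf 0x8000000000800200000040000008000001000000008000000040000008000001000000080000080000010004001)
    [0x148] 14 14 = true := by
  decide +kernel

theorem j149 (A : ∀ f : CS, f.ok G = true → Hd (val S) (f.cl G))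
    (A2 : ∀ f : CI, f.ok G = true → Hd (val S) (f.cl G)) (hU : ∀ c ∈ units, Hd (val S) c) :
    Hd (val S) [20, 38, 1424, 1426, 1440, 1883, 2518] :=
  stu_sound A A2 hU i149

theorem i150 : stu G units []
    [.initX 0 2 2 1]
    [20, 38, 1424, 1426, 1440, 2519, 2294] 0x47b4eb2d02c92c801319118c18918117c18600a
    [[0,3], [4], [6], [2], [8], [10], [12], [1], [15], [17], [19], [21], [22], [25]]
    13 4 4 1
    (.leaf 0x8000000000800200000040000008000001000000008000000040000008000001000000080000080000010004001)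
    [0x148] 14 14 = true := by
  decide +kernel

theorem j150 (A : ∀ f : CS, f.ok G = true → Hd (val S) (f.cl G))
    (A2 : ∀ f : CI, f.ok G = true → Hd (val S) (f.cl G)) (hU : ∀ c ∈ units, Hd (val S) c) :
    Hd (val S) [20, 38, 1424, 1426, 1440, 2519, 2294] :=
  stu_sound A A2 hU i150

theorem i151 : stu G units []
    [.initX 0 2 2 1]
    [20, 391, 510, 1412, 1428, 1436, 2516] 0x4ea2ce2ca2c20ff0c319118c18918117c18600a
    [[0,3], [4], [6], [2], [8], [10], [12], [1], [14], [17], [19], [21], [23], [25]]
    13 4 4 1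
    (.leaf 0x8000001000000200000040000008000000000800008000000040000008000001000000080000080000010004001)
    [0x148] 14 14 = true := by
  decide +kernel

theorem j151 (A : ∀ f : CS, f.ok G = true → Hd (val S) (f.cl G))
    (A2 : ∀ f : CI, f.ok G = true → Hd (val S) (f.cl G)) (hU : ∀ c ∈ units, Hd (val S) c) :
    Hd (val S) [20, 391, 510, 1412, 1428, 1436, 2516] :=
  stu_sound A A2 hU i151

theorem i152 : stu G units []
    [.initX 0 2 2 1]
    [20, 1412, 1416, 1422, 1428, 1434, 1450, 2296] 0x47c2d52cd2ca2c72c42c219118c18918117c18600a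
    [[0,3], [4], [6], [2], [8], [10], [12], [1], [15], [17], [19], [21], [23], [25], [27]]
    14 5 4 1
    (.leaf 0x800000040000002000000100000008000000400000020000000040000000040000002000000100000002000000800000040008001)
    [0x488] 15 15 = true := by
  decide +kernel

theorem j152 (A : ∀ f : CS, f.ok G = true → Hd (val S) (f.cl G))
    (A2 : ∀ f : CI, f.ok G = true → Hd (val S) (f.cl G)) (hU : ∀ c ∈ units, Hd (val S) c) :
    Hd (val S) [20, 1412, 1416, 1422, 1428, 1434, 1450, 2296] :=
  stu_sound A A2 hU i152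

theorem i153 : stu G units []
    [.initX 0 2 2 1]
    [20, 1412, 1424, 1426, 1793, 1883, 2288, 2296] 0x47c4783ad3802c92c82c219118c18918117c18600a
    [[0,3], [4], [6], [2], [8], [10], [12], [1], [15], [17], [19], [20], [22], [25], [27]]
    14 5 4 1
    (.leaf 0x800000040000000000800000040008000000400000020000000040000000040000002000000100000002000000800000040008001)
    [0x488] 15 15 = true := by
  decide +kernel

theorem j153 (A : ∀ f : CS, f.ok G = true → Hd (val S) (f.cl G))
    (A2 : ∀ f : CI, f.ok G = true → Hd (val S) (f.cl G)) (hU : ∀ c ∈ units, Hd (val S) c) :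
    Hd (val S) [20, 1412, 1424, 1426, 1793, 1883, 2288, 2296] :=
  stu_sound A A2 hU i153

theorem i154 : stu G units []
    [.initX 0 2 2 1]
    [20, 1412, 1428, 1436, 1446, 1883, 2288] 0x4783ad2d32ce2ca2c219118c18918117c18600a
    [[0,3], [4], [6], [2], [8], [10], [12], [1], [15], [17], [19], [21], [22], [25]]
    13 4 4 1
    (.leaf 0x8000000000800200000040000008000001000000008000000040000008000001000000080000080000010004001)
    [0x148] 14 14 = true := by
  decide +kernel

theorem j154 (A : ∀ f : CS, f.ok G = true → Hd (val S) (f.cl G))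
    (A2 : ∀ f : CI, f.ok G = true → Hd (val S) (f.cl G)) (hU : ∀ c ∈ units, Hd (val S) c) :
    Hd (val S) [20, 1412, 1428, 1436, 1446, 1883, 2288] :=
  stu_sound A A2 hU i154

theorem i155 : stu G units []
    [.initX 0 2 2 1]
    [20, 1416, 1428, 1434, 1448, 1450, 2519, 2296, 2302] 0x47f47c4eb2d52d42cd2ca2c419118c18918117c18600a
    [[0,3], [4], [6], [2], [8], [10], [12], [1], [15], [17], [19], [21], [23], [24], [27], [29]]
    15 5 4 1
    (.leaf 0x800000010000000000040004000000080000001000000020000000400000000200000000040000000800000010000000080000008000000100010001)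
    [0x504] 16 16 = true := by
  decide +kernel

theorem j155 (A : ∀ f : CS, f.ok G = true → Hd (val S) (f.cl G))
    (A2 : ∀ f : CI, f.ok G = true → Hd (val S) (f.cl G)) (hU : ∀ c ∈ units, Hd (val S) c) :
    Hd (val S) [20, 1416, 1428, 1434, 1448, 1450, 2519, 2296, 2302] :=
  stu_sound A A2 hU i155

theorem i156 : stu G units []
    [.initX 0 2 2 1]
    [20, 1416, 1428, 1434, 2519, 2294, 2302] 0x47f47b4eb2cd2ca2c419118c18918117c18600a
    [[0,3], [4], [6], [2], [8], [10], [12], [1], [15], [17], [19], [20], [23], [25]]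
    13 4 4 1
    (.leaf 0x8000001000000000100040000008000001000000008000000040000008000001000000080000080000010004001)
    [0x148] 14 14 = true := by
  decide +kernel

theorem j156 (A : ∀ f : CS, f.ok G = true → Hd (val S) (f.cl G))
    (A2 : ∀ f : CI, f.ok G = true → Hd (val S) (f.cl G)) (hU : ∀ c ∈ units, Hd (val S) c) :
    Hd (val S) [20, 1416, 1428, 1434, 2519, 2294, 2302] :=
  stu_sound A A2 hU i156

theorem i157 : stu G units []
    [.initX 0 2 2 1]
    [20, 1436, 1446, 2290, 2519, 2302] 0x47f4eb4792d32ce19118c18918117c18600a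
    [[0,3], [4], [6], [2], [8], [10], [12], [1], [15], [17], [19], [20], [23]]
    12 4 6 1
    (.leaf 0x1800000000400200000100000080000001000000040000020000010000002000008000004002001)
    [0x8e014] 13 14 = true := by
  decide +kernel

theorem j157 (A : ∀ f : CS, f.ok G = true → Hd (val S) (f.cl G))
    (A2 : ∀ f : CI, f.ok G = true → Hd (val S) (f.cl G)) (hU : ∀ c ∈ units, Hd (val S) c) :
    Hd (val S) [20, 1436, 1446, 2290, 2519, 2302] :=
  stu_sound A A2 hU i157

theorem i158 : stu G units []
    [.initX 0 3 1 1]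
    [24, 26, 1432, 2290, 2519] 0x4eb4792cc00c19118c18618117c18900d
    [[0,3], [4], [6], [8], [2], [10], [12], [15], [1], [17], [19], [20]]
    11 4 4 1
    (.leaf 0x1001000002000000080010000000040000080000020000400000800001001001)
    [0x195] 12 12 = true := by
  decide +kernel

theorem j158 (A : ∀ f : CS, f.ok G = true → Hd (val S) (f.cl G))
    (A2 : ∀ f : CI, f.ok G = true → Hd (val S) (f.cl G)) (hU : ∀ c ∈ units, Hd (val S) c) :
    Hd (val S) [24, 26, 1432, 2290, 2519] :=
  stu_sound A A2 hU i158

theorem i159 : stu G units []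
    [.initX 0 3 1 1]
    [26, 36, 38, 439] 0xdb01301219118c18618117c18900d
    [[0,3], [4], [6], [8], [2], [10], [12], [1], [15], [17], [18]]
    10 4 4 1
    (.leaf 0x20040000200000040000040000200000200010000080000400801)
    [0x185] 11 11 = true := by
  decide +kernel

theorem j159 (A : ∀ f : CS, f.ok G = true → Hd (val S) (f.cl G))
    (A2 : ∀ f : CI, f.ok G = true → Hd (val S) (f.cl G)) (hU : ∀ c ∈ units, Hd (val S) c) :
    Hd (val S) [26, 36, 38, 439] :=
  stu_sound A A2 hU i159

theorem i160 : stu G units []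
    [.initX 0 4 0 1]
    [30, 32, 38, 390, 397, 612] 0x1320c60c301300f19118918618117c18c010
    [[0,3], [4], [6], [8], [10], [2], [12], [15], [1], [17], [19], [20], [23]]
    12 4 6 1
    (.leaf 0x1800000000400200000100000001000080000000040000002000020000010000008000004002001)
    [0x9e016] 13 14 = true := by
  decide +kernel

theorem j160 (A : ∀ f : CS, f.ok G = true → Hd (val S) (f.cl G))
    (A2 : ∀ f : CI, f.ok G = true → Hd (val S) (f.cl G)) (hU : ∀ c ∈ units, Hd (val S) c) :
    Hd (val S) [30, 32, 38, 390, 397, 612] :=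
  stu_sound A A2 hU i160

theorem i161 : stu G units []
    [.initX 0 4 0 1]
    [32, 34, 38, 1410, 1412, 1424, 1426, 1452] 0x2d62c92c82c22c101301119118918618117c18c010
    [[0,3], [4], [6], [8], [10], [2], [12], [1], [15], [17], [19], [21], [23], [25], [27]]
    14 5 4 1
    (.leaf 0x800000040000002000000100000008000000400000020000000040000000040000000200000200000010000000800000040008001)
    [0x4c8] 15 15 = true := by
  decide +kernel

theorem j161 (A : ∀ f : CS, f.ok G = true → Hd (val S) (f.cl G))
    (A2 : ∀ f : CI, f.ok G = true → Hd (val S) (f.cl G)) (hU : ∀ c ∈ units, Hd (val S) c) :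
    Hd (val S) [32, 34, 38, 1410, 1412, 1424, 1426, 1452] :=
  stu_sound A A2 hU i161

theorem i162 : stu G units []
    [.initX 0 4 0 1]
    [32, 36, 38, 397, 510] 0xff0c601301219118918618117c18c010
    [[0,3], [4], [6], [8], [10], [2], [12], [1], [15], [17], [18], [21]]
    11 4 4 1
    (.leaf 0x800000002002000004000000200000040000008000200000400000800001001001)
    [0x186] 12 12 = true := by
  decide +kernel

theorem j162 (A : ∀ f : CS, f.ok G = true → Hd (val S) (f.cl G))
    (A2 : ∀ f : CI, f.ok G = true → Hd (val S) (f.cl G)) (hU : ∀ c ∈ units, Hd (val S) c) :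
    Hd (val S) [32, 36, 38, 397, 510] :=
  stu_sound A A2 hU i162

theorem i163 : stu G units []
    [.initX 0 4 0 1]
    [32, 36, 397, 510, 1317] 0x2920ff0c601219118918618117c18c010
    [[0,3], [4], [6], [8], [10], [2], [12], [1], [15], [16], [19], [20]]
    11 4 4 1
    (.leaf 0x1001000000004004000000200000040000008000200000400000800001001001)
    [0x186] 12 12 = true := by
  decide +kernel

theorem j163 (A : ∀ f : CS, f.ok G = true → Hd (val S) (f.cl G))
    (A2 : ∀ f : CI, f.ok G = true → Hd (val S) (f.cl G)) (hU : ∀ c ∈ units, Hd (val S) c) :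
    Hd (val S) [32, 36, 397, 510, 1317] :=
  stu_sound A A2 hU i163

theorem i164 : stu G units []
    [.initX 0 4 0 1]
    [32, 36, 439, 1317] 0x2920db01219118918618117c18c010
    [[0,3], [4], [6], [8], [10], [2], [12], [1], [15], [16], [18]]
    10 4 4 1
    (.leaf 0x20000100200000040000040000020002000010000080000400801)
    [0x186] 11 11 = true := by
  decide +kernel

theorem j164 (A : ∀ f : CS, f.ok G = true → Hd (val S) (f.cl G))
    (A2 : ∀ f : CI, f.ok G = true → Hd (val S) (f.cl G)) (hU : ∀ c ∈ units, Hd (val S) c) :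
    Hd (val S) [32, 36, 439, 1317] :=
  stu_sound A A2 hU i164

theorem i165 : stu G units []
    [.initX 0 4 0 1]
    [32, 390, 397, 1440, 1442, 1822, 1317, 2519] 0x4eb29238f2d12d00c60c319118918618117c18c010
    [[0,3], [4], [6], [8], [10], [2], [12], [1], [15], [16], [19], [21], [23], [24], [26]]
    14 5 4 1
    (.leaf 0x200000010002000000100000008000000000100020000000040000000040000000200000200000010000000800000040008001)
    [0x4c8] 15 15 = true := by
  decide +kernel

theorem j165 (A : ∀ f : CS, f.ok G = true → Hd (val S) (f.cl G))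
    (A2 : ∀ f : CI, f.ok G = true → Hd (val S) (f.cl G)) (hU : ∀ c ∈ units, Hd (val S) c) :
    Hd (val S) [32, 390, 397, 1440, 1442, 1822, 1317, 2519] :=
  stu_sound A A2 hU i165

theorem i166 : stu G units []
    [.initX 0 4 0 1]
    [32, 1452, 1317, 2290, 2519, 2302] 0x47f4eb4792922d619118918618117c18c010
    [[0,3], [4], [6], [8], [10], [2], [12], [1], [15], [16], [19], [20], [23]]
    12 4 6 1
    (.leaf 0x1800000000400200000000100080000001000000040000002000020000010000008000004002001)
    [0x8e016] 13 14 = true := by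
  decide +kernel

theorem j166 (A : ∀ f : CS, f.ok G = true → Hd (val S) (f.cl G))
    (A2 : ∀ f : CI, f.ok G = true → Hd (val S) (f.cl G)) (hU : ∀ c ∈ units, Hd (val S) c) :
    Hd (val S) [32, 1452, 1317, 2290, 2519, 2302] :=
  stu_sound A A2 hU i166

theorem i167 : stu G units [.some 1 2, .legal2 0 1 2 2 0, .legal2 0 1 2 2 2]
    [.initX 0 2 2 1]
    [38, 1408, 1410, 1424, 1426, 1430, 1434, 2290] 0x4792cd2c12c001319118c18918117c18600a2cb2ca2c92c8
    [[0,2,4,6], [9,1], [9,5], [8,11], [12], [14], [10], [16], [18], [20], [23], [25], [27], [1], [3], [7], [29], [31]]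
    16 5 15 1
    (.leaf 0x10000000400000000001080000000400000000008000000020000000100002000000010000000080000000000040000000200000001000000002000000080000000400020001000140000001100000000000f)
    [0x3583e8014c0398087] 18 21 = true := by
  decide +kernel

theorem j167 (A : ∀ f : CS, f.ok G = true → Hd (val S) (f.cl G))
    (A2 : ∀ f : CI, f.ok G = true → Hd (val S) (f.cl G)) (hU : ∀ c ∈ units, Hd (val S) c) :
    Hd (val S) [38, 1408, 1410, 1424, 1426, 1430, 1434, 2290] :=
  stu_sound A A2 hU i167

theorem i168 : stu G units [.some 1 0, .some 1 1, .legal 1 0 1, .legal2 0 1 0 0 3, .legal2 0 1 1 1 3]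
    [.initX 0 0 0 1, .initX 0 1 1 1]
    [1408, 1412, 1416, 1420, 1424, 1428, 2519, 2296, 2302] 0x47f47c4eb2ca2c819118c18918618117c0050002c72c62c52c42c32c22c12c0
    [[0,2,4,6], [8,10,12,14], [3,11], [17,7], [19,15], [16,21], [18,23], [20], [22], [24], [26], [28], [30], [1], [5], [9], [13], [33], [35], [36], [39], [41]]
    21 5 26 1
    (.leaf 0x400000000004000000000000000080001000000000000008000000000100800000000010000000000000001000004000000000080000000000008000000000080000000000800000000008000000000008000000000100000000002000000000040000000000800000000010000100000200002000004000050000000000840000000004400000000000003c0000000000f)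
    [0x2e4770017001e801cb9e025c07480c8] 22 28 = true := by
  decide +kernel

theorem j168 (A : ∀ f : CS, f.ok G = true → Hd (val S) (f.cl G))
    (A2 : ∀ f : CI, f.ok G = true → Hd (val S) (f.cl G)) (hU : ∀ c ∈ units, Hd (val S) c) :
    Hd (val S) [1408, 1412, 1416, 1420, 1424, 1428, 2519, 2296, 2302] :=
  stu_sound A A2 hU i168

theorem i169 : stu G units [.some 1 0, .some 1 1, .some 1 2, .some 1 3, .some 1 4, .some 1 5, .legal 1 0 0, .legal 1 1 1, .legal 1 2 1, .legal 1 3 2, .legal 1 4 0, .legal 1 5 1, .legal2 0 1 0 0 3, .legal2 0 1 1 1 3, .legal2 0 1 2 2 0, .legal2 0 1 2 2 2, .legal2 0 1 3 1 3, .legal2 0 1 4 0 3, .legal2 0 1 5 1 3]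
    [.initX 0 0 0 1, .initX 0 1 1 1, .initX 0 2 2 1, .initX 0 3 1 1, .initX 0 4 0 1, .initX 0 5 1 1]
    [1412, 1420, 1430, 1432, 1442, 1446, 1452, 2519, 2302] 0x47f4eb19118c18918618117c01501000d00a0050002d72d62d52d42d32d22d12d02cf2ce2cd2cc2cb2ca2c92c82c72c62c52c42c32c22c12c0
    [[0,2,4,6], [8,10,12,14], [16,18,20,22], [24,26,28,30], [32,34,36,38], [40,42,44,46], [1,9], [11,19], [19,27], [29,37], [33,41], [3,43], [49,7], [51,15], [53,17], [53,21], [55,31], [57,39], [59,47], [48,61], [50,63], [52,65], [54,67], [56,69], [58,71], [60], [62], [64], [66], [68], [70], [5], [13], [23], [25], [35], [39], [45], [72], [75]]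
    38 7 90 1
    (.leaf 0x40000000004000000000000000000000000000010000000010000000000000000000000000000040000000800000000000000000000000000000000200000000040000000000000000000000000010000000800000000000000000000800000000000000000000000000200000200000000000000000000000000200000000000200000000000000000000000001000000000000200000000000000000000000008000000000000100000000000000000004000000000000000000000004000000000000020000000000000000000000020000000000000020000000000000000000000100000080000000000000000000000000001000000000000100000000000000000002000000000000000000080000000000000000000400000000000000000020000000000000000000100000000000000000001000000000000000000008000000000000000000400000000000000000020000000000000000001000000000000000000080000000000000000004000000020000000000200000001000000000010000000080000000000800000004000000000040000000200000000002000000010000000000100000000820000000000000000040200000000000000002002000000000000000100010000000000000010000400000000000000800020000000000000040000200000000000000800008000000000000044000000000000000001100000000000000000008800000000000000000088000000000000000000440000000000000000000000f0000000000000000000f0000000000000000000f0000000000000000000f0000000000000000000f0000000000000000000f)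
    [0x268200335790000b7e002b37c9000a7a00231708c00c76000aa40e8007720012c42dc0096c00436000d72f44009b40064f8024c80183c008b0005ce8020b400f5a00b1c00395802a6c00d5200a1a] 40 65 = true := by
  decide +kernel

theorem j169 (A : ∀ f : CS, f.ok G = true → Hd (val S) (f.cl G))
    (A2 : ∀ f : CI, f.ok G = true → Hd (val S) (f.cl G)) (hU : ∀ c ∈ units, Hd (val S) c) :
    Hd (val S) [1412, 1420, 1430, 1432, 1442, 1446, 1452, 2519, 2302] :=
  stu_sound A A2 hU i169

theorem i170 : stu G units [.some 1 1, .legal2 0 1 1 1 3]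
    [.initX 0 1 1 1]
    [1416, 1418, 1420, 1428, 1432, 2288, 2519, 2302] 0x47f4eb4782cc2ca19118c18918617c1810052c72c62c52c4
    [[0,2,4,6], [9,7], [8,11], [12], [10], [14], [16], [18], [20], [1], [3], [5], [23], [25], [27], [28], [31]]
    16 5 12 1
    (.leaf 0x8000000000010800000000000400020000000100000000800000000040000000200000001000000000400000002000000010000000080000000200000004000200010001800000000000f)
    [0x66a62c0290065] 17 19 = true := by
  decide +kernel

theorem j170 (A : ∀ f : CS, f.ok G = true → Hd (val S) (f.cl G))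
    (A2 : ∀ f : CI, f.ok G = true → Hd (val S) (f.cl G)) (hU : ∀ c ∈ units, Hd (val S) c) :
    Hd (val S) [1416, 1418, 1420, 1428, 1432, 2288, 2519, 2302] :=
  stu_sound A A2 hU i170

theorem i171 : stu G units []
    [.initX 0 0 0 1]
    [0, 2, 38, 1408, 2519] 0x4eb2c001300119118c18918618117c000
    [[0,3], [2], [4], [6], [8], [10], [12], [1], [15], [17], [19], [20]]
    11 4 4 1
    (.leaf 0x1001000002000004000000200000040000080000100000200000400000801001)
    [0x182] 12 12 = true := by
  decide +kernel

theorem j171 (A : ∀ f : CS, f.ok G = true → Hd (val S) (f.cl G))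
    (A2 : ∀ f : CI, f.ok G = true → Hd (val S) (f.cl G)) (hU : ∀ c ∈ units, Hd (val S) c) :
    Hd (val S) [0, 2, 38, 1408, 2519] :=
  stu_sound A A2 hU i171

theorem i172 : stu G units []
    [.initX 0 0 0 1]
    [0, 2, 1408, 1446, 2519] 0x4eb2d32c000119118c18918618117c000
    [[0,3], [2], [4], [6], [8], [10], [12], [1], [15], [17], [19], [20]]
    11 4 4 1
    (.leaf 0x1001000002000004000000200000040000080000100000200000400000801001)
    [0x182] 12 12 = true := by
  decide +kernel

theorem j172 (A : ∀ f : CS, f.ok G = true → Hd (val S) (f.cl G))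
    (A2 : ∀ f : CI, f.ok G = true → Hd (val S) (f.cl G)) (hU : ∀ c ∈ units, Hd (val S) c) :
    Hd (val S) [0, 2, 1408, 1446, 2519] :=
  stu_sound A A2 hU i172

theorem i173 : stu G units []
    [.initX 0 0 0 1]
    [0, 6, 8, 14, 1408, 1410, 1440, 2296] 0x47c2d02c12c000700400319118c18918618117c000
    [[0,3], [2], [4], [6], [8], [10], [12], [1], [15], [17], [19], [21], [23], [25], [27]]
    14 5 4 1
    (.leaf 0x800000040000002000000100000008000000400000020000000040000000040000002000000100000008000000400000020008001)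
    [0x448] 15 15 = true := by
  decide +kernel

theorem j173 (A : ∀ f : CS, f.ok G = true → Hd (val S) (f.cl G))
    (A2 : ∀ f : CI, f.ok G = true → Hd (val S) (f.cl G)) (hU : ∀ c ∈ units, Hd (val S) c) :
    Hd (val S) [0, 6, 8, 14, 1408, 1410, 1440, 2296] :=
  stu_sound A A2 hU i173

theorem i174 : stu G units []
    [.initX 0 0 0 1]
    [0, 6, 8, 14, 1408, 1412, 1452, 2308] 0x4822d62c22c000700400319118c18918618117c000
    [[0,3], [2], [4], [6], [8], [10], [12], [1], [15], [17], [19], [21], [23], [25], [27]]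
    14 5 4 1
    (.leaf 0x800000040000002000000100000008000000400000020000000040000000040000002000000100000008000000400000020008001)
    [0x448] 15 15 = true := by
  decide +kernel

theorem j174 (A : ∀ f : CS, f.ok G = true → Hd (val S) (f.cl G))
    (A2 : ∀ f : CI, f.ok G = true → Hd (val S) (f.cl G)) (hU : ∀ c ∈ units, Hd (val S) c) :
    Hd (val S) [0, 6, 8, 14, 1408, 1412, 1452, 2308] :=
  stu_sound A A2 hU i174

theorem i175 : stu G units []
    [.initX 0 0 0 1]
    [0, 6, 8, 397, 1416, 1822, 2519, 2302] 0x47f4eb38f2c40c600400319118c18918618117c000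
    [[0,3], [2], [4], [6], [8], [10], [12], [1], [15], [17], [18], [21], [23], [24], [27]]
    14 5 4 1
    (.leaf 0x800000000010002000000100000000002000400000020000000040000000040000002000000100000008000000400000020008001)
    [0x448] 15 15 = true := by
  decide +kernel

theorem j175 (A : ∀ f : CS, f.ok G = true → Hd (val S) (f.cl G))
    (A2 : ∀ f : CI, f.ok G = true → Hd (val S) (f.cl G)) (hU : ∀ c ∈ units, Hd (val S) c) :
    Hd (val S) [0, 6, 8, 397, 1416, 1822, 2519, 2302] :=
  stu_sound A A2 hU i175

theorem i176 : stu G units []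
    [.initX 0 0 0 1]
    [0, 32, 391, 510] 0xff0c301019118c18918618117c000
    [[0,3], [2], [4], [6], [8], [10], [12], [1], [15], [16], [19]]
    10 4 4 1
    (.leaf 0x8000000100200000040000040000200001000008000040000200801)
    [0x182] 11 11 = true := by
  decide +kernel

theorem j176 (A : ∀ f : CS, f.ok G = true → Hd (val S) (f.cl G))
    (A2 : ∀ f : CI, f.ok G = true → Hd (val S) (f.cl G)) (hU : ∀ c ∈ units, Hd (val S) c) :
    Hd (val S) [0, 32, 391, 510] :=
  stu_sound A A2 hU i176

theorem i177 : stu G units []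
    [.initX 0 0 0 1]
    [0, 38, 44, 1408, 1410, 1436, 1440, 2290] 0x4792d02ce2c12c001601319118c18918618117c000
    [[0,3], [2], [4], [6], [8], [10], [12], [1], [15], [17], [19], [21], [23], [25], [27]]
    14 5 4 1
    (.leaf 0x800000040000002000000100000008000000400000020000000040000000040000002000000100000008000000400000020008001)
    [0x448] 15 15 = true := by
  decide +kernel

theorem j177 (A : ∀ f : CS, f.ok G = true → Hd (val S) (f.cl G))
    (A2 : ∀ f : CI, f.ok G = true → Hd (val S) (f.cl G)) (hU : ∀ c ∈ units, Hd (val S) c) :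
    Hd (val S) [0, 38, 44, 1408, 1410, 1436, 1440, 2290] :=
  stu_sound A A2 hU i177

theorem i178 : stu G units []
    [.initX 0 1 1 1]
    [2, 6, 10, 14, 1408, 1410, 1436, 1450, 2290] 0x4792d52ce2c12c000700300119118c18918617c181005
    [[0,3], [4], [2], [6], [8], [10], [12], [15], [17], [1], [19], [21], [23], [25], [27], [29]]
    15 5 4 1
    (.leaf 0x800000010000000200000004000000080000001000000000200000800000010000000000040000000800000010000000200000002000000100010001)
    [0x543] 16 16 = true := by
  decide +kernel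

theorem j178 (A : ∀ f : CS, f.ok G = true → Hd (val S) (f.cl G))
    (A2 : ∀ f : CI, f.ok G = true → Hd (val S) (f.cl G)) (hU : ∀ c ∈ units, Hd (val S) c) :
    Hd (val S) [2, 6, 10, 14, 1408, 1410, 1436, 1450, 2290] :=
  stu_sound A A2 hU i178

theorem i179 : stu G units []
    [.initX 0 1 1 1]
    [2, 6, 10, 14, 1408, 1410, 1440, 2296] 0x47c2d02c12c000700300119118c18918617c181005
    [[0,3], [4], [2], [6], [8], [10], [12], [15], [17], [1], [19], [21], [23], [25], [27]]
    14 5 4 1
    (.leaf 0x800000040000002000000100000008000000004000040000002000000000040000002000000100000008000000200000040008001)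
    [0x46a] 15 15 = true := by
  decide +kernel

theorem j179 (A : ∀ f : CS, f.ok G = true → Hd (val S) (f.cl G))
    (A2 : ∀ f : CI, f.ok G = true → Hd (val S) (f.cl G)) (hU : ∀ c ∈ units, Hd (val S) c) :
    Hd (val S) [2, 6, 10, 14, 1408, 1410, 1440, 2296] :=
  stu_sound A A2 hU i179

theorem i180 : stu G units []
    [.initX 0 1 1 1]
    [2, 6, 10, 14, 1408, 1412, 1452, 2308] 0x4822d62c22c000700300119118c18918617c181005
    [[0,3], [4], [2], [6], [8], [10], [12], [15], [17], [1], [19], [21], [23], [25], [27]]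
    14 5 4 1
    (.leaf 0x800000040000002000000100000008000000004000040000002000000000040000002000000100000008000000200000040008001)
    [0x46a] 15 15 = true := by
  decide +kernel

theorem j180 (A : ∀ f : CS, f.ok G = true → Hd (val S) (f.cl G))
    (A2 : ∀ f : CI, f.ok G = true → Hd (val S) (f.cl G)) (hU : ∀ c ∈ units, Hd (val S) c) :
    Hd (val S) [2, 6, 10, 14, 1408, 1412, 1452, 2308] :=
  stu_sound A A2 hU i180

theorem i181 : stu G units []
    [.initX 0 5 1 1]
    [2, 6, 42, 1408, 1412, 2519, 2294] 0x47b4eb2c22c000300118c18918618117c191015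
    [[0,3], [4], [6], [8], [10], [12], [2], [15], [17], [1], [19], [21], [22], [25]]
    13 4 4 1
    (.leaf 0x8000000000800200000040000000080002000000400000000002000010000002000000400000080000010004001)
    [0x17a] 14 14 = true := by
  decide +kernel

theorem j181 (A : ∀ f : CS, f.ok G = true → Hd (val S) (f.cl G))
    (A2 : ∀ f : CI, f.ok G = true → Hd (val S) (f.cl G)) (hU : ∀ c ∈ units, Hd (val S) c) :
    Hd (val S) [2, 6, 42, 1408, 1412, 2519, 2294] :=
  stu_sound A A2 hU i181

theorem i182 : stu G units []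
    [.initX 0 1 1 1]
    [8, 10, 12, 20, 1426, 1436, 2288, 2518] 0x4eb4782ce2c900a00600419118c18918617c181005
    [[0,3], [4], [2], [6], [8], [10], [12], [15], [1], [17], [19], [21], [23], [25], [27]]
    14 5 4 1
    (.leaf 0x800000040000002000000100000008000000400000000400002000000000040000002000000100000008000000200000040008001)
    [0x469] 15 15 = true := by
  decide +kernel

theorem j182 (A : ∀ f : CS, f.ok G = true → Hd (val S) (f.cl G))
    (A2 : ∀ f : CI, f.ok G = true → Hd (val S) (f.cl G)) (hU : ∀ c ∈ units, Hd (val S) c) :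
    Hd (val S) [8, 10, 12, 20, 1426, 1436, 2288, 2518] :=
  stu_sound A A2 hU i182

theorem i183 : stu G units []
    [.initX 0 1 1 1]
    [8, 10, 12, 396, 1416, 1446, 1804, 2519] 0x4eb3862d32c40c600600419118c18918617c181005
    [[0,3], [4], [2], [6], [8], [10], [12], [15], [1], [17], [19], [21], [23], [25], [26]]
    14 5 4 1
    (.leaf 0x200040000002000000100000008000000400000000400002000000000040000002000000100000008000000200000040008001)
    [0x469] 15 15 = true := by
  decide +kernel

theorem j183 (A : ∀ f : CS, f.ok G = true → Hd (val S) (f.cl G))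
    (A2 : ∀ f : CI, f.ok G = true → Hd (val S) (f.cl G)) (hU : ∀ c ∈ units, Hd (val S) c) :
    Hd (val S) [8, 10, 12, 396, 1416, 1446, 1804, 2519] :=
  stu_sound A A2 hU i183

theorem i184 : stu G units []
    [.initX 0 1 1 1]
    [8, 10, 12, 396, 1416, 1446, 1894, 2519] 0x4eb3b32d32c40c600600419118c18918617c181005
    [[0,3], [4], [2], [6], [8], [10], [12], [15], [1], [17], [19], [21], [23], [25], [26]]
    14 5 4 1
    (.leaf 0x200040000002000000100000008000000400000000400002000000000040000002000000100000008000000200000040008001)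
    [0x469] 15 15 = true := by
  decide +kernel

theorem j184 (A : ∀ f : CS, f.ok G = true → Hd (val S) (f.cl G))
    (A2 : ∀ f : CI, f.ok G = true → Hd (val S) (f.cl G)) (hU : ∀ c ∈ units, Hd (val S) c) :
    Hd (val S) [8, 10, 12, 396, 1416, 1446, 1894, 2519] :=
  stu_sound A A2 hU i184

theorem i185 : stu G units []
    [.initX 0 1 1 1]
    [8, 10, 12, 397, 1412, 1416, 1448, 1793, 2288, 2519] 0x4eb4783802d42c42c20c600600419118c18918617c181005
    [[0,3], [4], [2], [6], [8], [10], [12], [15], [1], [17], [18], [21], [23], [25], [26], [29], [30]]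
    16 5 4 1
    (.leaf 0x800040000000000020001000000008000000040000000000020001000000000100000080000000000040000000200000001000000008000000020000000400020001)
    [0x523] 17 17 = true := by
  decide +kernel

theorem j185 (A : ∀ f : CS, f.ok G = true → Hd (val S) (f.cl G))
    (A2 : ∀ f : CI, f.ok G = true → Hd (val S) (f.cl G)) (hU : ∀ c ∈ units, Hd (val S) c) :
    Hd (val S) [8, 10, 12, 397, 1412, 1416, 1448, 1793, 2288, 2519] :=
  stu_sound A A2 hU i185

theorem i186 : stu G units []
    [.initX 0 1 1 1]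
    [8, 10, 12, 1408, 1410, 1416, 1428, 1446, 2288, 2519] 0x4eb4782d32ca2c42c12c000600419118c18918617c181005
    [[0,3], [4], [2], [6], [8], [10], [12], [15], [1], [17], [19], [21], [23], [25], [27], [29], [30]]
    16 5 4 1
    (.leaf 0x800040000000200000001000000008000000040000000200000001000000000100000080000000000040000000200000001000000008000000020000000400020001)
    [0x523] 17 17 = true := by
  decide +kernel

theorem j186 (A : ∀ f : CS, f.ok G = true → Hd (val S) (f.cl G))
    (A2 : ∀ f : CI, f.ok G = true → Hd (val S) (f.cl G)) (hU : ∀ c ∈ units, Hd (val S) c) :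
    Hd (val S) [8, 10, 12, 1408, 1410, 1416, 1428, 1446, 2288, 2519] :=
  stu_sound A A2 hU i186

theorem i187 : stu G units []
    [.initX 0 1 1 1]
    [8, 10, 14, 1412, 1418, 1424, 2290, 2308, 2294] 0x47b4824792c82c52c200700419118c18918617c181005
    [[0,3], [4], [2], [6], [8], [10], [12], [15], [1], [17], [19], [21], [23], [25], [27], [29]]
    15 5 4 1
    (.leaf 0x800000010000000200000004000000080000001000000020000000008000010000000000040000000800000010000000200000002000000100010001)
    [0x523] 16 16 = true := by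
  decide +kernel

theorem j187 (A : ∀ f : CS, f.ok G = true → Hd (val S) (f.cl G))
    (A2 : ∀ f : CI, f.ok G = true → Hd (val S) (f.cl G)) (hU : ∀ c ∈ units, Hd (val S) c) :
    Hd (val S) [8, 10, 14, 1412, 1418, 1424, 2290, 2308, 2294] :=
  stu_sound A A2 hU i187

theorem i188 : stu G units []
    [.initX 0 1 1 1]
    [8, 10, 14, 1412, 1418, 1428, 2517, 2290, 2308] 0x4824794ea2ca2c52c200700419118c18918617c181005
    [[0,3], [4], [2], [6], [8], [10], [12], [15], [1], [17], [19], [21], [23], [24], [27], [29]]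
    15 5 4 1
    (.leaf 0x800000010000000000040004000000080000001000000020000000008000010000000000040000000800000010000000200000002000000100010001)
    [0x523] 16 16 = true := by
  decide +kernel

theorem j188 (A : ∀ f : CS, f.ok G = true → Hd (val S) (f.cl G))
    (A2 : ∀ f : CI, f.ok G = true → Hd (val S) (f.cl G)) (hU : ∀ c ∈ units, Hd (val S) c) :
    Hd (val S) [8, 10, 14, 1412, 1418, 1428, 2517, 2290, 2308] :=
  stu_sound A A2 hU i188

theorem i189 : stu G units []
    [.initX 0 1 1 1]
    [8, 10, 14, 1412, 1418, 2517, 2288, 2308] 0x4824784ea2c52c200700419118c18918617c181005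
    [[0,3], [4], [2], [6], [8], [10], [12], [15], [1], [17], [19], [21], [22], [25], [27]]
    14 5 4 1
    (.leaf 0x800000040000000000800100000008000000400000000400002000000000040000002000000100000008000000200000040008001)
    [0x469] 15 15 = true := by
  decide +kernel

theorem j189 (A : ∀ f : CS, f.ok G = true → Hd (val S) (f.cl G))
    (A2 : ∀ f : CI, f.ok G = true → Hd (val S) (f.cl G)) (hU : ∀ c ∈ units, Hd (val S) c) :
    Hd (val S) [8, 10, 14, 1412, 1418, 2517, 2288, 2308] :=
  stu_sound A A2 hU i189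

theorem i190 : stu G units []
    [.initX 0 1 1 1]
    [8, 10, 14, 1412, 1428, 2517, 2288, 2519] 0x4eb4784ea2ca2c200700419118c18918617c181005
    [[0,3], [4], [2], [6], [8], [10], [12], [15], [1], [17], [19], [21], [22], [25], [26]]
    14 5 4 1
    (.leaf 0x200040000000000800100000008000000400000000400002000000000040000002000000100000008000000200000040008001)
    [0x469] 15 15 = true := by
  decide +kernel

theorem j190 (A : ∀ f : CS, f.ok G = true → Hd (val S) (f.cl G))
    (A2 : ∀ f : CI, f.ok G = true → Hd (val S) (f.cl G)) (hU : ∀ c ∈ units, Hd (val S) c) :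
    Hd (val S) [8, 10, 14, 1412, 1428, 2517, 2288, 2519] :=
  stu_sound A A2 hU i190

theorem i191 : stu G units []
    [.initX 0 1 1 1]
    [8, 10, 14, 1418, 1434, 1450, 2290, 2308] 0x4824792d52cd2c500700419118c18918617c181005
    [[0,3], [4], [2], [6], [8], [10], [12], [15], [1], [17], [19], [21], [23], [25], [27]]
    14 5 4 1
    (.leaf 0x800000040000002000000100000008000000400000000400002000000000040000002000000100000008000000200000040008001)
    [0x469] 15 15 = true := by
  decide +kernel

theorem j191 (A : ∀ f : CS, f.ok G = true → Hd (val S) (f.cl G))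
    (A2 : ∀ f : CI, f.ok G = true → Hd (val S) (f.cl G)) (hU : ∀ c ∈ units, Hd (val S) c) :
    Hd (val S) [8, 10, 14, 1418, 1434, 1450, 2290, 2308] :=
  stu_sound A A2 hU i191

theorem i192 : stu G units []
    [.initX 0 1 1 1]
    [8, 10, 14, 1424, 1426, 1440, 2296] 0x47c2d02c92c800700419118c18918617c181005
    [[0,3], [4], [2], [6], [8], [10], [12], [15], [1], [17], [19], [21], [23], [25]]
    13 4 4 1
    (.leaf 0x8000001000000200000040000008000000020000400000000040000008000001000000200000020000010004001)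
    [0x139] 14 14 = true := by
  decide +kernel

theorem j192 (A : ∀ f : CS, f.ok G = true → Hd (val S) (f.cl G))
    (A2 : ∀ f : CI, f.ok G = true → Hd (val S) (f.cl G)) (hU : ∀ c ∈ units, Hd (val S) c) :
    Hd (val S) [8, 10, 14, 1424, 1426, 1440, 2296] :=
  stu_sound A A2 hU i192

theorem i193 : stu G units []
    [.initX 0 1 1 1]
    [8, 10, 14, 1424, 1428, 1436, 1793, 1883, 2290] 0x4793ad3802ce2ca2c800700419118c18918617c181005
    [[0,3], [4], [2], [6], [8], [10], [12], [15], [1], [17], [19], [21], [23], [24], [26], [29]]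
    15 5 4 1
    (.leaf 0x800000000002000000040004000000080000001000000020000000008000010000000000040000000800000010000000200000002000000100010001)
    [0x523] 16 16 = true := by
  decide +kernel

theorem j193 (A : ∀ f : CS, f.ok G = true → Hd (val S) (f.cl G))
    (A2 : ∀ f : CI, f.ok G = true → Hd (val S) (f.cl G)) (hU : ∀ c ∈ units, Hd (val S) c) :
    Hd (val S) [8, 10, 14, 1424, 1428, 1436, 1793, 1883, 2290] :=
  stu_sound A A2 hU i193

theorem i194 : stu G units []
    [.initX 0 1 1 1]
    [8, 10, 38, 1416, 1434, 1436, 1811, 1865, 2288] 0x4783a43892ce2cd2c401300419118c18918617c181005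
    [[0,3], [4], [2], [6], [8], [10], [12], [15], [1], [17], [19], [21], [23], [24], [26], [29]]
    15 5 4 1
    (.leaf 0x800000000002000000040004000000080000001000000020000000008000010000000000040000000800000010000000200000002000000100010001)
    [0x523] 16 16 = true := by
  decide +kernel

theorem j194 (A : ∀ f : CS, f.ok G = true → Hd (val S) (f.cl G))
    (A2 : ∀ f : CI, f.ok G = true → Hd (val S) (f.cl G)) (hU : ∀ c ∈ units, Hd (val S) c) :
    Hd (val S) [8, 10, 38, 1416, 1434, 1436, 1811, 1865, 2288] :=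
  stu_sound A A2 hU i194

theorem i195 : stu G units []
    [.initX 0 1 1 1]
    [8, 10, 391, 1418, 1822, 2517, 2308] 0x4824ea38f2c50c300419118c18918617c181005
    [[0,3], [4], [2], [6], [8], [10], [12], [15], [1], [16], [19], [21], [22], [25]]
    13 4 4 1
    (.leaf 0x8000000000800200000040000000004000020000400000000040000008000001000000200000020000010004001)
    [0x139] 14 14 = true := by
  decide +kernel

theorem j195 (A : ∀ f : CS, f.ok G = true → Hd (val S) (f.cl G))
    (A2 : ∀ f : CI, f.ok G = true → Hd (val S) (f.cl G)) (hU : ∀ c ∈ units, Hd (val S) c) :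
    Hd (val S) [8, 10, 391, 1418, 1822, 2517, 2308] :=
  stu_sound A A2 hU i195

theorem i196 : stu G units []
    [.initX 0 1 1 1]
    [8, 10, 396, 1416, 1894, 2519, 2302] 0x47f4eb3b32c40c600419118c18918617c181005
    [[0,3], [4], [2], [6], [8], [10], [12], [15], [1], [17], [19], [21], [22], [25]]
    13 4 4 1
    (.leaf 0x8000000000800200000040000008000000020000400000000040000008000001000000200000020000010004001)
    [0x139] 14 14 = true := by
  decide +kernel

theorem j196 (A : ∀ f : CS, f.ok G = true → Hd (val S) (f.cl G))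
    (A2 : ∀ f : CI, f.ok G = true → Hd (val S) (f.cl G)) (hU : ∀ c ∈ units, Hd (val S) c) :
    Hd (val S) [8, 10, 396, 1416, 1894, 2519, 2302] :=
  stu_sound A A2 hU i196

theorem i197 : stu G units []
    [.initX 0 1 1 1]
    [8, 10, 397, 1416, 1876, 2519, 2302] 0x47f4eb3aa2c40c600419118c18918617c181005
    [[0,3], [4], [2], [6], [8], [10], [12], [15], [1], [16], [19], [21], [22], [25]]
    13 4 4 1
    (.leaf 0x8000000000800200000040000000004000020000400000000040000008000001000000200000020000010004001)
    [0x139] 14 14 = true := by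
  decide +kernel

theorem j197 (A : ∀ f : CS, f.ok G = true → Hd (val S) (f.cl G))
    (A2 : ∀ f : CI, f.ok G = true → Hd (val S) (f.cl G)) (hU : ∀ c ∈ units, Hd (val S) c) :
    Hd (val S) [8, 10, 397, 1416, 1876, 2519, 2302] :=
  stu_sound A A2 hU i197

theorem i198 : stu G units []
    [.initX 0 1 1 1]
    [8, 10, 1416, 1424, 1428, 2519, 2294, 2302] 0x47f47b4eb2ca2c82c400419118c18918617c181005
    [[0,3], [4], [2], [6], [8], [10], [12], [15], [1], [17], [19], [21], [22], [25], [27]]
    14 5 4 1
    (.leaf 0x800000040000000000800100000008000000400000000400002000000000040000002000000100000008000000200000040008001)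
    [0x469] 15 15 = true := by
  decide +kernel

theorem j198 (A : ∀ f : CS, f.ok G = true → Hd (val S) (f.cl G))
    (A2 : ∀ f : CI, f.ok G = true → Hd (val S) (f.cl G)) (hU : ∀ c ∈ units, Hd (val S) c) :
    Hd (val S) [8, 10, 1416, 1424, 1428, 2519, 2294, 2302] :=
  stu_sound A A2 hU i198

theorem i199 : stu G units []
    [.initX 0 1 1 1]
    [10, 12, 38, 44, 397, 1408, 1412, 1452, 2290, 2519] 0x4eb4792d62c22c00c601601300619118c18918617c181005
    [[0,3], [4], [2], [6], [8], [10], [12], [1], [15], [17], [19], [20], [23], [25], [27], [29], [30]]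
    16 5 4 1
    (.leaf 0x800040000000200000001000000008000000000004000200000001000000008000000001000000000040000000200000001000000008000000020000000400020001)
    [0x503] 17 17 = true := by
  decide +kernel

theorem j199 (A : ∀ f : CS, f.ok G = true → Hd (val S) (f.cl G))
    (A2 : ∀ f : CI, f.ok G = true → Hd (val S) (f.cl G)) (hU : ∀ c ∈ units, Hd (val S) c) :
    Hd (val S) [10, 12, 38, 44, 397, 1408, 1412, 1452, 2290, 2519] :=
  stu_sound A A2 hU i199

theorem i200 : stu G units []
    [.initX 0 1 1 1]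
    [10, 14, 390, 1410, 1412, 1418, 1432, 1434, 2308, 2296] 0x47c4822cd2cc2c52c22c10c300719118c18918617c181005
    [[0,3], [4], [2], [6], [8], [10], [12], [1], [15], [17], [19], [21], [23], [25], [27], [29], [31]]
    16 5 4 1
    (.leaf 0x8000000040000000200000001000000008000000040000000200000001000000008000000001000000000040000000200000001000000008000000020000000400020001)
    [0x503] 17 17 = true := by
  decide +kernel

theorem j200 (A : ∀ f : CS, f.ok G = true → Hd (val S) (f.cl G))
    (A2 : ∀ f : CI, f.ok G = true → Hd (val S) (f.cl G)) (hU : ∀ c ∈ units, Hd (val S) c) :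
    Hd (val S) [10, 14, 390, 1410, 1412, 1418, 1432, 1434, 2308, 2296] :=
  stu_sound A A2 hU i200

theorem i201 : stu G units []
    [.initX 0 1 1 1]
    [10, 38, 1408, 1410, 1416, 2519, 2302] 0x47f4eb2c42c12c001319118c18918617c181005
    [[0,3], [4], [2], [6], [8], [10], [12], [1], [15], [17], [19], [21], [22], [25]]
    13 4 4 1
    (.leaf 0x8000000000800200000040000008000001000000008000000040000008000001000000200000020000010004001)
    [0x138] 14 14 = true := by
  decide +kernel

theorem j201 (A : ∀ f : CS, f.ok G = true → Hd (val S) (f.cl G))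
    (A2 : ∀ f : CI, f.ok G = true → Hd (val S) (f.cl G)) (hU : ∀ c ∈ units, Hd (val S) c) :
    Hd (val S) [10, 38, 1408, 1410, 1416, 2519, 2302] :=
  stu_sound A A2 hU i201

theorem i202 : stu G units []
    [.initX 0 1 1 1]
    [10, 1408, 1412, 1416, 2519, 2294, 2302] 0x47f47b4eb2c42c22c019118c18918617c181005
    [[0,3], [4], [2], [6], [8], [10], [12], [1], [15], [17], [19], [20], [23], [25]]
    13 4 4 1
    (.leaf 0x8000001000000000100040000008000001000000008000000040000008000001000000200000020000010004001)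
    [0x138] 14 14 = true := by
  decide +kernel

theorem j202 (A : ∀ f : CS, f.ok G = true → Hd (val S) (f.cl G))
    (A2 : ∀ f : CI, f.ok G = true → Hd (val S) (f.cl G)) (hU : ∀ c ∈ units, Hd (val S) c) :
    Hd (val S) [10, 1408, 1412, 1416, 2519, 2294, 2302] :=
  stu_sound A A2 hU i202

theorem i203 : stu G units []
    [.initX 0 1 1 1]
    [10, 1416, 1424, 1428, 1448, 1450, 2519, 2296, 2302] 0x47f47c4eb2d52d42ca2c82c419118c18918617c181005
    [[0,3], [4], [2], [6], [8], [10], [12], [1], [15], [17], [19], [21], [23], [24], [27], [29]]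
    15 5 4 1
    (.leaf 0x800000010000000000040004000000080000001000000020000000400000000200000000040000000800000010000000200000002000000100010001)
    [0x503] 16 16 = true := by
  decide +kernel

theorem j203 (A : ∀ f : CS, f.ok G = true → Hd (val S) (f.cl G))
    (A2 : ∀ f : CI, f.ok G = true → Hd (val S) (f.cl G)) (hU : ∀ c ∈ units, Hd (val S) c) :
    Hd (val S) [10, 1416, 1424, 1428, 1448, 1450, 2519, 2296, 2302] :=
  stu_sound A A2 hU i203

theorem i204 : stu G units [.some 1 1, .legal2 0 1 1 1 3]
    [.initX 0 1 1 1]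
    [12, 396, 1416, 1418, 1420, 1804, 2519, 2302] 0x47f4eb3860c600619118c18918617c1810052c72c62c52c4
    [[0,2,4,6], [9,7], [8,11], [12], [10], [14], [16], [18], [20], [23], [25], [1], [3], [5], [27], [28], [31]]
    16 5 12 1
    (.leaf 0x8000000000010800000000000400020000000000400000002000000010000100000000800000000000400000002000000010000000080000000200000004000200010001800000000000f)
    [0x66c7340290065] 17 19 = true := by
  decide +kernel

theorem j204 (A : ∀ f : CS, f.ok G = true → Hd (val S) (f.cl G))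
    (A2 : ∀ f : CI, f.ok G = true → Hd (val S) (f.cl G)) (hU : ∀ c ∈ units, Hd (val S) c) :
    Hd (val S) [12, 396, 1416, 1418, 1420, 1804, 2519, 2302] :=
  stu_sound A A2 hU i204

theorem i205 : stu G units []
    [.initX 0 2 2 1]
    [14, 20, 38, 1408, 1410, 1416, 1428, 1440, 2308] 0x4822d02ca2c42c12c001300719118c18918117c18600a
    [[0,3], [4], [6], [2], [8], [10], [12], [15], [1], [17], [19], [21], [23], [25], [27], [29]]
    15 5 4 1
    (.leaf 0x800000010000000200000004000000080000001000000020000000008000010000000000040000000800000010000000080000008000000100010001)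
    [0x524] 16 16 = true := by
  decide +kernel

theorem j205 (A : ∀ f : CS, f.ok G = true → Hd (val S) (f.cl G))
    (A2 : ∀ f : CI, f.ok G = true → Hd (val S) (f.cl G)) (hU : ∀ c ∈ units, Hd (val S) c) :
    Hd (val S) [14, 20, 38, 1408, 1410, 1416, 1428, 1440, 2308] :=
  stu_sound A A2 hU i205

theorem i206 : stu G units []
    [.initX 0 2 2 1]
    [14, 20, 38, 1416, 1434, 2294] 0x47b2cd2c401300719118c18918117c18600a
    [[0,3], [4], [6], [2], [8], [10], [12], [15], [1], [17], [19], [21], [23]]
    12 4 6 1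
    (.leaf 0x1800000400000200000100000001000080000000040000020000010000002000008000004002001)
    [0x9e014] 13 14 = true := by
  decide +kernel

theorem j206 (A : ∀ f : CS, f.ok G = true → Hd (val S) (f.cl G))
    (A2 : ∀ f : CI, f.ok G = true → Hd (val S) (f.cl G)) (hU : ∀ c ∈ units, Hd (val S) c) :
    Hd (val S) [14, 20, 38, 1416, 1434, 2294] :=
  stu_sound A A2 hU i206

theorem i207 : stu G units []
    [.initX 0 2 2 1]
    [14, 20, 517, 1410, 1436, 1446, 2519, 2302] 0x47f4eb2d32ce2c110200719118c18918117c18600a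
    [[0,3], [4], [6], [2], [8], [10], [12], [15], [1], [16], [19], [21], [23], [24], [27]]
    14 5 4 1
    (.leaf 0x800000000010002000000100000008000000000100000400002000000000040000002000000100000002000000800000040008001)
    [0x489] 15 15 = true := by
  decide +kernel

theorem j207 (A : ∀ f : CS, f.ok G = true → Hd (val S) (f.cl G))
    (A2 : ∀ f : CI, f.ok G = true → Hd (val S) (f.cl G)) (hU : ∀ c ∈ units, Hd (val S) c) :
    Hd (val S) [14, 20, 517, 1410, 1436, 1446, 2519, 2302] :=
  stu_sound A A2 hU i207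

theorem i208 : stu G units []
    [.initX 0 2 2 1]
    [14, 20, 1410, 1412, 1414, 1428, 2517, 2288, 2519] 0x4eb4784ea2ca2c32c22c100719118c18918117c18600a
    [[0,3], [4], [6], [2], [8], [10], [12], [15], [1], [17], [19], [21], [23], [24], [27], [28]]
    15 5 4 1
    (.leaf 0x100010000000000040004000000080000001000000020000000008000010000000000040000000800000010000000080000008000000100010001)
    [0x524] 16 16 = true := by
  decide +kernel

theorem j208 (A : ∀ f : CS, f.ok G = true → Hd (val S) (f.cl G))
    (A2 : ∀ f : CI, f.ok G = true → Hd (val S) (f.cl G)) (hU : ∀ c ∈ units, Hd (val S) c) :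
    Hd (val S) [14, 20, 1410, 1412, 1414, 1428, 2517, 2288, 2519] :=
  stu_sound A A2 hU i208

theorem i209 : stu G units []
    [.initX 0 2 2 1]
    [14, 20, 1412, 1414, 1416, 1450, 2519, 2294] 0x47b4eb2d52c42c32c200719118c18918117c18600a
    [[0,3], [4], [6], [2], [8], [10], [12], [15], [1], [17], [19], [21], [23], [24], [27]]
    14 5 4 1
    (.leaf 0x800000000010002000000100000008000000400000000400002000000000040000002000000100000002000000800000040008001)
    [0x489] 15 15 = true := by
  decide +kernel

theorem j209 (A : ∀ f : CS, f.ok G = true → Hd (val S) (f.cl G))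
    (A2 : ∀ f : CI, f.ok G = true → Hd (val S) (f.cl G)) (hU : ∀ c ∈ units, Hd (val S) c) :
    Hd (val S) [14, 20, 1412, 1414, 1416, 1450, 2519, 2294] :=
  stu_sound A A2 hU i209

theorem i210 : stu G units []
    [.initX 0 2 2 1]
    [14, 20, 1412, 1416, 1428, 1936, 1943, 2288] 0x4783cb3c82ca2c42c200719118c18918117c18600a
    [[0,3], [4], [6], [2], [8], [10], [12], [15], [1], [17], [19], [21], [23], [24], [27]]
    14 5 4 1
    (.leaf 0x800000000010002000000100000008000000400000000400002000000000040000002000000100000002000000800000040008001)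
    [0x489] 15 15 = true := by
  decide +kernel

theorem j210 (A : ∀ f : CS, f.ok G = true → Hd (val S) (f.cl G))
    (A2 : ∀ f : CI, f.ok G = true → Hd (val S) (f.cl G)) (hU : ∀ c ∈ units, Hd (val S) c) :
    Hd (val S) [14, 20, 1412, 1416, 1428, 1936, 1943, 2288] :=
  stu_sound A A2 hU i210

theorem i211 : stu G units []
    [.initX 0 2 2 1]
    [14, 20, 1412, 1416, 1428, 1942, 1972, 2288] 0x4783da3cb2ca2c42c200719118c18918117c18600a
    [[0,3], [4], [6], [2], [8], [10], [12], [15], [1], [17], [19], [21], [23], [25], [27]]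
    14 5 4 1
    (.leaf 0x800000040000002000000100000008000000400000000400002000000000040000002000000100000002000000800000040008001)
    [0x489] 15 15 = true := by
  decide +kernel

theorem j211 (A : ∀ f : CS, f.ok G = true → Hd (val S) (f.cl G))
    (A2 : ∀ f : CI, f.ok G = true → Hd (val S) (f.cl G)) (hU : ∀ c ∈ units, Hd (val S) c) :
    Hd (val S) [14, 20, 1412, 1416, 1428, 1942, 1972, 2288] :=
  stu_sound A A2 hU i211

theorem i212 : stu G units []
    [.initX 0 2 2 1]
    [14, 20, 1412, 1416, 1432, 1434, 1450, 2308, 2296] 0x47c4822d52cd2cc2c42c200719118c18918117c18600a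
    [[0,3], [4], [6], [2], [8], [10], [12], [15], [1], [17], [19], [21], [23], [25], [27], [29]]
    15 5 4 1
    (.leaf 0x800000010000000200000004000000080000001000000020000000008000010000000000040000000800000010000000080000008000000100010001)
    [0x524] 16 16 = true := by
  decide +kernel

theorem j212 (A : ∀ f : CS, f.ok G = true → Hd (val S) (f.cl G))
    (A2 : ∀ f : CI, f.ok G = true → Hd (val S) (f.cl G)) (hU : ∀ c ∈ units, Hd (val S) c) :
    Hd (val S) [14, 20, 1412, 1416, 1432, 1434, 1450, 2308, 2296] :=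
  stu_sound A A2 hU i212

theorem i213 : stu G units []
    [.initX 0 2 2 1]
    [14, 20, 1412, 1416, 1450, 1793, 2294] 0x47b3802d52c42c200719118c18918117c18600a
    [[0,3], [4], [6], [2], [8], [10], [12], [15], [1], [17], [19], [21], [22], [25]]
    13 4 4 1
    (.leaf 0x8000000000800200000040000008000000020000400000000040000008000001000000080000080000010004001)
    [0x149] 14 14 = true := by
  decide +kernel

theorem j213 (A : ∀ f : CS, f.ok G = true → Hd (val S) (f.cl G))
    (A2 : ∀ f : CI, f.ok G = true → Hd (val S) (f.cl G)) (hU : ∀ c ∈ units, Hd (val S) c) :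
    Hd (val S) [14, 20, 1412, 1416, 1450, 1793, 2294] :=
  stu_sound A A2 hU i213

theorem i214 : stu G units []
    [.initX 0 2 2 1]
    [14, 20, 1412, 1416, 1793, 2288, 2296] 0x47c4783802c42c200719118c18918117c18600a
    [[0,3], [4], [6], [2], [8], [10], [12], [15], [1], [17], [19], [20], [23], [25]]
    13 4 4 1
    (.leaf 0x8000001000000000100040000008000000020000400000000040000008000001000000080000080000010004001)
    [0x149] 14 14 = true := by
  decide +kernel

theorem j214 (A : ∀ f : CS, f.ok G = true → Hd (val S) (f.cl G))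
    (A2 : ∀ f : CI, f.ok G = true → Hd (val S) (f.cl G)) (hU : ∀ c ∈ units, Hd (val S) c) :
    Hd (val S) [14, 20, 1412, 1416, 1793, 2288, 2296] :=
  stu_sound A A2 hU i214

theorem i215 : stu G units []
    [.initX 0 2 2 1]
    [14, 20, 1416, 1418, 1426, 1450, 2517, 2290, 2308, 2296] 0x47c4824794ea2d52c92c52c400719118c18918117c18600a
    [[0,3], [4], [6], [2], [8], [10], [12], [15], [1], [17], [19], [21], [23], [24], [27], [29], [31]]
    16 5 4 1
    (.leaf 0x8000000040000000200000000000100008000000040000000200000001000000000100000080000000000040000000200000001000000002000000080000000400020001)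
    [0x524] 17 17 = true := by
  decide +kernel

theorem j215 (A : ∀ f : CS, f.ok G = true → Hd (val S) (f.cl G))
    (A2 : ∀ f : CI, f.ok G = true → Hd (val S) (f.cl G)) (hU : ∀ c ∈ units, Hd (val S) c) :
    Hd (val S) [14, 20, 1416, 1418, 1426, 1450, 2517, 2290, 2308, 2296] :=
  stu_sound A A2 hU i215

theorem i216 : stu G units []
    [.initX 0 2 2 1]
    [14, 20, 1416, 1418, 2308, 2519, 2302] 0x47f4eb4822c52c400719118c18918117c18600a
    [[0,3], [4], [6], [2], [8], [10], [12], [15], [1], [17], [19], [21], [22], [25]]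
    13 4 4 1
    (.leaf 0x8000000000800200000040000008000000020000400000000040000008000001000000080000080000010004001)
    [0x149] 14 14 = true := by
  decide +kernel

theorem j216 (A : ∀ f : CS, f.ok G = true → Hd (val S) (f.cl G))
    (A2 : ∀ f : CI, f.ok G = true → Hd (val S) (f.cl G)) (hU : ∀ c ∈ units, Hd (val S) c) :
    Hd (val S) [14, 20, 1416, 1418, 2308, 2519, 2302] :=
  stu_sound A A2 hU i216

theorem i217 : stu G units []
    [.initX 0 2 2 1]
    [14, 20, 1416, 1448, 1450, 1811, 2518] 0x4eb3892d52d42c400719118c18918117c18600a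
    [[0,3], [4], [6], [2], [8], [10], [12], [15], [1], [17], [19], [21], [22], [25]]
    13 4 4 1
    (.leaf 0x8000000000800200000040000008000000020000400000000040000008000001000000080000080000010004001)
    [0x149] 14 14 = true := by
  decide +kernel

theorem j217 (A : ∀ f : CS, f.ok G = true → Hd (val S) (f.cl G))
    (A2 : ∀ f : CI, f.ok G = true → Hd (val S) (f.cl G)) (hU : ∀ c ∈ units, Hd (val S) c) :
    Hd (val S) [14, 20, 1416, 1448, 1450, 1811, 2518] :=
  stu_sound A A2 hU i217

theorem i218 : stu G units []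
    [.initX 0 3 1 1]
    [14, 24, 26, 1416, 1432, 2308] 0x4822cc2c400c00719118c18618117c18900d
    [[0,3], [4], [6], [8], [2], [10], [12], [15], [17], [1], [19], [21], [23]]
    12 4 6 1
    (.leaf 0x1800000400000200000001000100000080000000040000020000002000010000008000004002001)
    [0xae015] 13 14 = true := by
  decide +kernel

theorem j218 (A : ∀ f : CS, f.ok G = true → Hd (val S) (f.cl G))
    (A2 : ∀ f : CI, f.ok G = true → Hd (val S) (f.cl G)) (hU : ∀ c ∈ units, Hd (val S) c) :
    Hd (val S) [14, 24, 26, 1416, 1432, 2308] :=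
  stu_sound A A2 hU i218

theorem i219 : stu G units []
    [.initX 0 4 0 1]
    [14, 24, 32, 38, 1410, 1424, 1426, 1442, 2308] 0x4822d12c92c82c101300c00719118918618117c18c010
    [[0,3], [4], [6], [8], [10], [2], [12], [15], [17], [1], [19], [21], [23], [25], [27], [29]]
    15 5 4 1
    (.leaf 0x800000010000000200000004000000080000001000000000200000800000010000000000040000000080000020000000400000008000000100010001)
    [0x546] 16 16 = true := by
  decide +kernel

theorem j219 (A : ∀ f : CS, f.ok G = true → Hd (val S) (f.cl G))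
    (A2 : ∀ f : CI, f.ok G = true → Hd (val S) (f.cl G)) (hU : ∀ c ∈ units, Hd (val S) c) :
    Hd (val S) [14, 24, 32, 38, 1410, 1424, 1426, 1442, 2308] :=
  stu_sound A A2 hU i219

theorem i220 : stu G units []
    [.initX 0 2 2 1]
    [16, 20, 38, 1424, 1426, 1432, 2288] 0x4782cc2c92c801300819118c18918117c18600a
    [[0,3], [4], [6], [2], [8], [10], [12], [15], [1], [17], [19], [21], [23], [25]]
    13 4 4 1
    (.leaf 0x8000001000000200000040000008000000020000400000000040000008000001000000080000080000010004001)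
    [0x149] 14 14 = true := by
  decide +kernel

theorem j220 (A : ∀ f : CS, f.ok G = true → Hd (val S) (f.cl G))
    (A2 : ∀ f : CI, f.ok G = true → Hd (val S) (f.cl G)) (hU : ∀ c ∈ units, Hd (val S) c) :
    Hd (val S) [16, 20, 38, 1424, 1426, 1432, 2288] :=
  stu_sound A A2 hU i220

theorem i221 : stu G units []
    [.initX 0 2 2 1]
    [20, 24, 26, 1426, 2519, 2294] 0x47b4eb2c900d00c19118c18918117c18600a
    [[0,3], [4], [6], [2], [8], [10], [12], [1], [15], [17], [19], [20], [23]]
    12 4 6 1
    (.leaf 0x1800000000400200000100000080000001000000040000020000010000002000008000004002001)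
    [0x8e014] 13 14 = true := by
  decide +kernel

theorem j221 (A : ∀ f : CS, f.ok G = true → Hd (val S) (f.cl G))
    (A2 : ∀ f : CI, f.ok G = true → Hd (val S) (f.cl G)) (hU : ∀ c ∈ units, Hd (val S) c) :
    Hd (val S) [20, 24, 26, 1426, 2519, 2294] :=
  stu_sound A A2 hU i221

theorem i222 : stu G units []
    [.initX 0 2 2 1]
    [20, 38, 1408, 1416, 1422, 1428, 1440] 0x2d02ca2c72c42c001319118c18918117c18600a
    [[0,3], [4], [6], [2], [8], [10], [12], [1], [15], [17], [19], [21], [23], [25]]
    13 4 4 1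
    (.leaf 0x8000001000000200000040000008000001000000008000000040000008000001000000080000080000010004001)
    [0x148] 14 14 = true := by
  decide +kernel

theorem j222 (A : ∀ f : CS, f.ok G = true → Hd (val S) (f.cl G))
    (A2 : ∀ f : CI, f.ok G = true → Hd (val S) (f.cl G)) (hU : ∀ c ∈ units, Hd (val S) c) :
    Hd (val S) [20, 38, 1408, 1416, 1422, 1428, 1440] :=
  stu_sound A A2 hU i222

theorem i223 : stu G units []
    [.initX 0 2 2 1]
    [20, 38, 1412, 2516, 2519, 2294] 0x47b4eb4ea2c201319118c18918117c18600a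
    [[0,3], [4], [6], [2], [8], [10], [12], [1], [15], [17], [19], [20], [23]]
    12 4 6 1
    (.leaf 0x1800000000400200000100000080000001000000040000020000010000002000008000004002001)
    [0x8e014] 13 14 = true := by
  decide +kernel

theorem j223 (A : ∀ f : CS, f.ok G = true → Hd (val S) (f.cl G))
    (A2 : ∀ f : CI, f.ok G = true → Hd (val S) (f.cl G)) (hU : ∀ c ∈ units, Hd (val S) c) :
    Hd (val S) [20, 38, 1412, 2516, 2519, 2294] :=
  stu_sound A A2 hU i223

theorem i224 : stu G units []
    [.initX 0 2 2 1]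
    [20, 38, 1416, 1440, 1442, 2518] 0x4eb2d12d02c401319118c18918117c18600a
    [[0,3], [4], [6], [2], [8], [10], [12], [1], [15], [17], [19], [21], [23]]
    12 4 6 1
    (.leaf 0x1800000400000200000100000080000001000000040000020000010000002000008000004002001)
    [0x8e014] 13 14 = true := by
  decide +kernel

theorem j224 (A : ∀ f : CS, f.ok G = true → Hd (val S) (f.cl G))
    (A2 : ∀ f : CI, f.ok G = true → Hd (val S) (f.cl G)) (hU : ∀ c ∈ units, Hd (val S) c) :
    Hd (val S) [20, 38, 1416, 1440, 1442, 2518] :=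
  stu_sound A A2 hU i224

theorem i225 : stu G units []
    [.initX 0 2 2 1]
    [20, 38, 1424, 1426, 1434, 1811, 2290, 2296] 0x47c4793892cd2c92c801319118c18918117c18600a
    [[0,3], [4], [6], [2], [8], [10], [12], [1], [15], [17], [19], [21], [22], [25], [27]]
    14 5 4 1
    (.leaf 0x800000040000000000800100000008000000400000020000000040000000040000002000000100000002000000800000040008001)
    [0x488] 15 15 = true := by
  decide +kernel

theorem j225 (A : ∀ f : CS, f.ok G = true → Hd (val S) (f.cl G))
    (A2 : ∀ f : CI, f.ok G = true → Hd (val S) (f.cl G)) (hU : ∀ c ∈ units, Hd (val S) c) :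
    Hd (val S) [20, 38, 1424, 1426, 1434, 1811, 2290, 2296] :=
  stu_sound A A2 hU i225

theorem i226 : stu G units []
    [.initX 0 2 2 1]
    [20, 38, 1424, 1426, 1440, 1811, 2518] 0x4eb3892d02c92c801319118c18918117c18600a
    [[0,3], [4], [6], [2], [8], [10], [12], [1], [15], [17], [19], [21], [22], [25]]
    13 4 4 1
    (.leaf 0x8000000000800200000040000008000001000000008000000040000008000001000000080000080000010004001)
    [0x148] 14 14 = true := by
  decide +kernel

theorem j226 (A : ∀ f : CS, f.ok G = true → Hd (val S) (f.cl G))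
    (A2 : ∀ f : CI, f.ok G = true → Hd (val S) (f.cl G)) (hU : ∀ c ∈ units, Hd (val S) c) :
    Hd (val S) [20, 38, 1424, 1426, 1440, 1811, 2518] :=
  stu_sound A A2 hU i226

theorem i227 : stu G units []
    [.initX 0 2 2 1]
    [20, 38, 1424, 1426, 1440, 1865, 2518] 0x4eb3a42d02c92c801319118c18918117c18600a
    [[0,3], [4], [6], [2], [8], [10], [12], [1], [15], [17], [19], [21], [22], [25]]
    13 4 4 1
    (.leaf 0x8000000000800200000040000008000001000000008000000040000008000001000000080000080000010004001)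
    [0x148] 14 14 = true := by
  decide +kernel

theorem j227 (A : ∀ f : CS, f.ok G = true → Hd (val S) (f.cl G))
    (A2 : ∀ f : CI, f.ok G = true → Hd (val S) (f.cl G)) (hU : ∀ c ∈ units, Hd (val S) c) :
    Hd (val S) [20, 38, 1424, 1426, 1440, 1865, 2518] :=
  stu_sound A A2 hU i227

theorem i228 : stu G units []
    [.initX 0 2 2 1]
    [20, 1416, 1436, 1446, 2519, 2296, 2302] 0x47f47c4eb2d32ce2c419118c18918117c18600a
    [[0,3], [4], [6], [2], [8], [10], [12], [1], [15], [17], [19], [20], [23], [25]]
    13 4 4 1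
    (.leaf 0x8000001000000000100040000008000001000000008000000040000008000001000000080000080000010004001)
    [0x148] 14 14 = true := by
  decide +kernel

theorem j228 (A : ∀ f : CS, f.ok G = true → Hd (val S) (f.cl G))
    (A2 : ∀ f : CI, f.ok G = true → Hd (val S) (f.cl G)) (hU : ∀ c ∈ units, Hd (val S) c) :
    Hd (val S) [20, 1416, 1436, 1446, 2519, 2296, 2302] :=
  stu_sound A A2 hU i228

theorem i229 : stu G units []
    [.initX 0 3 1 1]
    [24, 26, 1416, 1432, 2519, 2296] 0x47c4eb2cc2c400c19118c18618117c18900d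
    [[0,3], [4], [6], [8], [2], [10], [12], [15], [1], [17], [19], [20], [23]]
    12 4 6 1
    (.leaf 0x1800000000400200000100000001000080000000040000020000002000010000008000004002001)
    [0x9e015] 13 14 = true := by
  decide +kernel

theorem j229 (A : ∀ f : CS, f.ok G = true → Hd (val S) (f.cl G))
    (A2 : ∀ f : CI, f.ok G = true → Hd (val S) (f.cl G)) (hU : ∀ c ∈ units, Hd (val S) c) :
    Hd (val S) [24, 26, 1416, 1432, 2519, 2296] :=
  stu_sound A A2 hU i229

theorem i230 : stu G units []
    [.initX 0 3 1 1]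
    [24, 26, 1432, 2519, 2302] 0x47f4eb2cc00c19118c18618117c18900d
    [[0,3], [4], [6], [8], [2], [10], [12], [15], [1], [17], [18], [21]]
    11 4 4 1
    (.leaf 0x800000002002000000080010000000040000080000020000400000800001001001)
    [0x195] 12 12 = true := by
  decide +kernel

theorem j230 (A : ∀ f : CS, f.ok G = true → Hd (val S) (f.cl G))
    (A2 : ∀ f : CI, f.ok G = true → Hd (val S) (f.cl G)) (hU : ∀ c ∈ units, Hd (val S) c) :
    Hd (val S) [24, 26, 1432, 2519, 2302] :=
  stu_sound A A2 hU i230

theorem i231 : stu G units []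
    [.initX 0 3 1 1]
    [26, 38, 396, 408, 618, 1314] 0x2911350cc0c601319118c18618117c18900d
    [[0,3], [4], [6], [8], [2], [10], [12], [1], [15], [17], [19], [21], [23]]
    12 4 6 1
    (.leaf 0x1800000400000200000100000080000001000000040000020000002000010000008000004002001)
    [0x8e015] 13 14 = true := by
  decide +kernel

theorem j231 (A : ∀ f : CS, f.ok G = true → Hd (val S) (f.cl G))
    (A2 : ∀ f : CI, f.ok G = true → Hd (val S) (f.cl G)) (hU : ∀ c ∈ units, Hd (val S) c) :
    Hd (val S) [26, 38, 396, 408, 618, 1314] :=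
  stu_sound A A2 hU i231

theorem i232 : stu G units []
    [.initX 0 3 1 1]
    [26, 38, 397, 602, 612, 1314] 0x29113212d0c601319118c18618117c18900d
    [[0,3], [4], [6], [8], [2], [10], [12], [1], [15], [16], [19], [21], [23]]
    12 4 6 1
    (.leaf 0x1800000400000200000000100080000001000000040000020000002000010000008000004002001)
    [0x8e015] 13 14 = true := by
  decide +kernel

theorem j232 (A : ∀ f : CS, f.ok G = true → Hd (val S) (f.cl G))
    (A2 : ∀ f : CI, f.ok G = true → Hd (val S) (f.cl G)) (hU : ∀ c ∈ units, Hd (val S) c) :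
    Hd (val S) [26, 38, 397, 602, 612, 1314] :=
  stu_sound A A2 hU i232

theorem i233 : stu G units []
    [.initX 0 4 0 1]
    [30, 32, 38, 396, 408, 618] 0x1350cc0c601300f19118918618117c18c010
    [[0,3], [4], [6], [8], [10], [2], [12], [15], [1], [17], [19], [21], [23]]
    12 4 6 1
    (.leaf 0x1800000400000200000100000001000080000000040000002000020000010000008000004002001)
    [0x9e016] 13 14 = true := by
  decide +kernel

theorem j233 (A : ∀ f : CS, f.ok G = true → Hd (val S) (f.cl G))
    (A2 : ∀ f : CI, f.ok G = true → Hd (val S) (f.cl G)) (hU : ∀ c ∈ units, Hd (val S) c) :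
    Hd (val S) [30, 32, 38, 396, 408, 618] :=
  stu_sound A A2 hU i233

theorem i234 : stu G units []
    [.initX 0 4 0 1]
    [30, 32, 390, 397, 612, 1317] 0x2921320c60c300f19118918618117c18c010
    [[0,3], [4], [6], [8], [10], [2], [12], [15], [1], [17], [18], [21], [22]]
    12 4 6 1
    (.leaf 0x1000800400000000200100000001000080000000040000002000020000010000008000004002001)
    [0x9e016] 13 14 = true := by
  decide +kernel

theorem j234 (A : ∀ f : CS, f.ok G = true → Hd (val S) (f.cl G))
    (A2 : ∀ f : CI, f.ok G = true → Hd (val S) (f.cl G)) (hU : ∀ c ∈ units, Hd (val S) c) :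
    Hd (val S) [30, 32, 390, 397, 612, 1317] :=
  stu_sound A A2 hU i234

theorem i235 : stu G units []
    [.initX 0 4 0 1]
    [32, 34, 38, 1426, 1428, 1436, 2290] 0x4792ce2ca2c901301119118918618117c18c010
    [[0,3], [4], [6], [8], [10], [2], [12], [1], [15], [17], [19], [21], [23], [25]]
    13 4 4 1
    (.leaf 0x8000001000000200000040000008000001000000008000000040000000800002000000400000080000010004001)
    [0x168] 14 14 = true := by
  decide +kernel

theorem j235 (A : ∀ f : CS, f.ok G = true → Hd (val S) (f.cl G))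
    (A2 : ∀ f : CI, f.ok G = true → Hd (val S) (f.cl G)) (hU : ∀ c ∈ units, Hd (val S) c) :
    Hd (val S) [32, 34, 38, 1426, 1428, 1436, 2290] :=
  stu_sound A A2 hU i235

theorem i236 : stu G units []
    [.initX 0 4 0 1]
    [32, 34, 38, 1442, 1452, 2290, 2519] 0x4eb4792d62d101301119118918618117c18c010
    [[0,3], [4], [6], [8], [10], [2], [12], [1], [15], [17], [19], [21], [23], [24]]
    13 4 4 1
    (.leaf 0x4001000000200000040000008000001000000008000000040000000800002000000400000080000010004001)
    [0x168] 14 14 = true := by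
  decide +kernel

theorem j236 (A : ∀ f : CS, f.ok G = true → Hd (val S) (f.cl G))
    (A2 : ∀ f : CI, f.ok G = true → Hd (val S) (f.cl G)) (hU : ∀ c ∈ units, Hd (val S) c) :
    Hd (val S) [32, 34, 38, 1442, 1452, 2290, 2519] :=
  stu_sound A A2 hU i236

theorem i237 : stu G units []
    [.initX 0 4 0 1]
    [32, 34, 391, 1876, 2519] 0x4eb3aa0c301119118918618117c18c010
    [[0,3], [4], [6], [8], [10], [2], [12], [1], [15], [16], [19], [20]]
    11 4 4 1
    (.leaf 0x1001000000004004000000200000040000008000200000400000800001001001)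
    [0x186] 12 12 = true := by
  decide +kernel

theorem j237 (A : ∀ f : CS, f.ok G = true → Hd (val S) (f.cl G))
    (A2 : ∀ f : CI, f.ok G = true → Hd (val S) (f.cl G)) (hU : ∀ c ∈ units, Hd (val S) c) :
    Hd (val S) [32, 34, 391, 1876, 2519] :=
  stu_sound A A2 hU i237

theorem i238 : stu G units []
    [.initX 0 4 0 1]
    [32, 34, 396, 426, 618, 1317] 0x2921350d50c601119118918618117c18c010
    [[0,3], [4], [6], [8], [10], [2], [12], [1], [15], [17], [19], [21], [22]]
    12 4 6 1
    (.leaf 0x1000800400000200000100000080000001000000040000002000020000010000008000004002001)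
    [0x8e016] 13 14 = true := by
  decide +kernel

theorem j238 (A : ∀ f : CS, f.ok G = true → Hd (val S) (f.cl G))
    (A2 : ∀ f : CI, f.ok G = true → Hd (val S) (f.cl G)) (hU : ∀ c ∈ units, Hd (val S) c) :
    Hd (val S) [32, 34, 396, 426, 618, 1317] :=
  stu_sound A A2 hU i238

theorem i239 : stu G units []
    [.initX 0 4 0 1]
    [32, 36, 38, 396, 492] 0xf60c601301219118918618117c18c010
    [[0,3], [4], [6], [8], [10], [2], [12], [1], [15], [17], [19], [21]]
    11 4 4 1
    (.leaf 0x800001000002000004000000200000040000008000200000400000800001001001)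
    [0x186] 12 12 = true := by
  decide +kernel

theorem j239 (A : ∀ f : CS, f.ok G = true → Hd (val S) (f.cl G))
    (A2 : ∀ f : CI, f.ok G = true → Hd (val S) (f.cl G)) (hU : ∀ c ∈ units, Hd (val S) c) :
    Hd (val S) [32, 36, 38, 396, 492] :=
  stu_sound A A2 hU i239

theorem i240 : stu G units []
    [.initX 0 4 0 1]
    [32, 396, 408, 492, 1317] 0x2920f60cc0c619118918618117c18c010
    [[0,3], [4], [6], [8], [10], [2], [12], [1], [15], [17], [19], [20]]
    11 4 4 1
    (.leaf 0x1001000002000004000000200000040000008000200000400000800001001001)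
    [0x186] 12 12 = true := by
  decide +kernel

theorem j240 (A : ∀ f : CS, f.ok G = true → Hd (val S) (f.cl G))
    (A2 : ∀ f : CI, f.ok G = true → Hd (val S) (f.cl G)) (hU : ∀ c ∈ units, Hd (val S) c) :
    Hd (val S) [32, 396, 408, 492, 1317] :=
  stu_sound A A2 hU i240

theorem i241 : stu G units []
    [.initX 0 4 0 1]
    [32, 396, 1440, 1442, 1894, 1317, 2519] 0x4eb2923b32d12d00c619118918618117c18c010
    [[0,3], [4], [6], [8], [10], [2], [12], [1], [15], [17], [19], [21], [22], [24]]
    13 4 4 1
    (.leaf 0x4000000800200000040000008000001000000008000000040000000800002000000400000080000010004001)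
    [0x168] 14 14 = true := by
  decide +kernel

theorem j241 (A : ∀ f : CS, f.ok G = true → Hd (val S) (f.cl G))
    (A2 : ∀ f : CI, f.ok G = true → Hd (val S) (f.cl G)) (hU : ∀ c ∈ units, Hd (val S) c) :
    Hd (val S) [32, 396, 1440, 1442, 1894, 1317, 2519] :=
  stu_sound A A2 hU i241

theorem i242 : stu G units []
    [.initX 0 4 0 1]
    [32, 1317, 2288, 2519, 2302] 0x47f4eb47829219118918618117c18c010
    [[0,3], [4], [6], [8], [10], [2], [12], [1], [14], [17], [18], [21]]
    11 4 4 1
    (.leaf 0x800000002002000000008000200000040000008000200000400000800001001001)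
    [0x186] 12 12 = true := by
  decide +kernel

theorem j242 (A : ∀ f : CS, f.ok G = true → Hd (val S) (f.cl G))
    (A2 : ∀ f : CI, f.ok G = true → Hd (val S) (f.cl G)) (hU : ∀ c ∈ units, Hd (val S) c) :
    Hd (val S) [32, 1317, 2288, 2519, 2302] :=
  stu_sound A A2 hU i242

theorem i243 : stu G units []
    [.initX 0 5 1 1]
    [38, 42, 1408, 1422, 1434, 1436, 2288] 0x4782ce2cd2c72c001318c18918618117c191015
    [[0,3], [4], [6], [8], [10], [12], [2], [15], [1], [17], [19], [21], [23], [25]]
    13 4 4 1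
    (.leaf 0x8000001000000200000040000008000000020000400000000002000010000002000000400000080000010004001)
    [0x179] 14 14 = true := by
  decide +kernel

theorem j243 (A : ∀ f : CS, f.ok G = true → Hd (val S) (f.cl G))
    (A2 : ∀ f : CI, f.ok G = true → Hd (val S) (f.cl G)) (hU : ∀ c ∈ units, Hd (val S) c) :
    Hd (val S) [38, 42, 1408, 1422, 1434, 1436, 2288] :=
  stu_sound A A2 hU i243

theorem i244 : stu G units [.legal2 0 1 1 1 3]
    [.initX 0 1 1 1]
    [38, 1408, 1412, 1423, 1436, 1452, 1811, 1865, 2290, 2519] 0x4eb4793a43892d62ce2c22c001319118c18918617c1812c7005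
    [[1,3], [0,5], [6], [4], [8], [10], [12], [14], [17], [19], [21], [2], [23], [25], [26], [28], [31], [32]]
    17 5 7 1
    (.leaf 0x1000040001000000000000100000000200008000000010000000000000008080000000100000000200000000000020000000040000000080000000100000000100000000800020000400060000)
    [0x2c98044] 18 19 = true := by
  decide +kernel

theorem j244 (A : ∀ f : CS, f.ok G = true → Hd (val S) (f.cl G))
    (A2 : ∀ f : CI, f.ok G = true → Hd (val S) (f.cl G)) (hU : ∀ c ∈ units, Hd (val S) c) :
    Hd (val S) [38, 1408, 1412, 1423, 1436, 1452, 1811, 1865, 2290, 2519] :=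
  stu_sound A A2 hU i244

theorem i245 : stu G units [.some 1 2, .legal2 0 1 2 2 0, .legal2 0 1 2 2 2]
    [.initX 0 2 2 1]
    [38, 1408, 1412, 1424, 1426, 1430, 1452, 1865, 2294] 0x47b3a42d62c22c001319118c18918117c18600a2cb2ca2c92c8
    [[0,2,4,6], [9,1], [9,5], [8,11], [12], [14], [10], [16], [18], [20], [23], [25], [27], [1], [3], [7], [29], [30], [33]]
    17 5 15 1
    (.leaf 0x80000000800000000000420000000000002000080000000000400000000400000000800004000000008000000010000000000001000000002000000004000000002000000020000000040001000040002800000008800000000000f)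
    [0x307daa015003a0087] 19 22 = true := by
  decide +kernel

theorem j245 (A : ∀ f : CS, f.ok G = true → Hd (val S) (f.cl G))
    (A2 : ∀ f : CI, f.ok G = true → Hd (val S) (f.cl G)) (hU : ∀ c ∈ units, Hd (val S) c) :
    Hd (val S) [38, 1408, 1412, 1424, 1426, 1430, 1452, 1865, 2294] :=
  stu_sound A A2 hU i245

theorem i246 : stu G units []
    [.initX 0 5 1 1]
    [40, 42, 1450, 2522] 0x4ed2d501418c18918618117c191015
    [[0,3], [4], [6], [8], [10], [12], [2], [15], [1], [17], [19]]
    10 4 4 1
    (.leaf 0x8000040000004002000000002000400002000010000080000400801)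
    [0x197] 11 11 = true := by
  decide +kernel

theorem j246 (A : ∀ f : CS, f.ok G = true → Hd (val S) (f.cl G))
    (A2 : ∀ f : CI, f.ok G = true → Hd (val S) (f.cl G)) (hU : ∀ c ∈ units, Hd (val S) c) :
    Hd (val S) [40, 42, 1450, 2522] :=
  stu_sound A A2 hU i246

theorem i247 : stu G units [.some 1 1, .some 1 2, .some 1 5, .legal 1 1 1, .legal2 0 1 1 1 3, .legal2 0 1 2 2 0, .legal2 0 1 2 2 2, .legal2 0 1 5 1 3, .mix 1 0 3 2, .mix 1 0 3 5, .mix 1 1 3 2, .mix 1 1 3 5, .letlab 1 2 1 2, .letlab 1 5 0 0, .letlab 1 5 0 3]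
    [.initX 0 1 1 1, .initX 0 2 2 1, .initX 0 5 1 1]
    [44, 1416, 1420, 1432, 1434, 1448, 1450, 2288, 2294] 0x47b4782cd2cc01618c18917c1911861813b33aa3e038f3e938601500a0052d72d62d52d42cb2ca2c92c82c72c62c52c4
    [[0,2,4,6], [8,10,12,14], [16,18,20,22], [3,11], [25,7], [27,9], [27,13], [29,23], [31,33], [35,37], [39,33], [41,37], [15,36,32], [21,34,40], [21,30,38], [24,43], [26,45], [28,47], [48], [42], [44], [50], [52], [46], [55], [1], [5], [57], [59], [17], [19], [61], [63]]
    32 6 59 1
    (.leaf 0x10000000000000000200000000000000000000000400000001000000000000000000000000040000000000000000800000002000000000000000000000000200000800000000000000000000004000000000400000000000000010000000000000000000002000000000080000000000000000000010008000000000000000400000000000000000000200000000000000010000000000200000000000000010000000000000000000000400000000000000010000000008000000000000000000000000800000000000000400000000000000020000000000000000400000000000000020000000000000010000000080000000004000004000000000200000200000000010000000040000088000000004000012000000000080000500000014000000000000000900000000000000060000000000000001800000000000000048000000000000002040000000000000201000000000000010080000000000000022000000000000000000000f0000000000000000f0000000000000000f)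
    [0x3acc2f00cb802ae00daed00f2c9b000e879f002966a801290018da6c02270126001e4006900455005880414] 33 48 = true := by
  decide +kernel

theorem j247 (A : ∀ f : CS, f.ok G = true → Hd (val S) (f.cl G))
    (A2 : ∀ f : CI, f.ok G = true → Hd (val S) (f.cl G)) (hU : ∀ c ∈ units, Hd (val S) c) :
    Hd (val S) [44, 1416, 1420, 1432, 1434, 1448, 1450, 2288, 2294] :=
  stu_sound A A2 hU i247

theorem i248 : stu G units [.letlab 0 2 0 1]
    [.initX 0 2 2 1]
    [396, 414] 0x19118c18918117c1860cf0c600a
    [[1,2,4], [0,7], [8], [10], [6], [12], [14], [16], [3], [5]]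
    9 4 10 1
    (.leaf 0x100001020000400004000080001000008000800010040040206)
    [0xac01b9025] 10 12 = true := by
  decide +kernel

theorem j248 (A : ∀ f : CS, f.ok G = true → Hd (val S) (f.cl G))
    (A2 : ∀ f : CI, f.ok G = true → Hd (val S) (f.cl G)) (hU : ∀ c ∈ units, Hd (val S) c) :
    Hd (val S) [396, 414] :=
  stu_sound A A2 hU i248

theorem i249 : stu G units [.legal2 0 1 4 0 3]
    [.initX 0 4 0 1]
    [1408, 1412, 1447, 1448, 1793, 2288] 0x4783802d42c22c019118918618117c18c2d3010
    [[1,3], [0,5], [6], [8], [10], [12], [4], [14], [17], [19], [2], [21], [22], [25]]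
    13 5 7 1
    (.leaf 0x18000000000800200000000000210000002000000000200000004000010000002000000400000080020004006000)
    [0x2f58047] 14 15 = true := by
  decide +kernel

theorem j249 (A : ∀ f : CS, f.ok G = true → Hd (val S) (f.cl G))
    (A2 : ∀ f : CI, f.ok G = true → Hd (val S) (f.cl G)) (hU : ∀ c ∈ units, Hd (val S) c) :
    Hd (val S) [1408, 1412, 1447, 1448, 1793, 2288] :=
  stu_sound A A2 hU i249

theorem i250 : stu G units [.some 1 2, .legal2 0 1 2 2 0, .legal2 0 1 2 2 2]
    [.initX 0 2 2 1]
    [1424, 1426, 1430, 2288, 2294] 0x47b47819118c18918117c18600a2cb2ca2c92c8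
    [[0,2,4,6], [9,1], [9,5], [8,11], [12], [14], [10], [16], [18], [20], [1], [3], [7], [23], [25]]
    13 5 15 1
    (.leaf 0x80000080000000042000000400000001000000100000020000001000000200000040000002000002000000400100040028000008800000000f)
    [0x2c6c6401400380087] 15 18 = true := by
  decide +kernel

theorem j250 (A : ∀ f : CS, f.ok G = true → Hd (val S) (f.cl G))
    (A2 : ∀ f : CI, f.ok G = true → Hd (val S) (f.cl G)) (hU : ∀ c ∈ units, Hd (val S) c) :
    Hd (val S) [1424, 1426, 1430, 2288, 2294] :=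
  stu_sound A A2 hU i250

theorem i251 : stu G units [.legal2 0 1 4 0 3]
    [.initX 0 4 0 1]
    [1447, 1448, 1450, 1793, 2288, 2518] 0x4eb4783802d52d419118918618117c18c2d3010
    [[1,3], [0,5], [6], [8], [10], [12], [4], [14], [2], [17], [19], [20], [23], [25]]
    13 5 7 1
    (.leaf 0x18000001000000000100040000008000000000020000200000004000010000002000000400000080020004006000)
    [0x2f48047] 14 15 = true := by
  decide +kernel

theorem j251 (A : ∀ f : CS, f.ok G = true → Hd (val S) (f.cl G))
    (A2 : ∀ f : CI, f.ok G = true → Hd (val S) (f.cl G)) (hU : ∀ c ∈ units, Hd (val S) c) :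
    Hd (val S) [1447, 1448, 1450, 1793, 2288, 2518] :=
  stu_sound A A2 hU i251

/-- clauses which hold at the start -/
def E : List (List ℕ) :=
  [[763],
   [765],
   [767],
   [769],
   [773],
   [775],
   [777],
   [779],
   [783],
   [785],
   [789],
   [791],
   [795],
   [797],
   [799],
   [801],
   [805],
   [807],
   [38, 44, 396, 1408, 1410, 1423, 1424, 1428, 1436, 2296],
   [0, 38, 451, 1408, 1412, 1436, 1452, 1793, 1883, 2519, 2294],
   [20, 38, 415, 1408, 1410, 1424, 1426, 1434],
   [0, 31, 44, 451, 1408, 1410, 2296],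
   [8, 10, 14, 1424, 1426, 1434, 1448, 2308],
   [20, 38, 1410, 1412, 1422, 1424, 1434],
   [32, 34, 38, 396, 1408, 1410, 1424, 1426],
   [0, 6, 8, 12, 38, 1416, 1314, 2519, 2302],
   [0, 2, 1408, 1317, 2519],
   [0, 30, 38, 1408, 1410, 1423, 1424, 1428, 1436, 2519, 2296],
   [0, 6, 38, 390, 397, 450, 1314],
   [0, 10, 30, 38, 397, 450, 602],
   [0, 10, 30, 390, 397, 450, 1317],
   [20, 24, 26, 1410, 1412, 1422],
   [20, 1408, 1410, 1426, 1317, 2519, 2302],
   [0, 6, 12, 30, 38, 1416, 2519, 2302],
   [32, 1436, 1452, 1317, 2519, 2302],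
   [10, 12, 30, 32, 1416, 1317, 2519, 2302],
   [32, 34, 1423, 1424, 1436, 1317, 2288, 2519],
   [32, 34, 1408, 1410, 1440, 1317, 2288, 2519],
   [16, 20, 38, 1410, 1412, 1422, 2519, 2302],
   [14, 32, 390, 408, 1410, 1412, 1317, 2519, 2302],
   [32, 34, 38, 1410, 1412, 1422, 1424],
   [8, 10, 14, 1418, 1428, 1450, 1793, 2308, 2296],
   [8, 10, 14, 1424, 1428, 1436, 1442, 2296],
   [0, 20, 38, 451, 1424, 1426, 1434, 1793, 1883, 2290],
   [0, 6, 8, 38, 44, 451, 1416, 1424, 1428, 1436, 1448, 1793, 1883, 2290],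
   [8, 10, 14, 1424, 1426, 1434, 1793, 1883, 2290],
   [0, 20, 38, 451, 1408, 1410, 1424, 1426, 1440],
   [14, 16, 20, 34, 38, 1412, 1416, 1426, 1436, 2308],
   [0, 20, 38, 451, 1408, 1412, 1424, 1426, 1452, 1793, 1883, 2296],
   [0, 12, 14, 20, 34, 397, 1408, 1416, 1317, 2290, 2519],
   [8, 10, 14, 16, 1412, 1424, 1426, 1432, 2290, 2519],
   [8, 10, 14, 26, 1412, 1424, 1436, 1314, 2290, 2519],
   [32, 44, 1408, 1412, 1452, 1317, 2288, 2519],
   [14, 16, 20, 30, 38, 1424, 1426, 1450, 2290, 2519],
   [8, 10, 14, 32, 1424, 1426, 1450, 1793, 1883, 2290],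
   [16, 20, 38, 390, 397, 1408, 1410, 1424, 1426, 2290, 2519],
   [0, 44, 1408, 1412, 1422, 1448, 1317, 2290, 2519],
   [10, 12, 14, 20, 38, 1410, 1412, 1424, 2290, 2519],
   [14, 16, 20, 30, 38, 1410, 1412, 1436, 1450, 2290, 2519],
   [32, 34, 1408, 1410, 1424, 1430, 1436, 1317, 2290, 2519],
   [14, 16, 20, 30, 38, 1416, 1436, 2290, 2519, 2296],
   [0, 6, 8, 14, 16, 30, 1436, 1450, 2290, 2519],
   [0, 38, 44, 1408, 1412, 1422, 2290, 2519],
   [16, 20, 38, 396, 408, 1408, 1410, 1424, 1426, 2290, 2519],
   [32, 44, 1408, 1412, 1422, 1436, 1317, 2290, 2519],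
   [8, 10, 14, 26, 30, 1424, 1428, 1436, 2290],
   [14, 16, 20, 38, 1424, 1426, 2290, 2519, 2296],
   [12, 14, 32, 1412, 1424, 1426, 1430, 1317, 2290, 2519],
   [2, 12, 14, 20, 32, 1408, 1416, 1317, 2290, 2519],
   [32, 34, 44, 1408, 1412, 1424, 1436, 1452, 1317, 2290, 2519],
   [0, 16, 20, 30, 38, 1408, 1410, 1424, 1426, 1440],
   [0, 16, 20, 38, 1408, 1410, 1424, 1426, 1434, 1314],
   [0, 8, 14, 26, 38, 1408, 1410, 1424, 1426, 1434, 1314],
   [10, 12, 14, 20, 34, 1410, 1412, 1428, 1317, 2519, 2296],
   [14, 20, 1412, 1416, 1424, 1428, 2308, 2296],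
   [10, 14, 20, 499, 1410, 1412, 1811, 1865, 1317, 2519],
   [2, 6, 10, 14, 26, 44, 1436, 1448, 1314, 2296],
   [0, 14, 20, 38, 396, 408, 1408, 1410, 1426, 2290, 2519],
   [26, 30, 34, 1422, 1430, 1436, 1317, 2290, 2519],
   [0, 6, 14, 20, 396, 499, 1410, 1412, 1446, 1317, 2519],
   [7, 16, 20, 396, 499, 1446, 1317, 2519],
   [0, 6, 14, 20, 396, 499, 1416, 1317, 2290, 2519],
   [10, 14, 20, 390, 1410, 1412, 1428, 1434, 1793, 1317],
   [0, 6, 8, 14, 26, 30, 1436, 1448, 1450, 2519, 2296],
   [0, 6, 8, 14, 24, 26, 1448, 1314, 2296],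
   [10, 14, 20, 390, 397, 1410, 1412, 1446, 1317, 2519],
   [8, 10, 14, 26, 30, 34, 1436, 1448, 2296],
   [10, 14, 20, 38, 390, 608, 1410, 1412, 2519],
   [14, 20, 26, 30, 38, 1410, 1412, 1436, 2519, 2296],
   [7, 8, 10, 26, 30, 1436, 2519, 2296],
   [8, 10, 14, 26, 1410, 1412, 1436, 1314, 2519, 2296],
   [0, 6, 14, 20, 38, 390, 397, 1416, 2290, 2519],
   [1105, 32],
   [0, 2, 38, 1408, 1434],
   [0, 2, 1408, 2519, 2302],
   [0, 6, 40, 1408, 1412, 2519, 2294],
   [0, 32, 38, 396, 492],
   [2, 6, 10, 397, 1416, 1822, 2519, 2302],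
   [6, 8, 10, 14, 1408, 1412, 1436, 1452, 2290],
   [8, 10, 12, 397, 1416, 1446, 1822, 2519],
   [8, 10, 12, 397, 1416, 1446, 1876, 2519],
   [8, 10, 12, 1416, 1446, 2288, 2519, 2294],
   [8, 10, 14, 18, 32, 1426, 1436, 2296],
   [8, 10, 14, 24, 32, 1424, 1426, 1442, 2308],
   [8, 10, 14, 396, 1418, 1428, 1450, 2517, 2308, 2296],
   [8, 10, 14, 396, 1418, 1804, 2517, 2308],
   [8, 10, 14, 396, 1418, 1894, 2517, 2308],
   [8, 10, 14, 1408, 1410, 1418, 1434, 2517, 2290, 2308, 2296],
   [8, 10, 14, 1412, 1418, 1428, 2308, 2519, 2294],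
   [8, 10, 14, 1412, 1418, 1434, 1793, 2308, 2296],
   [8, 10, 14, 1418, 1428, 1450, 1883, 1943, 2308, 2296],
   [8, 10, 14, 1418, 1428, 2517, 2290, 2308, 2294],
   [8, 10, 14, 1432, 1434, 1448, 1450, 2290, 2296],
   [8, 10, 391, 1418, 1876, 2517, 2308],
   [10, 38, 44, 1408, 1410, 1440, 2290, 2296],
   [10, 38, 396, 1408, 1412, 1452, 2290, 2519, 2294],
   [10, 38, 1416, 2519, 2296, 2302],
   [10, 44, 1416, 1428, 1436, 1446, 1450, 1811, 2290, 2519, 2294],
   [10, 1408, 1412, 1416, 1432, 1434, 2519, 2296, 2302],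
   [10, 1416, 1448, 1450, 2519, 2294, 2302],
   [14, 20, 38, 1416, 1440, 2288],
   [14, 20, 38, 1426, 1440, 2288],
   [14, 20, 390, 608, 1412, 1414, 1416, 1428, 2516, 2519],
   [14, 20, 396, 1416, 1804, 1894],
   [14, 20, 397, 510, 1410, 1412, 1428, 2516],
   [14, 20, 397, 1416, 1822, 1876],
   [14, 20, 439, 499, 1412, 1416, 1428, 2288],
   [14, 20, 499, 1410, 1436, 1446, 2519, 2302],
   [14, 20, 1410, 1412, 1428, 1942, 2062, 2288],
   [14, 20, 1412, 1416, 1428, 1865, 2288],
   [14, 20, 1412, 1416, 1428, 1942, 1954, 2516],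
   [14, 20, 1412, 1416, 1450, 1793, 2288],
   [14, 20, 1412, 1416, 1450, 1865, 2294],
   [14, 20, 1412, 1416, 1450, 1883, 2518],
   [14, 20, 1412, 1416, 1450, 1942, 2062, 2518],
   [14, 20, 1416, 1428, 1434, 2294],
   [14, 20, 1416, 1428, 1937, 1990, 2288],
   [14, 1408, 1410, 1423, 1428, 2517, 2288, 2308],
   [16, 20, 34, 38, 1408, 1410, 1426, 1442, 2308],
   [20, 38, 397, 1408, 1410, 1424, 1426, 1440, 2296],
   [20, 38, 397, 1424, 1426, 1434, 2288],
   [20, 38, 1408, 1410, 1424, 1426, 1434, 2296],
   [20, 38, 1408, 1412, 1422, 1426, 1440, 2290, 2519],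
   [20, 38, 1408, 1412, 1422, 1426, 1452, 1811],
   [20, 38, 1408, 1412, 1424, 1426, 1452, 1811, 1865, 2296],
   [20, 38, 1410, 1412, 1422, 1440, 2296],
   [20, 38, 1410, 1422, 1436, 2519, 2302],
   [20, 38, 1416, 2519, 2296, 2302],
   [20, 38, 1424, 1426, 1440, 1793, 2518],
   [20, 38, 1424, 1426, 1440, 1883, 2518],
   [20, 38, 1424, 1426, 1440, 2519, 2294],
   [20, 391, 510, 1412, 1428, 1436, 2516],
   [20, 1412, 1416, 1422, 1428, 1434, 1450, 2296],
   [20, 1412, 1424, 1426, 1793, 1883, 2288, 2296],
   [20, 1412, 1428, 1436, 1446, 1883, 2288],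
   [20, 1416, 1428, 1434, 1448, 1450, 2519, 2296, 2302],
   [20, 1416, 1428, 1434, 2519, 2294, 2302],
   [20, 1436, 1446, 2290, 2519, 2302],
   [24, 26, 1432, 2290, 2519],
   [26, 36, 38, 439],
   [30, 32, 38, 390, 397, 612],
   [32, 34, 38, 1410, 1412, 1424, 1426, 1452],
   [32, 36, 38, 397, 510],
   [32, 36, 397, 510, 1317],
   [32, 36, 439, 1317],
   [32, 390, 397, 1440, 1442, 1822, 1317, 2519],
   [32, 1452, 1317, 2290, 2519, 2302],
   [38, 1408, 1410, 1424, 1426, 1430, 1434, 2290],
   [1408, 1412, 1416, 1420, 1424, 1428, 2519, 2296, 2302],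
   [1412, 1420, 1430, 1432, 1442, 1446, 1452, 2519, 2302],
   [1416, 1418, 1420, 1428, 1432, 2288, 2519, 2302],
   [0, 2, 38, 1408, 2519],
   [0, 2, 1408, 1446, 2519],
   [0, 6, 8, 14, 1408, 1410, 1440, 2296],
   [0, 6, 8, 14, 1408, 1412, 1452, 2308],
   [0, 6, 8, 397, 1416, 1822, 2519, 2302],
   [0, 32, 391, 510],
   [0, 38, 44, 1408, 1410, 1436, 1440, 2290],
   [2, 6, 10, 14, 1408, 1410, 1436, 1450, 2290],
   [2, 6, 10, 14, 1408, 1410, 1440, 2296],
   [2, 6, 10, 14, 1408, 1412, 1452, 2308],
   [2, 6, 42, 1408, 1412, 2519, 2294],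
   [8, 10, 12, 20, 1426, 1436, 2288, 2518],
   [8, 10, 12, 396, 1416, 1446, 1804, 2519],
   [8, 10, 12, 396, 1416, 1446, 1894, 2519],
   [8, 10, 12, 397, 1412, 1416, 1448, 1793, 2288, 2519],
   [8, 10, 12, 1408, 1410, 1416, 1428, 1446, 2288, 2519],
   [8, 10, 14, 1412, 1418, 1424, 2290, 2308, 2294],
   [8, 10, 14, 1412, 1418, 1428, 2517, 2290, 2308],
   [8, 10, 14, 1412, 1418, 2517, 2288, 2308],
   [8, 10, 14, 1412, 1428, 2517, 2288, 2519],
   [8, 10, 14, 1418, 1434, 1450, 2290, 2308],
   [8, 10, 14, 1424, 1426, 1440, 2296],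
   [8, 10, 14, 1424, 1428, 1436, 1793, 1883, 2290],
   [8, 10, 38, 1416, 1434, 1436, 1811, 1865, 2288],
   [8, 10, 391, 1418, 1822, 2517, 2308],
   [8, 10, 396, 1416, 1894, 2519, 2302],
   [8, 10, 397, 1416, 1876, 2519, 2302],
   [8, 10, 1416, 1424, 1428, 2519, 2294, 2302],
   [10, 12, 38, 44, 397, 1408, 1412, 1452, 2290, 2519],
   [10, 14, 390, 1410, 1412, 1418, 1432, 1434, 2308, 2296],
   [10, 38, 1408, 1410, 1416, 2519, 2302],
   [10, 1408, 1412, 1416, 2519, 2294, 2302],
   [10, 1416, 1424, 1428, 1448, 1450, 2519, 2296, 2302],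
   [12, 396, 1416, 1418, 1420, 1804, 2519, 2302],
   [14, 20, 38, 1408, 1410, 1416, 1428, 1440, 2308],
   [14, 20, 38, 1416, 1434, 2294],
   [14, 20, 517, 1410, 1436, 1446, 2519, 2302],
   [14, 20, 1410, 1412, 1414, 1428, 2517, 2288, 2519],
   [14, 20, 1412, 1414, 1416, 1450, 2519, 2294],
   [14, 20, 1412, 1416, 1428, 1936, 1943, 2288],
   [14, 20, 1412, 1416, 1428, 1942, 1972, 2288],
   [14, 20, 1412, 1416, 1432, 1434, 1450, 2308, 2296],
   [14, 20, 1412, 1416, 1450, 1793, 2294],
   [14, 20, 1412, 1416, 1793, 2288, 2296],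
   [14, 20, 1416, 1418, 1426, 1450, 2517, 2290, 2308, 2296],
   [14, 20, 1416, 1418, 2308, 2519, 2302],
   [14, 20, 1416, 1448, 1450, 1811, 2518],
   [14, 24, 26, 1416, 1432, 2308],
   [14, 24, 32, 38, 1410, 1424, 1426, 1442, 2308],
   [16, 20, 38, 1424, 1426, 1432, 2288],
   [20, 24, 26, 1426, 2519, 2294],
   [20, 38, 1408, 1416, 1422, 1428, 1440],
   [20, 38, 1412, 2516, 2519, 2294],
   [20, 38, 1416, 1440, 1442, 2518],
   [20, 38, 1424, 1426, 1434, 1811, 2290, 2296],
   [20, 38, 1424, 1426, 1440, 1811, 2518],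
   [20, 38, 1424, 1426, 1440, 1865, 2518],
   [20, 1416, 1436, 1446, 2519, 2296, 2302],
   [24, 26, 1416, 1432, 2519, 2296],
   [24, 26, 1432, 2519, 2302],
   [26, 38, 396, 408, 618, 1314],
   [26, 38, 397, 602, 612, 1314],
   [30, 32, 38, 396, 408, 618],
   [30, 32, 390, 397, 612, 1317],
   [32, 34, 38, 1426, 1428, 1436, 2290],
   [32, 34, 38, 1442, 1452, 2290, 2519],
   [32, 34, 391, 1876, 2519],
   [32, 34, 396, 426, 618, 1317],
   [32, 36, 38, 396, 492],
   [32, 396, 408, 492, 1317],
   [32, 396, 1440, 1442, 1894, 1317, 2519],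
   [32, 1317, 2288, 2519, 2302],
   [38, 42, 1408, 1422, 1434, 1436, 2288],
   [38, 1408, 1412, 1423, 1436, 1452, 1811, 1865, 2290, 2519],
   [38, 1408, 1412, 1424, 1426, 1430, 1452, 1865, 2294],
   [40, 42, 1450, 2522],
   [44, 1416, 1420, 1432, 1434, 1448, 1450, 2288, 2294],
   [396, 414],
   [1408, 1412, 1447, 1448, 1793, 2288],
   [1424, 1426, 1430, 2288, 2294],
   [1447, 1448, 1450, 1793, 2288, 2518]]

theorem ini_ok : ini G [.initX 1 4 0 0, .M0 0 2 1, .M0 0 2 3, .cnt0 1 0 0, .cnt0 1 1 0, .done0 0 2, .first]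
    (units ++ E) B = true := by
  decide +kernel

theorem hE (A : ∀ f : CS, f.ok G = true → Hd (val S) (f.cl G))
    (A2 : ∀ f : CI, f.ok G = true → Hd (val S) (f.cl G)) (hU : ∀ c ∈ units, Hd (val S) c) : ∀ e ∈ E, Hd (val S) e :=
  List.forall_mem_cons.2 ⟨j0 A A2 hU, List.forall_mem_cons.2 ⟨j1 A A2 hU, List.forall_mem_cons.2 ⟨j2 A A2 hU, List.forall_mem_cons.2 ⟨j3 A A2 hU, List.forall_mem_cons.2 ⟨j4 A A2 hU, List.forall_mem_cons.2 ⟨j5 A A2 hU, List.forall_mem_cons.2 ⟨j6 A A2 hU, List.forall_mem_cons.2 ⟨j7 A A2 hU, List.forall_mem_cons.2 ⟨j8 A A2 hU, List.forall_mem_cons.2 ⟨j9 A A2 hU, List.forall_mem_cons.2 ⟨j10 A A2 hU, List.forall_mem_cons.2 ⟨j11 A A2 hU, List.forall_mem_cons.2 ⟨j12 A A2 hU, List.forall_mem_cons.2 ⟨j13 A A2 hU, List.forall_mem_cons.2 ⟨j14 A A2 hU, List.forall_mem_cons.2 ⟨j15 A A2 hU, List.forall_mem_cons.2 ⟨j16 A A2 hU, List.forall_mem_cons.2 ⟨j17 A A2 hU, List.forall_mem_cons.2 ⟨j18 A A2 hU, List.forall_mem_cons.2 ⟨j19 A A2 hU, List.forall_mem_cons.2 ⟨j20 A A2 hU, List.forall_mem_cons.2 ⟨j21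 A A2 hU, List.forall_mem_cons.2 ⟨j22 A A2 hU, List.forall_mem_cons.2 ⟨j23 A A2 hU, List.forall_mem_cons.2 ⟨j24 A A2 hU, List.forall_mem_cons.2 ⟨j25 A A2 hU, List.forall_mem_cons.2 ⟨j26 A A2 hU, List.forall_mem_cons.2 ⟨j27 A A2 hU, List.forall_mem_cons.2 ⟨j28 A A2 hU, List.forall_mem_cons.2 ⟨j29 A A2 hU, List.forall_mem_cons.2 ⟨j30 A A2 hU, List.forall_mem_cons.2 ⟨j31 A A2 hU, List.forall_mem_cons.2 ⟨j32 A A2 hU, List.forall_mem_cons.2 ⟨j33 A A2 hU, List.forall_mem_cons.2 ⟨j34 A A2 hU, List.forall_mem_cons.2 ⟨j35 A A2 hU, List.forall_mem_cons.2 ⟨j36 A A2 hU, List.forall_mem_cons.2 ⟨j37 A A2 hU, List.forall_mem_cons.2 ⟨j38 A A2 hU, List.forall_mem_cons.2 ⟨j39 A A2 hU, List.forall_mem_cons.2 ⟨j40 A A2 hU, List.forall_mem_cons.2 ⟨j41 A A2 hU, List.forall_mem_cons.2 ⟨j42 A A2 hU, List.forall_mem_cons.2 ⟨j43 A A2 hU, List.forall_mem_cons.2 ⟨j44 A A2 hU, List.forall_mem_cons.2 ⟨j45 A A2 hU, List.forall_mem_cons.2 ⟨j46 A A2 hU, List.forall_mem_cons.2 ⟨j47 A A2 hU, List.forall_mem_cons.2 ⟨j48 A A2 hU, List.forall_mem_cons.2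 ⟨j49 A A2 hU, List.forall_mem_cons.2 ⟨j50 A A2 hU, List.forall_mem_cons.2 ⟨j51 A A2 hU, List.forall_mem_cons.2 ⟨j52 A A2 hU, List.forall_mem_cons.2 ⟨j53 A A2 hU, List.forall_mem_cons.2 ⟨j54 A A2 hU, List.forall_mem_cons.2 ⟨j55 A A2 hU, List.forall_mem_cons.2 ⟨j56 A A2 hU, List.forall_mem_cons.2 ⟨j57 A A2 hU, List.forall_mem_cons.2 ⟨j58 A A2 hU, List.forall_mem_cons.2 ⟨j59 A A2 hU, List.forall_mem_cons.2 ⟨j60 A A2 hU, List.forall_mem_cons.2 ⟨j61 A A2 hU, List.forall_mem_cons.2 ⟨j62 A A2 hU, List.forall_mem_cons.2 ⟨j63 A A2 hU, List.forall_mem_cons.2 ⟨j64 A A2 hU, List.forall_mem_cons.2 ⟨j65 A A2 hU, List.forall_mem_cons.2 ⟨j66 A A2 hU, List.forall_mem_cons.2 ⟨j67 A A2 hU, List.forall_mem_cons.2 ⟨j68 A A2 hU, List.forall_mem_cons.2 ⟨j69 A A2 hU, List.forall_mem_cons.2 ⟨j70 A A2 hU, List.forall_mem_cons.2 ⟨j71 A A2 hU, List.forall_mem_cons.2 ⟨j72 A A2 hU, List.forall_mem_cons.2 ⟨j73 A A2 hU, List.forall_mem_cons.2 ⟨j74 A A2 hU, List.forall_mem_cons.2 ⟨j75 A A2 hU, List.forall_mem_cons.2 ⟨j76 A A2 hU, List.forall_mem_cons.2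 ⟨j77 A A2 hU, List.forall_mem_cons.2 ⟨j78 A A2 hU, List.forall_mem_cons.2 ⟨j79 A A2 hU, List.forall_mem_cons.2 ⟨j80 A A2 hU, List.forall_mem_cons.2 ⟨j81 A A2 hU, List.forall_mem_cons.2 ⟨j82 A A2 hU, List.forall_mem_cons.2 ⟨j83 A A2 hU, List.forall_mem_cons.2 ⟨j84 A A2 hU, List.forall_mem_cons.2 ⟨j85 A A2 hU, List.forall_mem_cons.2 ⟨j86 A A2 hU, List.forall_mem_cons.2 ⟨j87 A A2 hU, List.forall_mem_cons.2 ⟨j88 A A2 hU, List.forall_mem_cons.2 ⟨j89 A A2 hU, List.forall_mem_cons.2 ⟨j90 A A2 hU, List.forall_mem_cons.2 ⟨j91 A A2 hU, List.forall_mem_cons.2 ⟨j92 A A2 hU, List.forall_mem_cons.2 ⟨j93 A A2 hU, List.forall_mem_cons.2 ⟨j94 A A2 hU, List.forall_mem_cons.2 ⟨j95 A A2 hU, List.forall_mem_cons.2 ⟨j96 A A2 hU, List.forall_mem_cons.2 ⟨j97 A A2 hU, List.forall_mem_cons.2 ⟨j98 A A2 hU, List.forall_mem_cons.2 ⟨j99 A A2 hU, List.forall_mem_cons.2 ⟨j100 A A2 hU, List.forall_mem_cons.2 ⟨j101 A A2 hU, List.forall_mem_cons.2 ⟨j102 A A2 hU, List.forall_mem_cons.2 ⟨j103 A A2 hU, List.forall_mem_cons.2 ⟨j104 A A2 hU, List.forall_mem_cons.2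 ⟨j105 A A2 hU, List.forall_mem_cons.2 ⟨j106 A A2 hU, List.forall_mem_cons.2 ⟨j107 A A2 hU, List.forall_mem_cons.2 ⟨j108 A A2 hU, List.forall_mem_cons.2 ⟨j109 A A2 hU, List.forall_mem_cons.2 ⟨j110 A A2 hU, List.forall_mem_cons.2 ⟨j111 A A2 hU, List.forall_mem_cons.2 ⟨j112 A A2 hU, List.forall_mem_cons.2 ⟨j113 A A2 hU, List.forall_mem_cons.2 ⟨j114 A A2 hU, List.forall_mem_cons.2 ⟨j115 A A2 hU, List.forall_mem_cons.2 ⟨j116 A A2 hU, List.forall_mem_cons.2 ⟨j117 A A2 hU, List.forall_mem_cons.2 ⟨j118 A A2 hU, List.forall_mem_cons.2 ⟨j119 A A2 hU, List.forall_mem_cons.2 ⟨j120 A A2 hU, List.forall_mem_cons.2 ⟨j121 A A2 hU, List.forall_mem_cons.2 ⟨j122 A A2 hU, List.forall_mem_cons.2 ⟨j123 A A2 hU, List.forall_mem_cons.2 ⟨j124 A A2 hU, List.forall_mem_cons.2 ⟨j125 A A2 hU, List.forall_mem_cons.2 ⟨j126 A A2 hU, List.forall_mem_cons.2 ⟨j127 A A2 hU, List.forall_mem_cons.2 ⟨j128 A A2 hU, List.forall_mem_cons.2 ⟨j129 A A2 hU, List.forall_mem_cons.2 ⟨j130 A A2 hU, List.forall_mem_cons.2 ⟨j131 A A2 hU, List.forall_mem_cons.2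 ⟨j132 A A2 hU, List.forall_mem_cons.2 ⟨j133 A A2 hU, List.forall_mem_cons.2 ⟨j134 A A2 hU, List.forall_mem_cons.2 ⟨j135 A A2 hU, List.forall_mem_cons.2 ⟨j136 A A2 hU, List.forall_mem_cons.2 ⟨j137 A A2 hU, List.forall_mem_cons.2 ⟨j138 A A2 hU, List.forall_mem_cons.2 ⟨j139 A A2 hU, List.forall_mem_cons.2 ⟨j140 A A2 hU, List.forall_mem_cons.2 ⟨j141 A A2 hU, List.forall_mem_cons.2 ⟨j142 A A2 hU, List.forall_mem_cons.2 ⟨j143 A A2 hU, List.forall_mem_cons.2 ⟨j144 A A2 hU, List.forall_mem_cons.2 ⟨j145 A A2 hU, List.forall_mem_cons.2 ⟨j146 A A2 hU, List.forall_mem_cons.2 ⟨j147 A A2 hU, List.forall_mem_cons.2 ⟨j148 A A2 hU, List.forall_mem_cons.2 ⟨j149 A A2 hU, List.forall_mem_cons.2 ⟨j150 A A2 hU, List.forall_mem_cons.2 ⟨j151 A A2 hU, List.forall_mem_cons.2 ⟨j152 A A2 hU, List.forall_mem_cons.2 ⟨j153 A A2 hU, List.forall_mem_cons.2 ⟨j154 A A2 hU, List.forall_mem_cons.2 ⟨j155 A A2 hU, List.forall_mem_cons.2 ⟨j156 A A2 hU, List.forall_mem_cons.2 ⟨j157 A A2 hU, List.forall_mem_cons.2 ⟨j158 A A2 hU, List.forall_mem_cons.2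 ⟨j159 A A2 hU, List.forall_mem_cons.2 ⟨j160 A A2 hU, List.forall_mem_cons.2 ⟨j161 A A2 hU, List.forall_mem_cons.2 ⟨j162 A A2 hU, List.forall_mem_cons.2 ⟨j163 A A2 hU, List.forall_mem_cons.2 ⟨j164 A A2 hU, List.forall_mem_cons.2 ⟨j165 A A2 hU, List.forall_mem_cons.2 ⟨j166 A A2 hU, List.forall_mem_cons.2 ⟨j167 A A2 hU, List.forall_mem_cons.2 ⟨j168 A A2 hU, List.forall_mem_cons.2 ⟨j169 A A2 hU, List.forall_mem_cons.2 ⟨j170 A A2 hU, List.forall_mem_cons.2 ⟨j171 A A2 hU, List.forall_mem_cons.2 ⟨j172 A A2 hU, List.forall_mem_cons.2 ⟨j173 A A2 hU, List.forall_mem_cons.2 ⟨j174 A A2 hU, List.forall_mem_cons.2 ⟨j175 A A2 hU, List.forall_mem_cons.2 ⟨j176 A A2 hU, List.forall_mem_cons.2 ⟨j177 A A2 hU, List.forall_mem_cons.2 ⟨j178 A A2 hU, List.forall_mem_cons.2 ⟨j179 A A2 hU, List.forall_mem_cons.2 ⟨j180 A A2 hU, List.forall_mem_cons.2 ⟨j181 A A2 hU, List.forall_mem_cons.2 ⟨j182 A A2 hU, List.forall_mem_cons.2 ⟨j183 A A2 hU, List.forall_mem_cons.2 ⟨j184 A A2 hU, List.forall_mem_cons.2 ⟨j185 A A2 hU, List.forall_mem_cons.2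 ⟨j186 A A2 hU, List.forall_mem_cons.2 ⟨j187 A A2 hU, List.forall_mem_cons.2 ⟨j188 A A2 hU, List.forall_mem_cons.2 ⟨j189 A A2 hU, List.forall_mem_cons.2 ⟨j190 A A2 hU, List.forall_mem_cons.2 ⟨j191 A A2 hU, List.forall_mem_cons.2 ⟨j192 A A2 hU, List.forall_mem_cons.2 ⟨j193 A A2 hU, List.forall_mem_cons.2 ⟨j194 A A2 hU, List.forall_mem_cons.2 ⟨j195 A A2 hU, List.forall_mem_cons.2 ⟨j196 A A2 hU, List.forall_mem_cons.2 ⟨j197 A A2 hU, List.forall_mem_cons.2 ⟨j198 A A2 hU, List.forall_mem_cons.2 ⟨j199 A A2 hU, List.forall_mem_cons.2 ⟨j200 A A2 hU, List.forall_mem_cons.2 ⟨j201 A A2 hU, List.forall_mem_cons.2 ⟨j202 A A2 hU, List.forall_mem_cons.2 ⟨j203 A A2 hU, List.forall_mem_cons.2 ⟨j204 A A2 hU, List.forall_mem_cons.2 ⟨j205 A A2 hU, List.forall_mem_cons.2 ⟨j206 A A2 hU, List.forall_mem_cons.2 ⟨j207 A A2 hU, List.forall_mem_cons.2 ⟨j208 A A2 hU, List.forall_mem_cons.2 ⟨j209 A A2 hU, List.forall_mem_cons.2 ⟨j210 A A2 hU, List.forall_mem_cons.2 ⟨j211 A A2 hU, List.forall_mem_cons.2 ⟨j212 A A2 hU, List.forall_mem_cons.2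 ⟨j213 A A2 hU, List.forall_mem_cons.2 ⟨j214 A A2 hU, List.forall_mem_cons.2 ⟨j215 A A2 hU, List.forall_mem_cons.2 ⟨j216 A A2 hU, List.forall_mem_cons.2 ⟨j217 A A2 hU, List.forall_mem_cons.2 ⟨j218 A A2 hU, List.forall_mem_cons.2 ⟨j219 A A2 hU, List.forall_mem_cons.2 ⟨j220 A A2 hU, List.forall_mem_cons.2 ⟨j221 A A2 hU, List.forall_mem_cons.2 ⟨j222 A A2 hU, List.forall_mem_cons.2 ⟨j223 A A2 hU, List.forall_mem_cons.2 ⟨j224 A A2 hU, List.forall_mem_cons.2 ⟨j225 A A2 hU, List.forall_mem_cons.2 ⟨j226 A A2 hU, List.forall_mem_cons.2 ⟨j227 A A2 hU, List.forall_mem_cons.2 ⟨j228 A A2 hU, List.forall_mem_cons.2 ⟨j229 A A2 hU, List.forall_mem_cons.2 ⟨j230 A A2 hU, List.forall_mem_cons.2 ⟨j231 A A2 hU, List.forall_mem_cons.2 ⟨j232 A A2 hU, List.forall_mem_cons.2 ⟨j233 A A2 hU, List.forall_mem_cons.2 ⟨j234 A A2 hU, List.forall_mem_cons.2 ⟨j235 A A2 hU, List.forall_mem_cons.2 ⟨j236 A A2 hU, List.forall_mem_cons.2 ⟨j237 A A2 hU, List.forall_mem_cons.2 ⟨j238 A A2 hU, List.forall_mem_cons.2 ⟨j239 A A2 hU, List.forall_mem_cons.2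 ⟨j240 A A2 hU, List.forall_mem_cons.2 ⟨j241 A A2 hU, List.forall_mem_cons.2 ⟨j242 A A2 hU, List.forall_mem_cons.2 ⟨j243 A A2 hU, List.forall_mem_cons.2 ⟨j244 A A2 hU, List.forall_mem_cons.2 ⟨j245 A A2 hU, List.forall_mem_cons.2 ⟨j246 A A2 hU, List.forall_mem_cons.2 ⟨j247 A A2 hU, List.forall_mem_cons.2 ⟨j248 A A2 hU, List.forall_mem_cons.2 ⟨j249 A A2 hU, List.forall_mem_cons.2 ⟨j250 A A2 hU, List.forall_mem_cons.2 ⟨j251 A A2 hU, (by simp)⟩⟩⟩⟩⟩⟩⟩⟩⟩⟩⟩⟩⟩⟩⟩⟩⟩⟩⟩⟩⟩⟩⟩⟩⟩⟩⟩⟩⟩⟩⟩⟩⟩⟩⟩⟩⟩⟩⟩⟩⟩⟩⟩⟩⟩⟩⟩⟩⟩⟩⟩⟩⟩⟩⟩⟩⟩⟩⟩⟩⟩⟩⟩⟩⟩⟩⟩⟩⟩⟩⟩⟩⟩⟩⟩⟩⟩⟩⟩⟩⟩⟩⟩⟩⟩⟩⟩⟩⟩⟩⟩⟩⟩⟩⟩⟩⟩⟩⟩⟩⟩⟩⟩⟩⟩⟩⟩⟩⟩⟩⟩⟩⟩⟩⟩⟩⟩⟩⟩⟩⟩⟩⟩⟩⟩⟩⟩⟩⟩⟩⟩⟩⟩⟩⟩⟩⟩⟩⟩⟩⟩⟩⟩⟩⟩⟩⟩⟩⟩⟩⟩⟩⟩⟩⟩⟩⟩⟩⟩⟩⟩⟩⟩⟩⟩⟩⟩⟩⟩⟩⟩⟩⟩⟩⟩⟩⟩⟩⟩⟩⟩⟩⟩⟩⟩⟩⟩⟩⟩⟩⟩⟩⟩⟩⟩⟩⟩⟩⟩⟩⟩⟩⟩⟩⟩⟩⟩⟩⟩⟩⟩⟩⟩⟩⟩⟩⟩⟩⟩⟩⟩⟩⟩⟩⟩⟩⟩⟩⟩⟩⟩⟩⟩⟩⟩⟩⟩⟩⟩⟩⟩⟩⟩⟩⟩⟩⟩⟩⟩⟩⟩⟩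

/-- **start** -/
theorem start0 (A : Ax G S) (A2 : ∀ f : CI, f.ok G = true → Hd (val S) (f.cl G))
    (hU : ∀ e ∈ units, Hd (val S) e) :
    Hds (val S) B :=
  ini_sound A2 (fun e he => (List.mem_append.1 he).elim (hU e) (hE A.s A2 hU e)) ini_ok

/-- **after the first instant** -/
theorem start (A : Ax G S) (A2 : ∀ f : CI, f.ok G = true → Hd (val S) (f.cl G))
    (hX : ∀ c ∈ ex, Hd (val S) c) (hU : ∀ e ∈ units, Hd (val S) e) : ∀ c ∈ inv, Hd (val S) (c.map nxl) :=
  List.forall_mem_cons.2 ⟨f1 A, hns_flat.1 (stepB A (hx2 hX (start0 A A2 hU)))⟩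

end

end Vale.Agent.P032.R2.H805.S2m.W2
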